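import Mathlib
import Crest.Prelude.Def_QueryComplexity

/-! Quantum query algorithms with phase oracles: closure properties. -/

set_option autoImplicit false
open Matrix

namespace Crest.Agent.QQ

/-- sign of a bit -/
def sg (b : Bool) : ℝ := if b then -1 else 1

@[simp] lemma sg_true : sg true = -1 := rfl
@[simp] lemma sg_false : sg false = 1 := rfl
lemma sg_mul_self (b : Bool) : sg b * sg b = 1 := by cases b <;> simp
lemma sg_sq (b : Bool) : sg b ^ 2 = 1 := by cases b <;> simp
lemma abs_sg (b : Bool) : |sg b| = 1 := by cases b <;> simp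

section QA
variable {ι : Type} {W : Type} [Fintype W] [DecidableEq W]

/-- phase oracle -/
noncomputable def phase (idx : W → Option ι) (x : ι → Bool) : Matrix W W ℂ :=
  diagonal fun w => (sg ((idx w).elim false x) : ℂ)

lemma diag_sg_unitary (b : W → Bool) :
    (diagonal fun w => (sg (b w) : ℂ)) ∈ Matrix.unitaryGroup W ℂ := by
  rw [Matrix.mem_unitaryGroup_iff, star_eq_conjTranspose, diagonal_conjTranspose,
    diagonal_mul_diagonal, ← diagonal_one]
  congr 1; funext w
  cases h : b w <;> simp [h]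

lemma phase_unitary (idx : W → Option ι) (x : ι → Bool) :
    phase idx x ∈ Matrix.unitaryGroup W ℂ := diag_sg_unitary _

lemma star_phase (idx : W → Option ι) (x : ι → Bool) : star (phase idx x) = phase idx x := by
  rw [phase, star_eq_conjTranspose, diagonal_conjTranspose]
  congr 1; funext w; simp

lemma phase_none (x : ι → Bool) : phase (fun _ : W => (none : Option ι)) x = 1 := by
  simp [phase]

/-- `A` is implemented with `q` phase queries -/
def QA : ℕ → ((ι → Bool) → Matrix W W ℂ) → Prop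
  | 0, A => ∃ U ∈ Matrix.unitaryGroup W ℂ, ∀ x, A x = U
  | q + 1, A => ∃ (B : (ι → Bool) → Matrix W W ℂ) (idx : W → Option ι),
      ∃ U ∈ Matrix.unitaryGroup W ℂ, QA q B ∧ ∀ x, A x = U * phase idx x * B x

lemma QA.const {U : Matrix W W ℂ} (hU : U ∈ Matrix.unitaryGroup W ℂ) :
    QA 0 (fun _ : ι → Bool => U) := ⟨U, hU, fun _ => rfl⟩

lemma QA.congr {q : ℕ} {A B : (ι → Bool) → Matrix W W ℂ} (h : QA q A) (e : ∀ x, B x = A x) :
    QA q B := by
  have : B = A := funext e
  rwa [this]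

lemma QA.unitary : ∀ {q : ℕ} {A : (ι → Bool) → Matrix W W ℂ}, QA q A → ∀ x,
    A x ∈ Matrix.unitaryGroup W ℂ
  | 0, _, ⟨_, hU, h⟩, x => h x ▸ hU
  | _ + 1, _, ⟨_, idx, _, hU, hB, h⟩, x => by
      rw [h x]; exact mul_mem (mul_mem hU (phase_unitary idx x)) (hB.unitary x)

lemma QA.mul_left {U : Matrix W W ℂ} (hU : U ∈ Matrix.unitaryGroup W ℂ) :
    ∀ {q : ℕ} {A : (ι → Bool) → Matrix W W ℂ}, QA q A → QA q (fun x => U * A x)
  | 0, _, ⟨V, hV, h⟩ => ⟨U * V, mul_mem hU hV, fun x => by simp [h x]⟩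
  | _ + 1, _, ⟨B, idx, V, hV, hB, h⟩ =>
      ⟨B, idx, U * V, mul_mem hU hV, hB, fun x => by simp [h x, mul_assoc]⟩

lemma QA.comp {p : ℕ} {A : (ι → Bool) → Matrix W W ℂ} (hA : QA p A) :
    ∀ {q : ℕ} {B : (ι → Bool) → Matrix W W ℂ}, QA q B → QA (p + q) (fun x => B x * A x)
  | 0, _, ⟨V, hV, h⟩ => (hA.mul_left hV).congr fun x => by simp [h x]
  | _ + 1, _, ⟨C, idx, V, hV, hC, h⟩ =>
      ⟨fun x => C x * A x, idx, V, hV, hA.comp hC, fun x => by simp [h x, mul_assoc]⟩

lemma QA.mul_right {U : Matrix W W ℂ} (hU : U ∈ Matrix.unitaryGroup W ℂ)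
    {q : ℕ} {A : (ι → Bool) → Matrix W W ℂ} (h : QA q A) : QA q (fun x => A x * U) := by
  simpa using (QA.const hU).comp h

lemma QA.pad {q : ℕ} {A : (ι → Bool) → Matrix W W ℂ} (h : QA q A) : QA (q + 1) A :=
  ⟨A, fun _ => none, 1, one_mem _, h, fun x => by simp [phase_none]⟩

lemma QA.mono {q q' : ℕ} {A : (ι → Bool) → Matrix W W ℂ} (h : QA q A) (hq : q ≤ q') :
    QA q' A := by
  induction hq with
  | refl => exact h
  | step _ ih => exact ih.pad

lemma QA.phase1 (idx : W → Option ι) : QA 1 (phase idx) :=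
  ⟨fun _ => 1, idx, 1, one_mem _, QA.const (one_mem _), fun x => by simp⟩

lemma QA.star : ∀ {q : ℕ} {A : (ι → Bool) → Matrix W W ℂ}, QA q A → QA q (fun x => star (A x))
  | 0, _, ⟨V, hV, h⟩ => ⟨Star.star V, Unitary.star_mem hV, fun x => by simp [h x]⟩
  | q + 1, _, ⟨B, idx, V, hV, hB, h⟩ => by
      have := ((QA.phase1 idx).mul_right (Unitary.star_mem hV)).comp hB.star
      rw [add_comm] at this
      exact this.congr fun x => by simp [h x, star_phase, mul_assoc]

lemma QA.comap {ι' : Type} (e : ι → ι') : ∀ {q : ℕ} {A : (ι → Bool) → Matrix W W ℂ},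
    QA q A → QA q (fun x : ι' → Bool => A (x ∘ e))
  | 0, _, ⟨V, hV, h⟩ => ⟨V, hV, fun x => h _⟩
  | _ + 1, _, ⟨B, idx, V, hV, hB, h⟩ =>
      ⟨fun x => B (x ∘ e), fun w => (idx w).map e, V, hV, hB.comap e, fun x => by
        simp only [h]
        congr 2
        unfold phase
        congr 1; funext w
        cases h' : idx w <;> simp [h']⟩

/-! ### Blocks -/

lemma blockDiagonal'_unitary {L : Type} [Fintype L] [DecidableEq L] {V : L → Type}
    [∀ l, Fintype (V l)] [∀ l, DecidableEq (V l)] (U : ∀ l, Matrix (V l) (V l) ℂ)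
    (hU : ∀ l, U l ∈ Matrix.unitaryGroup (V l) ℂ) :
    blockDiagonal' U ∈ Matrix.unitaryGroup (Σ l, V l) ℂ := by
  rw [Matrix.mem_unitaryGroup_iff, star_eq_conjTranspose, blockDiagonal'_conjTranspose,
    ← blockDiagonal'_mul, ← blockDiagonal'_one]
  congr 1; funext l
  exact (Matrix.mem_unitaryGroup_iff).1 (hU l)

lemma QA.block {L : Type} [Fintype L] [DecidableEq L] {V : L → Type}
    [∀ l, Fintype (V l)] [∀ l, DecidableEq (V l)] : ∀ {q : ℕ}
    {A : ∀ l, (ι → Bool) → Matrix (V l) (V l) ℂ}, (∀ l, QA q (A l)) →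
    QA q (fun x => blockDiagonal' fun l => A l x)
  | 0, A, h => by
      choose U hU hA using h
      exact ⟨blockDiagonal' U, blockDiagonal'_unitary U hU, fun x => by simp [hA]⟩
  | q + 1, A, h => by
      choose B idx U hU hB hA using h
      refine ⟨fun x => blockDiagonal' fun l => B l x, fun s => idx s.1 s.2, blockDiagonal' U,
        blockDiagonal'_unitary U hU, QA.block hB, fun x => ?_⟩
      have : phase (fun s : Σ l, V l => idx s.1 s.2) x
          = blockDiagonal' fun l => phase (idx l) x := by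
        unfold phase; rw [blockDiagonal'_diagonal]
      simp only [hA, this, ← blockDiagonal'_mul]

lemma blockDiagonal'_mulVec {L : Type} [Fintype L] [DecidableEq L] {V : L → Type}
    [∀ l, Fintype (V l)] (M : ∀ l, Matrix (V l) (V l) ℂ) (v : (Σ l, V l) → ℂ) (l : L) (a : V l) :
    (blockDiagonal' M *ᵥ v) ⟨l, a⟩ = (M l *ᵥ fun b => v ⟨l, b⟩) a := by
  simp only [mulVec, dotProduct, Fintype.sum_sigma]
  rw [Finset.sum_eq_single l]
  · simp
  · intro l' _ hl
    simp [blockDiagonal'_apply_ne _ _ _ hl.symm]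
  · simp

/-! ### Embeddings -/

variable {T : Type} [Fintype T] [DecidableEq T]

/-- matrix of an injection of basis vectors -/
def emb (e : W → T) : Matrix T W ℂ := fun t w => if t = e w then 1 else 0

omit [Fintype W] in
lemma emb_isom {e : W → T} (he : Function.Injective e) : (emb e)ᴴ * emb e = 1 := by
  ext w w'
  simp only [emb, mul_apply, conjTranspose_apply, one_apply]
  rw [Finset.sum_eq_single (e w)]
  · simp [he.eq_iff]
  · intro t _ ht; simp [ht]
  · simp

omit [Fintype T] in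
lemma emb_mulVec_apply {e : W → T} (he : Function.Injective e) (v : W → ℂ) (w : W) :
    (emb e *ᵥ v) (e w) = v w := by
  simp [emb, mulVec, dotProduct, he.eq_iff]

omit [Fintype T] [DecidableEq W] in
lemma emb_mulVec_of_not {e : W → T} (v : W → ℂ) (t : T) (ht : ∀ w, t ≠ e w) :
    (emb e *ᵥ v) t = 0 := by
  simp [emb, mulVec, dotProduct, ht]

lemma sum_emb {e : W → T} (he : Function.Injective e) (v : W → ℂ) (g : T → ℝ) :
    ∑ t, ‖(emb e *ᵥ v) t‖ ^ 2 * g t = ∑ w, ‖v w‖ ^ 2 * g (e w) := by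
  symm
  refine Finset.sum_of_injOn e he.injOn (by simp) ?_ ?_
  · intro t _ ht
    rw [emb_mulVec_of_not]
    · simp
    · intro w hw; exact ht ⟨w, by simp, hw.symm⟩
  · intro w _; rw [emb_mulVec_apply he]

/-- extension by the identity along an isometry -/
noncomputable def ext (E : Matrix T W ℂ) (M : Matrix W W ℂ) : Matrix T T ℂ :=
  E * M * Eᴴ + (1 - E * Eᴴ)

lemma ext_mul {E : Matrix T W ℂ} (hE : Eᴴ * E = 1) (M N : Matrix W W ℂ) :
    ext E M * ext E N = ext E (M * N) := by
  have h1 : ∀ X : Matrix W T ℂ, Eᴴ * (E * X) = X := fun X => by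
    rw [← Matrix.mul_assoc, hE, Matrix.one_mul]
  simp only [ext, Matrix.add_mul, Matrix.mul_add, Matrix.sub_mul, Matrix.mul_sub, Matrix.mul_assoc,
    h1, Matrix.one_mul, Matrix.mul_one]
  abel

omit [Fintype T] in
lemma ext_one (E : Matrix T W ℂ) : ext E 1 = 1 := by simp [ext]

omit [Fintype T] [DecidableEq W] in
lemma star_ext (E : Matrix T W ℂ) (M : Matrix W W ℂ) : star (ext E M) = ext E (star M) := by
  simp [ext, star_eq_conjTranspose, Matrix.mul_assoc]

lemma ext_unitary {E : Matrix T W ℂ} (hE : Eᴴ * E = 1) {M : Matrix W W ℂ}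
    (hM : M ∈ Matrix.unitaryGroup W ℂ) : ext E M ∈ Matrix.unitaryGroup T ℂ := by
  rw [Matrix.mem_unitaryGroup_iff, star_ext, ext_mul hE, (Matrix.mem_unitaryGroup_iff).1 hM,
    ext_one]

lemma ext_mulVec {E : Matrix T W ℂ} (hE : Eᴴ * E = 1) (M : Matrix W W ℂ) (v : W → ℂ) :
    ext E M *ᵥ (E *ᵥ v) = E *ᵥ (M *ᵥ v) := by
  have h1 : ext E M * E = E * M := by
    simp only [ext, Matrix.add_mul, Matrix.sub_mul, Matrix.mul_assoc, hE, Matrix.one_mul,
      Matrix.mul_one, sub_self, add_zero]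
  rw [mulVec_mulVec, mulVec_mulVec, h1]

lemma emb_diag {e : W → T} (he : Function.Injective e) (d : W → ℂ) :
    emb e * diagonal d * (emb e)ᴴ = diagonal (Function.extend e d 0) := by
  ext t t'
  rw [Matrix.mul_apply]
  simp only [mul_diagonal, conjTranspose_apply, emb, diagonal_apply]
  by_cases h : ∃ w, e w = t
  · obtain ⟨w, rfl⟩ := h
    rw [Finset.sum_eq_single w]
    · by_cases h2 : e w = t'
      · subst h2; simp [he.extend_apply]
      · simp [h2, Ne.symm h2]
    · intro w' _ hw; simp [he.eq_iff, hw.symm]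
    · simp
  · rw [Function.extend_apply' _ _ _ h]
    have : ∀ w, t ≠ e w := fun w hw => h ⟨w, hw.symm⟩
    simp [this]

lemma ext_phase {e : W → T} (he : Function.Injective e) (idx : W → Option ι) (x : ι → Bool) :
    ext (emb e) (phase idx x) = phase (Function.extend e idx fun _ => none) x := by
  have h1 := emb_diag he (fun _ => (1 : ℂ))
  rw [diagonal_one, Matrix.mul_one] at h1
  unfold ext phase
  rw [emb_diag he, h1, ← diagonal_one, diagonal_sub, diagonal_add]
  congr 1; funext t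
  by_cases h : ∃ w, e w = t
  · obtain ⟨w, rfl⟩ := h
    simp [he.extend_apply]
  · simp [Function.extend_apply' _ _ _ h]

lemma QA.ext {e : W → T} (he : Function.Injective e) : ∀ {q : ℕ}
    {A : (ι → Bool) → Matrix W W ℂ}, QA q A → QA q (fun x => ext (emb e) (A x))
  | 0, _, ⟨V, hV, h⟩ => ⟨_, ext_unitary (emb_isom he) hV, fun x => by simp [h x]⟩
  | _ + 1, _, ⟨B, idx, V, hV, hB, h⟩ =>
      ⟨fun x => QQ.ext (emb e) (B x), _, _, ext_unitary (emb_isom he) hV, hB.ext he, fun x => by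
        simp only [h x]
        rw [← ext_phase he, ext_mul (emb_isom he), ext_mul (emb_isom he)]⟩

/-- a unitary exchanging two isometries with orthogonal ranges -/
lemma exists_unitary_swap {E F : Matrix T W ℂ} (hE : Eᴴ * E = 1) (hF : Fᴴ * F = 1)
    (hEF : Fᴴ * E = 0) : ∃ G ∈ Matrix.unitaryGroup T ℂ, G * E = F := by
  have hFE : Eᴴ * F = 0 := by
    have := congrArg conjTranspose hEF
    simpa using this
  have hD : (E - F)ᴴ * (E - F) = 1 + 1 := by
    simp [Matrix.sub_mul, Matrix.mul_sub, hE, hF, hEF, hFE]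
  refine ⟨1 - (E - F) * (E - F)ᴴ, ?_, ?_⟩
  · rw [Matrix.mem_unitaryGroup_iff, star_eq_conjTranspose]
    have h2 : (E - F) * (E - F)ᴴ * ((E - F) * (E - F)ᴴ)
        = (E - F) * (E - F)ᴴ + (E - F) * (E - F)ᴴ := by
      rw [Matrix.mul_assoc, ← Matrix.mul_assoc (E - F)ᴴ, hD, Matrix.add_mul, Matrix.mul_add,
        Matrix.one_mul]
    rw [conjTranspose_sub 1, conjTranspose_one, conjTranspose_mul, conjTranspose_conjTranspose]
    generalize (E - F) * (E - F)ᴴ = P at h2
    rw [Matrix.sub_mul, Matrix.mul_sub, Matrix.mul_sub, h2]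
    simp
  · have : (E - F)ᴴ * E = 1 := by simp [Matrix.sub_mul, hE, hEF]
    rw [Matrix.sub_mul, Matrix.mul_assoc, this]; simp

end QA

end Crest.Agent.QQ
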