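import Crest.Agent.QQ.Alg

/-! Decision trees and a Fourier growth bound. -/

set_option autoImplicit false
set_option linter.unusedSectionVars false

namespace Crest.Agent.QQ

/-- decision trees over an arbitrary index type -/
inductive Tr (ι : Type) : Type where
  | ans (b : Bool) : Tr ι
  | rd (i : ι) (t₀ t₁ : Tr ι) : Tr ι

namespace Tr
variable {ι : Type}

/-- answer -/
def eval (x : ι → Bool) : Tr ι → Bool
  | ans b => b
  | rd i t₀ t₁ => if x i then t₁.eval x else t₀.eval x

/-- depth -/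
def depth : Tr ι → ℕ
  | ans _ => 0
  | rd _ t₀ t₁ => max t₀.depth t₁.depth + 1

end Tr

/-- indicator of a Boolean -/
def ind (b : Bool) : ℝ := if b then 1 else 0
@[simp] lemma ind_true : ind true = 1 := rfl
@[simp] lemma ind_false : ind false = 0 := rfl
lemma ind_nonneg (b : Bool) : 0 ≤ ind b := by cases b <;> simp
lemma ind_le_one (b : Bool) : ind b ≤ 1 := by cases b <;> simp
lemma abs_ind_le (b : Bool) : |ind b| ≤ 1 := by cases b <;> simp

variable {V : Type} [Fintype V] [DecidableEq V]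

/-- derivative weights of the multilinear extension -/
noncomputable def wt (μ : V → ℝ) (T : Finset V) (z : V → Bool) : ℝ :=
  ∏ v, if v ∈ T then sg (z v) / 2 else (1 + sg (z v) * μ v) / 2

/-- combination of partial derivatives of the multilinear extension of `F` at `μ` -/
noncomputable def Lam (c : Finset V → ℝ) (F : (V → Bool) → ℝ) (μ : V → ℝ) : ℝ :=
  ∑ z, F z * ∑ T, c T * wt μ T z

lemma sum_prod_bool (f : V → Bool → ℝ) :
    ∑ z : V → Bool, ∏ v, f v (z v) = ∏ v, (f v true + f v false) := by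
  rw [← Fintype.piFinset_univ, ← Finset.prod_univ_sum]
  simp

lemma sum_wt (μ : V → ℝ) (T : Finset V) : ∑ z, wt μ T z = if T = ∅ then 1 else 0 := by
  unfold wt
  rw [sum_prod_bool (fun v b => if v ∈ T then sg b / 2 else (1 + sg b * μ v) / 2)]
  split_ifs with h
  · subst h
    refine Finset.prod_eq_one fun v _ => ?_
    simp; ring
  · obtain ⟨v, hv⟩ := Finset.nonempty_iff_ne_empty.2 h
    exact Finset.prod_eq_zero (Finset.mem_univ v) (by simp [hv]; ring)

lemma sum_split (v : V) (g : Finset V → ℝ) :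
    ∑ T, g T = ∑ T ∈ (Finset.univ.erase v).powerset, (g T + g (insert v T)) := by
  rw [Finset.sum_add_distrib, ← Finset.sum_powerset_insert (Finset.notMem_erase v _),
    Finset.insert_erase (Finset.mem_univ v), Finset.powerset_univ]

lemma notMem_of_mem_pow {v : V} {T : Finset V} (h : T ∈ (Finset.univ.erase v).powerset) :
    v ∉ T := fun hv => by simpa using Finset.mem_powerset.1 h hv

/-- updated coefficients -/
noncomputable def cup (c : Finset V → ℝ) (v : V) (φ : ℝ) : Finset V → ℝ := fun T =>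
  if v ∈ T then 0 else c T + φ * c (insert v T)

lemma Lam_step (c : Finset V → ℝ) (μ : V → ℝ) (v : V) (F : Bool → (V → Bool) → ℝ) (φ : Bool → ℝ)
    (hφ : ∀ b T, (1 + sg b * μ v) / 2 * φ b * c (insert v T) = sg b / 2 * c (insert v T)) :
    Lam c (fun z => F (z v) z) μ = ∑ b, (1 + sg b * μ v) / 2 *
      Lam (cup c v (φ b)) (F b) (Function.update μ v (sg b)) := by
  simp only [Lam, Finset.mul_sum]
  rw [Finset.sum_comm (s := (Finset.univ : Finset Bool))]
  refine Finset.sum_congr rfl fun z _ => ?_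
  have hw : ∀ (ν : V → ℝ) (T : Finset V), wt ν T z
      = (if v ∈ T then sg (z v) / 2 else (1 + sg (z v) * ν v) / 2) *
        ∏ u ∈ Finset.univ.erase v, if u ∈ T then sg (z u) / 2 else (1 + sg (z u) * ν u) / 2 :=
    fun ν T => (Finset.mul_prod_erase _ _ (Finset.mem_univ v)).symm
  let r : Finset V → ℝ := fun T =>
    ∏ u ∈ Finset.univ.erase v, if u ∈ T then sg (z u) / 2 else (1 + sg (z u) * μ u) / 2
  have hr1 : ∀ (s : ℝ) T, (∏ u ∈ Finset.univ.erase v, if u ∈ T then sg (z u) / 2 else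
      (1 + sg (z u) * Function.update μ v s u) / 2) = r T := fun s T =>
    Finset.prod_congr rfl fun u hu => by rw [Function.update_of_ne (Finset.ne_of_mem_erase hu)]
  have hr2 : ∀ T, (∏ u ∈ Finset.univ.erase v, if u ∈ insert v T then sg (z u) / 2 else
      (1 + sg (z u) * μ u) / 2) = r T := fun T =>
    Finset.prod_congr rfl fun u hu => by simp [Finset.ne_of_mem_erase hu]
  rw [Finset.sum_eq_single (z v)]
  · rw [sum_split v, sum_split v]
    refine Finset.sum_congr rfl fun T hT => ?_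
    have hv := notMem_of_mem_pow hT
    simp only [hw, hr1, hr2, cup, hv, Finset.mem_insert_self, if_true, if_false,
      Function.update_self, sg_mul_self]
    have := hφ (z v) T
    change F (z v) z * (c T * ((1 + sg (z v) * μ v) / 2 * r T)) + _ = _
    linear_combination (-(F (z v) z * r T)) * this
  · intro b _ hb
    refine Finset.sum_eq_zero fun T _ => ?_
    by_cases hv : v ∈ T
    · simp [cup, hv]
    · have : 1 + sg (z v) * sg b = 0 := by
        cases b <;> cases h : z v <;> simp_all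
      simp [hw, hv, this]
  · simp

lemma taylor_pow (u s : ℝ) : ∀ n : ℕ,
    |(u + s) ^ (n + 2) - u ^ (n + 2) - (n + 2) * u ^ (n + 1) * s|
      ≤ (n + 1) * (n + 2) / 2 * s ^ 2 * (|u| + |s|) ^ n
  | 0 => by
      have : (u + s) ^ (0 + 2) - u ^ (0 + 2) - ((0 : ℕ) + 2) * u ^ (0 + 1) * s = s ^ 2 := by
        push_cast; ring
      rw [this, abs_of_nonneg (sq_nonneg s)]; simp
  | n + 1 => by
      have ih := taylor_pow u s n
      set R := (u + s) ^ (n + 2) - u ^ (n + 2) - (n + 2) * u ^ (n + 1) * s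
      have e : (u + s) ^ (n + 1 + 2) - u ^ (n + 1 + 2) - ((n + 1 : ℕ) + 2) * u ^ (n + 1 + 1) * s
          = (u + s) * R + (n + 2) * u ^ (n + 1) * s ^ 2 := by
        simp only [R]; push_cast; ring
      rw [e]
      have hM : 0 ≤ |u| + |s| := by positivity
      have h1 : |(u + s) * R| ≤ (|u| + |s|) * ((n + 1) * (n + 2) / 2 * s ^ 2 * (|u| + |s|) ^ n) := by
        rw [abs_mul]
        exact mul_le_mul (abs_add_le _ _) ih (abs_nonneg _) hM
      have h2 : |((n : ℝ) + 2) * u ^ (n + 1) * s ^ 2| ≤ (n + 2) * (|u| + |s|) ^ (n + 1) * s ^ 2 := by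
        rw [abs_mul, abs_mul, abs_pow, abs_of_nonneg (sq_nonneg s),
          abs_of_nonneg (by positivity : (0 : ℝ) ≤ n + 2)]
        gcongr
        linarith [abs_nonneg s]
      refine (abs_add_le _ _).trans ((add_le_add h1 h2).trans (le_of_eq ?_))
      push_cast; ring

lemma step_ineq {n : ℕ} (hn : Even n) {B : ℝ} (hB : 2 * (n + 2 : ℝ) ≤ B) (u u' : ℝ)
    (P φ : Bool → ℝ) (hP : ∀ b, 0 ≤ P b) (hP1 : ∑ b, P b = 1) (h0 : ∑ b, P b * φ b = 0)
    (hφ : ∀ b, |φ b| ≤ 2) :
    ∑ b, P b * (u + φ b * (u' / B)) ^ (n + 2)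
      ≤ (1 + 6 * (n + 2) ^ 2 / B ^ 2) * (u ^ (n + 2) + u' ^ (n + 2)) := by
  have hn0 : (0 : ℝ) ≤ n := by positivity
  have hB0 : 0 < B := by linarith
  set M := max |u| |u'|
  have hM0 : 0 ≤ M := le_max_of_le_left (abs_nonneg _)
  have he : Even (n + 2) := hn.add even_two
  have hMe : M ^ (n + 2) ≤ u ^ (n + 2) + u' ^ (n + 2) := by
    have a1 := he.pow_nonneg u
    have a2 := he.pow_nonneg u'
    rcases max_choice |u| |u'| with h | h <;> simp only [M, h, he.pow_abs] <;> linarith
  have h3 : (1 + 2 / B) ^ n ≤ 3 := by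
    have : (1 + 2 / B) ^ n ≤ Real.exp (2 / B) ^ n :=
      pow_le_pow_left₀ (by positivity) (by linarith [Real.add_one_le_exp (2 / B)]) n
    rw [← Real.exp_nat_mul] at this
    have h1 : (n : ℝ) * (2 / B) ≤ 1 := by
      rw [← mul_div_assoc, div_le_one hB0]; linarith
    exact this.trans ((Real.exp_le_exp.2 h1).trans (by linarith [Real.exp_one_lt_d9]))
  have hb : ∀ b, (u + φ b * (u' / B)) ^ (n + 2) ≤ u ^ (n + 2)
      + (n + 2) * u ^ (n + 1) * (u' / B) * φ b + 6 * (n + 2) ^ 2 / B ^ 2 * M ^ (n + 2) := by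
    intro b
    have ht := (abs_le.1 (taylor_pow u (φ b * (u' / B)) n)).2
    have hs : |φ b * (u' / B)| ≤ 2 * (M / B) := by
      rw [abs_mul, abs_div, abs_of_pos hB0]
      gcongr
      · exact hφ b
      · exact le_max_right _ _
    have hs2 : (φ b * (u' / B)) ^ 2 ≤ (2 * (M / B)) ^ 2 := by
      rw [← sq_abs]; gcongr
    have hs3 : (|u| + |φ b * (u' / B)|) ^ n ≤ 3 * M ^ n := by
      calc _ ≤ (M * (1 + 2 / B)) ^ n := by
            gcongr
            have : |u| ≤ M := le_max_left _ _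
            have e : M * (1 + 2 / B) = M + 2 * (M / B) := by ring
            linarith
        _ ≤ _ := by rw [mul_pow, mul_comm]; gcongr
    have : ((n : ℝ) + 1) * (n + 2) / 2 * (φ b * (u' / B)) ^ 2 * (|u| + |φ b * (u' / B)|) ^ n
        ≤ (n + 2) * (n + 2) / 2 * (2 * (M / B)) ^ 2 * (3 * M ^ n) := by
      gcongr; linarith
    have e : ((n : ℝ) + 2) * (n + 2) / 2 * (2 * (M / B)) ^ 2 * (3 * M ^ n)
        = 6 * (n + 2) ^ 2 / B ^ 2 * M ^ (n + 2) := by field_simp; ring
    linarith
  calc _ ≤ ∑ b, P b * (u ^ (n + 2) + (n + 2) * u ^ (n + 1) * (u' / B) * φ b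
        + 6 * (n + 2) ^ 2 / B ^ 2 * M ^ (n + 2)) :=
        Finset.sum_le_sum fun b _ => mul_le_mul_of_nonneg_left (hb b) (hP b)
    _ = u ^ (n + 2) + 6 * (n + 2) ^ 2 / B ^ 2 * M ^ (n + 2) := by
        simp only [Fintype.sum_bool] at hP1 h0 ⊢
        linear_combination (u ^ (n + 2) + 6 * (n + 2) ^ 2 / B ^ 2 * M ^ (n + 2)) * hP1
          + ((n + 2) * u ^ (n + 1) * (u' / B)) * h0
    _ ≤ _ := by
        have a2 := he.pow_nonneg u'
        have : 6 * ((n : ℝ) + 2) ^ 2 / B ^ 2 * M ^ (n + 2)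
            ≤ 6 * (n + 2) ^ 2 / B ^ 2 * (u ^ (n + 2) + u' ^ (n + 2)) := by gcongr
        linarith

/-- potential -/
noncomputable def Pot (n : ℕ) (B : ℝ) (c : Finset V → ℝ) : ℝ :=
  ∑ T, (c T * B ^ T.card) ^ (n + 2)

lemma Pot_nonneg {n : ℕ} (hn : Even n) (B : ℝ) (c : Finset V → ℝ) : 0 ≤ Pot n B c :=
  Finset.sum_nonneg fun _ _ => (hn.add even_two).pow_nonneg _

lemma Pot_step {n : ℕ} (hn : Even n) {B : ℝ} (hB : 2 * (n + 2 : ℝ) ≤ B) (c : Finset V → ℝ) (v : V)
    (P φ : Bool → ℝ) (hP : ∀ b, 0 ≤ P b) (hP1 : ∑ b, P b = 1) (h0 : ∑ b, P b * φ b = 0)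
    (hφ : ∀ b, |φ b| ≤ 2) :
    ∑ b, P b * Pot n B (cup c v (φ b)) ≤ (1 + 6 * (n + 2) ^ 2 / B ^ 2) * Pot n B c := by
  have hB0 : 0 < B := by have : (0 : ℝ) ≤ n := by positivity
                         linarith
  simp only [Pot, sum_split v, Finset.mul_sum]
  rw [Finset.sum_comm]
  refine Finset.sum_le_sum fun T hT => ?_
  have hv := notMem_of_mem_pow hT
  refine le_trans (le_of_eq ?_) (step_ineq hn hB (c T * B ^ T.card)
    (c (insert v T) * B ^ (insert v T).card) P φ hP hP1 h0 hφ)
  refine Finset.sum_congr rfl fun b _ => ?_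
  simp only [cup, hv, if_false, Finset.mem_insert_self, if_true, zero_mul,
    Finset.card_insert_of_notMem hv]
  rw [zero_pow (by omega), add_zero]
  congr 2
  field_simp
  ring

theorem tree_growth {n : ℕ} (hn : Even n) {B : ℝ} (hB : 2 * (n + 2 : ℝ) ≤ B) {a : ℝ} (ha : 0 < a) :
    ∀ (t : Tr V) (c : Finset V → ℝ) (μ : V → ℝ),
      (∀ v, |μ v| ≤ 1 / 2 ∨ ((μ v = 1 ∨ μ v = -1) ∧ ∀ T, v ∈ T → c T = 0)) →
      |Lam c (fun z => ind (t.eval z)) μ|
        ≤ a + (1 + 6 * (n + 2) ^ 2 / B ^ 2) ^ t.depth * Pot n B c / a ^ (n + 1) := by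
  intro t
  induction t with
  | ans b =>
    intro c μ _
    have h1 : Lam c (fun z => ind ((Tr.ans b).eval z)) μ = ind b * c ∅ := by
      simp only [Lam, Tr.eval, ← Finset.mul_sum]
      rw [Finset.sum_comm]
      simp [← Finset.mul_sum, sum_wt]
    have h2 : |c ∅| ^ (n + 2) ≤ Pot n B c := by
      have := Finset.single_le_sum (f := fun T : Finset V => (c T * B ^ T.card) ^ (n + 2))
        (fun _ _ => (hn.add even_two).pow_nonneg _) (Finset.mem_univ ∅)
      simpa [Pot, (hn.add even_two).pow_abs] using this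
    have h3 : |c ∅| ≤ a + |c ∅| ^ (n + 2) / a ^ (n + 1) := by
      by_cases h : |c ∅| ≤ a
      · exact h.trans (le_add_of_nonneg_right (by positivity))
      · push Not at h
        have : |c ∅| ≤ |c ∅| ^ (n + 2) / a ^ (n + 1) := by
          rw [le_div_iff₀ (by positivity), pow_succ' |c ∅| (n + 1)]
          gcongr
        linarith
    rw [h1, abs_mul]
    simp only [Tr.depth, pow_zero, one_mul]
    calc _ ≤ 1 * |c ∅| := by gcongr; exact abs_ind_le b
      _ ≤ a + |c ∅| ^ (n + 2) / a ^ (n + 1) := by rw [one_mul]; exact h3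
      _ ≤ _ := by gcongr
  | rd v t₀ t₁ ih₀ ih₁ =>
    intro c μ hinv
    let P : Bool → ℝ := fun b => (1 + sg b * μ v) / 2
    obtain ⟨φ, hφ1, hφ2, hφ3⟩ : ∃ φ : Bool → ℝ,
        (∀ b T, P b * φ b * c (insert v T) = sg b / 2 * c (insert v T)) ∧
        ∑ b, P b * φ b = 0 ∧ ∀ b, |φ b| ≤ 2 := by
      rcases hinv v with h | h
      · have h' := abs_le.1 h
        have hp : ∀ b, 1 / 2 ≤ 1 + sg b * μ v := fun b => by cases b <;> simp <;> linarith
        have e : ∀ b, P b * (sg b / (1 + sg b * μ v)) = sg b / 2 := fun b => by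
          have := hp b
          simp only [P]; field_simp
        refine ⟨fun b => sg b / (1 + sg b * μ v), fun b T => by rw [e], by simp [e]; ring,
          fun b => ?_⟩
        have := hp b
        rw [abs_div, abs_sg, abs_of_pos (by linarith), div_le_iff₀ (by linarith)]
        linarith
      · exact ⟨fun _ => 0, fun b T => by simp [h.2 _ (Finset.mem_insert_self v T)], by simp,
          by simp⟩
    have hP : ∀ b, 0 ≤ P b := fun b => by
      have : |μ v| ≤ 1 := by
        rcases hinv v with h | ⟨h | h, -⟩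
        · linarith
        · simp [h]
        · simp [h]
      have := abs_le.1 this
      cases b <;> simp [P] <;> linarith
    have hP1 : ∑ b, P b = 1 := by simp [P]; ring
    let F : Bool → (V → Bool) → ℝ := fun b z => ind ((if b then t₁ else t₀).eval z)
    have hF : (fun z => ind ((Tr.rd v t₀ t₁).eval z)) = fun z => F (z v) z := by
      funext z; simp only [F, Tr.eval]; cases z v <;> simp
    have hinv' : ∀ b u, |Function.update μ v (sg b) u| ≤ 1 / 2 ∨
        ((Function.update μ v (sg b) u = 1 ∨ Function.update μ v (sg b) u = -1) ∧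
          ∀ T, u ∈ T → cup c v (φ b) T = 0) := by
      intro b u
      by_cases hu : u = v
      · subst hu
        right
        refine ⟨by cases b <;> simp, fun T hT => by simp [cup, hT]⟩
      · rw [Function.update_of_ne hu]
        refine (hinv u).imp_right fun h => ⟨h.1, fun T hT => ?_⟩
        simp [cup, h.2 T hT, h.2 _ (Finset.mem_insert_of_mem hT)]
    set κ := 1 + 6 * ((n : ℝ) + 2) ^ 2 / B ^ 2
    have hκ : 1 ≤ κ := le_add_of_nonneg_right (by positivity)
    set D := max t₀.depth t₁.depth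
    have hb : ∀ b, |Lam (cup c v (φ b)) (F b) (Function.update μ v (sg b))|
        ≤ a + κ ^ D * Pot n B (cup c v (φ b)) / a ^ (n + 1) := by
      intro b
      have hp := Pot_nonneg hn B (cup c v (φ b))
      cases b
      · refine (ih₀ _ _ (hinv' false)).trans ?_
        gcongr; exact le_max_left _ _
      · refine (ih₁ _ _ (hinv' true)).trans ?_
        gcongr; exact le_max_right _ _
    rw [hF, Lam_step c μ v F φ hφ1]
    have hs := Pot_step hn hB c v P φ hP hP1 hφ2 hφ3
    calc _ ≤ ∑ b, P b * (a + κ ^ D * Pot n B (cup c v (φ b)) / a ^ (n + 1)) := by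
          refine (Finset.abs_sum_le_sum_abs _ _).trans (Finset.sum_le_sum fun b _ => ?_)
          rw [abs_mul, abs_of_nonneg (hP b)]
          exact mul_le_mul_of_nonneg_left (hb b) (hP b)
      _ = a + κ ^ D * (∑ b, P b * Pot n B (cup c v (φ b))) / a ^ (n + 1) := by
          simp only [Fintype.sum_bool] at hP1 ⊢
          linear_combination a * hP1
      _ ≤ a + κ ^ D * (κ * Pot n B c) / a ^ (n + 1) := by gcongr
      _ = _ := by simp only [Tr.depth]; ring

end Crest.Agent.QQ
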