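import Crest.Agent.QQ.Gauss
import Crest.Agent.QQ.Growth

/-! The Gaussian chain identity for the multi-fold Forrelation distribution. -/

set_option autoImplicit false
set_option linter.unusedSectionVars false
open MeasureTheory MvPolynomial

namespace Crest.Agent.QQ

lemma sum_update {J A : Type} [Fintype J] [DecidableEq J] [Fintype A] (i : J) (g : (J → A) → ℝ) :
    ∑ π : J → A, ∑ b, g (Function.update π i b) = Fintype.card A * ∑ π, g π := by
  let e : (J → A) × A ≃ (J → A) × A :=
    { toFun := fun p => (Function.update p.1 i p.2, p.1 i)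
      invFun := fun p => (Function.update p.1 i p.2, p.1 i)
      left_inv := fun p => by simp
      right_inv := fun p => by simp }
  have h := Fintype.sum_equiv e (fun p => g (Function.update p.1 i p.2)) (fun p => g p.1)
    (fun p => rfl)
  rw [Fintype.sum_prod_type, Fintype.sum_prod_type] at h
  rw [h]
  simp [Finset.mul_sum]

variable {A : Type} [Fintype A] [DecidableEq A] {K : ℕ} (H : A → A → ℝ) (σ : ℝ)

/-- block matrix -/
def bO (H : A → A → ℝ) : Fin K × A → Fin K × A → ℝ := fun i i' =>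
  if i.1 = i'.1 then H i.2 i'.2 else 0

/-- right factor -/
noncomputable def Rt (σ : ℝ) (j : Fin (K + 1)) (a : A) : MvPolynomial (Fin K × A) ℝ :=
  if h : j.val < K then C σ * X (⟨j, h⟩, a) else 1

/-- left factor -/
noncomputable def Lf (t : ℝ) (j : Fin (K + 1)) (a : A) : MvPolynomial (Fin K × A) ℝ :=
  if h : j.val = 0 then C t else C σ * lin (bO H) (⟨j - 1, by omega⟩, a)

/-- the mean vector -/
noncomputable def wP (t : ℝ) (v : Fin (K + 1) × A) : MvPolynomial (Fin K × A) ℝ :=
  Lf H σ t v.1 v.2 * Rt σ v.1 v.2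

/-- product outside `T` -/
noncomputable def PT (α ζ : Fin (K + 1) × A → ℝ) (t : ℝ) (T : Finset (Fin (K + 1) × A)) :
    MvPolynomial (Fin K × A) ℝ := ∏ v ∈ Tᶜ, (C (α v) + C (ζ v) * wP H σ t v)

lemma Rt_castSucc (j : Fin K) (a : A) : Rt σ j.castSucc a = C σ * X (j, a) := by
  simp [Rt]

lemma Rt_last (a : A) : Rt σ (Fin.last K) a = 1 := by simp [Rt]

lemma Lf_zero (t : ℝ) (a : A) : Lf (K := K) H σ t 0 a = C t := by simp [Lf]

lemma Lf_succ (t : ℝ) (j : Fin K) (a : A) : Lf H σ t j.succ a = C σ * lin (bO H) (j, a) := by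
  simp [Lf]

lemma pderiv_wP (t : ℝ) (j : Fin K) (a : A) (v : Fin (K + 1) × A) (hv : v ≠ (j.castSucc, a)) :
    pderiv (j, a) (wP H σ t v) = if v.1 = j.succ then C (σ * H v.2 a) * Rt σ v.1 v.2 else 0 := by
  obtain ⟨i, b⟩ := v
  have hR : pderiv (j, a) (Rt σ i b) = 0 := by
    unfold Rt
    split_ifs with h
    · rw [pderiv_C_mul, pderiv_X_of_ne, mul_zero]
      intro e
      simp only [Prod.mk.injEq] at e
      apply hv
      rw [← e.1, ← e.2]; rfl
    · simp
  simp only [wP, pderiv_mul, hR, mul_zero, add_zero]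
  refine Fin.cases ?_ (fun i => ?_) i
  · rw [Lf_zero, if_neg (Fin.succ_ne_zero j).symm]; simp
  · rw [Lf_succ, pderiv_C_mul, pderiv_lin]
    by_cases h : i = j
    · subst h; simp [bO]
    · simp [bO, h]

lemma chain_step (α ζ : Fin (K + 1) × A → ℝ) (t : ℝ) (j : Fin K) (a : A)
    (T : Finset (Fin (K + 1) × A)) (h1 : (j.castSucc, a) ∈ T) (h2 : ∀ b, (j.succ, b) ∉ T) :
    GE (Rt σ j.castSucc a * PT H σ α ζ t T) = σ ^ 2 * ∑ b, H b a * ζ (j.succ, b) *
      GE (Rt σ j.succ b * PT H σ α ζ t (insert (j.succ, b) T)) := by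
  rw [Rt_castSucc, mul_assoc, GE_C_mul, stein, PT, pderiv_prod, map_sum]
  have : ∀ v ∈ Tᶜ, GE (pderiv (j, a) (C (α v) + C (ζ v) * wP H σ t v) *
      ∏ u ∈ Tᶜ.erase v, (C (α u) + C (ζ u) * wP H σ t u)) = if v.1 = j.succ then
        σ * (H v.2 a * ζ v * GE (Rt σ v.1 v.2 * PT H σ α ζ t (insert v T))) else 0 := by
    intro v hv
    have hne : v ≠ (j.castSucc, a) := fun e => (Finset.mem_compl.1 hv) (e ▸ h1)
    rw [map_add, pderiv_C, zero_add, pderiv_C_mul, pderiv_wP H σ t j a v hne, PT,
      Finset.compl_insert]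
    split_ifs
    · rw [mul_assoc, GE_C_mul, mul_assoc, GE_C_mul]; ring
    · simp
  rw [Finset.sum_congr rfl this, Finset.sum_subset (Finset.subset_univ _), Fintype.sum_prod_type,
    Finset.sum_eq_single j.succ]
  · simp [Finset.mul_sum, sq, mul_assoc]
  · intro i _ hi; simp [hi]
  · simp
  · intro v _ hv
    rw [if_neg]
    intro e
    apply h2 v.2
    rw [← e]; simpa using hv

/-- prefix of the graph of a path -/
def Tpre (j : ℕ) (π : Fin (K + 1) → A) : Finset (Fin (K + 1) × A) :=
  Finset.univ.filter fun v => v.1.val ≤ j ∧ π v.1 = v.2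

/-- prefix of the path weight -/
def hwp (j : ℕ) (π : Fin (K + 1) → A) : ℝ :=
  ∏ i : Fin K, if i.val < j then H (π i.succ) (π i.castSucc) else 1

/-- graph of a path -/
def gr (π : Fin (K + 1) → A) : Finset (Fin (K + 1) × A) := Finset.univ.filter fun v => π v.1 = v.2

/-- path weight -/
def hw (π : Fin (K + 1) → A) : ℝ := ∏ i : Fin K, H (π i.succ) (π i.castSucc)

lemma prod_gr (π : Fin (K + 1) → A) (f : Fin (K + 1) × A → ℝ) :
    ∏ v ∈ gr π, f v = ∏ i, f (i, π i) := by
  rw [gr, Finset.prod_filter, Fintype.prod_prod_type]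
  simp

lemma card_gr (π : Fin (K + 1) → A) : (gr π).card = K + 1 := by
  have := prod_gr π (fun _ => 2)
  simp only [Finset.prod_const, Finset.card_univ, Fintype.card_fin] at this
  exact pow_right_injective₀ (by norm_num) (by norm_num) this

lemma gr_injective : Function.Injective (gr : (Fin (K + 1) → A) → _) := by
  intro π π' h
  funext i
  have : (i, π i) ∈ gr π' := h ▸ by simp [gr]
  simpa [gr, eq_comm] using this

theorem chain [Nonempty A] (α ζ : Fin (K + 1) × A → ℝ) (t : ℝ) :
    ∑ a, ζ (0, a) * GE (Rt σ 0 a * PT H σ α ζ t {(0, a)})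
      = (σ ^ 2) ^ K * ∑ π, hw H π * (∏ v ∈ gr π, ζ v) * GE (PT H σ α ζ t (gr π)) := by
  let E : Fin (K + 1) → ℝ := fun j => ∑ π, hwp H j π * (∏ v ∈ Tpre j π, ζ v) *
    GE (Rt σ j (π j) * PT H σ α ζ t (Tpre j π))
  have hN : (0 : ℝ) < Fintype.card A := by exact_mod_cast Fintype.card_pos
  have step : ∀ j : Fin K, E j.castSucc = σ ^ 2 * Fintype.card A * E j.succ := by
    intro j
    simp only [E]
    rw [mul_assoc, ← sum_update j.succ, Finset.mul_sum]
    refine Finset.sum_congr rfl fun π _ => ?_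
    have hn : ∀ b, (j.succ, b) ∉ Tpre (j.castSucc : ℕ) π := fun b => by simp [Tpre]
    rw [chain_step H σ α ζ t j _ _ (by simp [Tpre]) hn, mul_left_comm, Finset.mul_sum]
    congr 1
    refine Finset.sum_congr rfl fun b _ => ?_
    have hne : j.castSucc ≠ j.succ := (Fin.castSucc_lt_succ).ne
    have e1 : Tpre (j.succ : ℕ) (Function.update π j.succ b)
        = insert (j.succ, b) (Tpre (j.castSucc : ℕ) π) := by
      ext ⟨i, c⟩
      simp only [Tpre, Finset.mem_filter, Finset.mem_univ, true_and, Finset.mem_insert,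
        Prod.mk.injEq, Fin.val_succ, Fin.val_castSucc]
      by_cases hi : i = j.succ
      · subst hi; simp [eq_comm]
      · have : i.val ≠ j.val + 1 := fun h => hi (Fin.ext h)
        rw [Function.update_of_ne hi]
        constructor
        · rintro ⟨h, h'⟩; exact Or.inr ⟨by omega, h'⟩
        · rintro (⟨h, -⟩ | ⟨h, h'⟩)
          · exact absurd h hi
          · exact ⟨by omega, h'⟩
    have e2 : hwp H (j.succ : ℕ) (Function.update π j.succ b)
        = H b (π j.castSucc) * hwp H (j.castSucc : ℕ) π := by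
      unfold hwp
      rw [← Finset.mul_prod_erase _ _ (Finset.mem_univ j),
        ← Finset.mul_prod_erase _ _ (Finset.mem_univ j)]
      simp only [Fin.val_succ, lt_add_iff_pos_right, zero_lt_one, if_true, Function.update_self,
        Function.update_of_ne hne, Fin.val_castSucc, lt_irrefl, if_false, one_mul]
      congr 1
      refine Finset.prod_congr rfl fun i hi => ?_
      have h1 : i.val ≠ j.val := fun h => Finset.ne_of_mem_erase hi (Fin.ext h)
      by_cases h2 : i.val < j.val
      · rw [if_pos (by omega), if_pos h2, Function.update_of_ne, Function.update_of_ne]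
        · intro h; have := congrArg Fin.val h; simp at this; omega
        · intro h; have := congrArg Fin.val h; simp at this; omega
      · rw [if_neg (by omega), if_neg h2]
    rw [e1, e2, Finset.prod_insert (hn b), Function.update_self]
    ring
  have ind : ∀ j : Fin (K + 1), E 0 = (σ ^ 2 * Fintype.card A) ^ (j : ℕ) * E j := by
    intro j
    induction j using Fin.induction with
    | zero => simp
    | succ j ih => rw [ih, step]; simp [pow_succ, mul_assoc]
  have h0 : (Fintype.card A : ℝ) * E 0 = (Fintype.card A) ^ (K + 1) *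
      ∑ a, ζ (0, a) * GE (Rt σ 0 a * PT H σ α ζ t {(0, a)}) := by
    have hT : ∀ π : Fin (K + 1) → A, Tpre 0 π = {(0, π 0)} := fun π => by
      ext ⟨i, c⟩
      simp only [Tpre, Finset.mem_filter, Finset.mem_univ, true_and, Finset.mem_singleton,
        Prod.mk.injEq, nonpos_iff_eq_zero, Fin.val_eq_zero_iff]
      constructor
      · rintro ⟨rfl, h⟩; exact ⟨rfl, h.symm⟩
      · rintro ⟨rfl, h⟩; exact ⟨rfl, h.symm⟩
    simp only [E, Fin.val_zero, hT, hwp, not_lt_zero, if_false, Finset.prod_const_one, one_mul,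
      Finset.prod_singleton]
    rw [← sum_update (0 : Fin (K + 1))]
    simp
  have hK : E (Fin.last K) = ∑ π, hw H π * (∏ v ∈ gr π, ζ v) * GE (PT H σ α ζ t (gr π)) := by
    have hT : ∀ π : Fin (K + 1) → A, Tpre K π = gr π := fun π => by
      ext ⟨i, c⟩; simp [Tpre, gr, Nat.lt_succ_iff.1 i.2]
    simp [E, hT, hwp, hw, Rt_last]
  have := ind (Fin.last K)
  rw [hK, Fin.val_last] at this
  rw [this] at h0
  apply mul_left_cancel₀ (pow_pos hN (K + 1)).ne'
  rw [← h0]; ring

lemma hasDerivAt_PT (α ζ : Fin (K + 1) × A → ℝ) (t : ℝ) :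
    HasDerivAt (fun t => GE (PT H σ α ζ t ∅))
      (∑ a, ζ (0, a) * GE (Rt σ 0 a * PT H σ α ζ t {(0, a)})) t := by
  let a : Fin (K + 1) × A → MvPolynomial (Fin K × A) ℝ := fun v =>
    if v.1 = 0 then C (α v) else C (α v) + C (ζ v) * wP H σ 0 v
  let b : Fin (K + 1) × A → MvPolynomial (Fin K × A) ℝ := fun v =>
    if v.1 = 0 then C (ζ v) * Rt σ 0 v.2 else 0
  have hab : ∀ t v, a v + C t * b v = C (α v) + C (ζ v) * wP H σ t v := by
    rintro t ⟨i, c⟩
    refine Fin.cases ?_ (fun i => ?_) i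
    · simp [a, b, wP, Lf_zero]; ring
    · simp [a, b, wP, Lf_succ, Fin.succ_ne_zero]
  have := hasDerivAt_prod GE a b t Finset.univ 1
  simp only [hab, one_mul] at this
  refine (this.congr_deriv ?_).congr_of_eventuallyEq (Filter.Eventually.of_forall fun t => by
    simp [PT])
  rw [map_sum, Fintype.sum_prod_type, Finset.sum_eq_single 0]
  · refine Finset.sum_congr rfl fun c _ => ?_
    simp only [b, if_true, mul_assoc, GE_C_mul, PT, Finset.compl_singleton]
  · intro i _ hi; simp [b, hi]
  · simp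

lemma GE_path [Nonempty A] (t : ℝ) (π : Fin (K + 1) → A) :
    GE (∏ v ∈ gr π, wP H σ t v) = t * (σ ^ 2) ^ K * hw H π := by
  let α : Fin (K + 1) × A → ℝ := fun v => if v ∈ gr π then 0 else 1
  let ζ : Fin (K + 1) × A → ℝ := fun v => if v ∈ gr π then 1 else 0
  have hP : ∀ T, PT H σ α ζ t T = ∏ v ∈ gr π \ T, wP H σ t v := by
    intro T
    have : gr π \ T = Tᶜ.filter (· ∈ gr π) := by ext; simp [and_comm]
    rw [this, Finset.prod_filter, PT]
    refine Finset.prod_congr rfl fun v _ => ?_
    by_cases h : v ∈ gr π <;> simp [α, ζ, h]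
  have h := chain H σ α ζ t
  have m0 : (0, π 0) ∈ gr π := by simp [gr]
  rw [Finset.sum_eq_single (π 0), Finset.sum_eq_single π] at h
  · rw [← Finset.mul_prod_erase _ _ m0, wP, Lf_zero, mul_assoc, GE_C_mul, mul_assoc]
    simp only [hP, ζ, m0, if_true, one_mul, Finset.sdiff_singleton_eq_erase, Finset.sdiff_self,
      Finset.prod_empty, GE_one, mul_one] at h
    rw [h, Finset.prod_eq_one (fun v hv => if_pos hv), mul_one]
  · intro π' _ hπ
    have : ∃ i, π' i ≠ π i := by
      by_contra hc; push Not at hc; exact hπ (funext hc)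
    obtain ⟨i, hi⟩ := this
    rw [Finset.prod_eq_zero (i := (i, π' i)) (by simp [gr]) (by simp [ζ, gr, hi.symm])]
    simp
  · simp
  · intro a _ ha; simp [ζ, gr, ha.symm]
  · simp

end Crest.Agent.QQ
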