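import Crest.Agent.QQ.Alg

/-! Output distributions (as expectation functionals) of quantum query algorithms. -/

set_option autoImplicit false
set_option linter.unusedSectionVars false
open Matrix

namespace Crest.Agent.QQ

/-- an expectation functional -/
abbrev Ex (Y : Type) := (Y → ℝ) → ℝ

/-- the functional is a finite probability average -/
def IsProb {Y : Type} (E : Ex Y) : Prop :=
  ∃ (W : Type) (_ : Fintype W) (p : W → ℝ) (o : W → Y), (∀ w, 0 ≤ p w) ∧ ∑ w, p w = 1 ∧
    ∀ g, E g = ∑ w, p w * g (o w)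

namespace IsProb
variable {Y : Type} {E : Ex Y}

lemma mono (h : IsProb E) {g g' : Y → ℝ} (hg : ∀ y, g y ≤ g' y) : E g ≤ E g' := by
  obtain ⟨W, _, p, o, hp, -, hE⟩ := h
  rw [hE, hE]
  exact Finset.sum_le_sum fun w _ => mul_le_mul_of_nonneg_left (hg _) (hp w)

lemma const (h : IsProb E) (c : ℝ) : E (fun _ => c) = c := by
  obtain ⟨W, _, p, o, -, h1, hE⟩ := h
  rw [hE, ← Finset.sum_mul, h1, one_mul]

lemma add (h : IsProb E) (g g' : Y → ℝ) : E (fun y => g y + g' y) = E g + E g' := by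
  obtain ⟨W, _, p, o, -, -, hE⟩ := h
  simp [hE, mul_add, Finset.sum_add_distrib]

lemma sub (h : IsProb E) (g g' : Y → ℝ) : E (fun y => g y - g' y) = E g - E g' := by
  obtain ⟨W, _, p, o, -, -, hE⟩ := h
  simp [hE, mul_sub, Finset.sum_sub_distrib]

lemma smul (h : IsProb E) (c : ℝ) (g : Y → ℝ) : E (fun y => c * g y) = c * E g := by
  obtain ⟨W, _, p, o, -, -, hE⟩ := h
  simp [hE, Finset.mul_sum, mul_left_comm]

lemma sum (h : IsProb E) {J : Type} (s : Finset J) (g : J → Y → ℝ) :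
    E (fun y => ∑ j ∈ s, g j y) = ∑ j ∈ s, E (g j) := by
  obtain ⟨W, _, p, o, -, -, hE⟩ := h
  simp only [hE, Finset.mul_sum]
  exact Finset.sum_comm

lemma nonneg (h : IsProb E) {g : Y → ℝ} (hg : ∀ y, 0 ≤ g y) : 0 ≤ E g := by
  have := h.mono (g := fun _ => 0) hg
  rwa [h.const] at this

lemma le_const (h : IsProb E) {g : Y → ℝ} {c : ℝ} (hg : ∀ y, g y ≤ c) : E g ≤ c := by
  have := h.mono (g' := fun _ => c) hg
  rwa [h.const] at this

lemma const_le (h : IsProb E) {g : Y → ℝ} {c : ℝ} (hg : ∀ y, c ≤ g y) : c ≤ E g := by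
  have := h.mono (g := fun _ => c) hg
  rwa [h.const] at this

lemma map (h : IsProb E) {Z : Type} (f : Y → Z) : IsProb (fun g : Z → ℝ => E (fun y => g (f y))) := by
  obtain ⟨W, _, p, o, hp, h1, hE⟩ := h
  exact ⟨W, _, p, fun w => f (o w), hp, h1, fun g => hE _⟩

lemma bind (h : IsProb E) {Z : Type} {K : Y → Ex Z} (hK : ∀ y, IsProb (K y)) :
    IsProb (fun g : Z → ℝ => E (fun y => K y g)) := by
  obtain ⟨W, _, p, o, hp, h1, hE⟩ := h
  choose V iV p' o' hp' h1' hE' using hK
  refine ⟨Σ w : W, V (o w), inferInstance, fun s => p s.1 * p' _ s.2, fun s => o' _ s.2,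
    fun s => mul_nonneg (hp _) (hp' _ _), ?_, fun g => ?_⟩
  · simp [Fintype.sum_sigma, ← Finset.mul_sum, h1', h1]
  · simp [Fintype.sum_sigma, hE, hE', Finset.mul_sum, mul_assoc]

lemma pure (y : Y) : IsProb (fun g : Y → ℝ => g y) :=
  ⟨Unit, inferInstance, fun _ => 1, fun _ => y, by simp, by simp, by simp⟩

lemma ofFin [Fintype Y] {p : Y → ℝ} (hp : ∀ y, 0 ≤ p y) (h1 : ∑ y, p y = 1) :
    IsProb (fun g : Y → ℝ => ∑ y, p y * g y) :=
  ⟨Y, inferInstance, p, id, hp, h1, fun _ => rfl⟩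

end IsProb

variable {ι : Type}

/-- `E x` is the output law on input `x` of a quantum algorithm with `q` phase queries -/
def QD {Y : Type} (q : ℕ) (E : (ι → Bool) → Ex Y) : Prop :=
  ∃ (W : Type) (_ : Fintype W) (_ : DecidableEq W) (A : (ι → Bool) → Matrix W W ℂ) (ψ : W → ℂ)
    (o : W → Y), QA q A ∧ ∑ w, ‖ψ w‖ ^ 2 = 1 ∧
      ∀ x g, E x g = ∑ w, ‖(A x *ᵥ ψ) w‖ ^ 2 * g (o w)

lemma sum_norm_sq_eq {W : Type} [Fintype W] (v : W → ℂ) :
    ((∑ w, ‖v w‖ ^ 2 : ℝ) : ℂ) = star v ⬝ᵥ v := by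
  simp only [dotProduct, Pi.star_apply]
  push_cast
  refine Finset.sum_congr rfl fun w _ => ?_
  rw [RCLike.star_def, Complex.conj_mul']

lemma unitary_norm {W : Type} [Fintype W] [DecidableEq W] {U : Matrix W W ℂ}
    (hU : U ∈ Matrix.unitaryGroup W ℂ) (v : W → ℂ) :
    ∑ w, ‖(U *ᵥ v) w‖ ^ 2 = ∑ w, ‖v w‖ ^ 2 := by
  apply Complex.ofReal_injective
  rw [sum_norm_sq_eq, sum_norm_sq_eq, star_mulVec, dotProduct_mulVec, vecMul_vecMul,
    ← star_eq_conjTranspose, (Matrix.mem_unitaryGroup_iff').1 hU, vecMul_one]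

namespace QD
variable {Y Z : Type} {q : ℕ} {E : (ι → Bool) → Ex Y}

lemma isProb (h : QD q E) (x : ι → Bool) : IsProb (E x) := by
  obtain ⟨W, _, _, A, ψ, o, hA, hψ, hE⟩ := h
  exact ⟨W, inferInstance, _, o, fun w => by positivity,
    by rw [unitary_norm (hA.unitary x), hψ], hE x⟩

lemma mono (h : QD q E) {q' : ℕ} (hq : q ≤ q') : QD q' E := by
  obtain ⟨W, _, _, A, ψ, o, hA, hψ, hE⟩ := h
  exact ⟨W, _, _, A, ψ, o, hA.mono hq, hψ, hE⟩

lemma congr (h : QD q E) {E' : (ι → Bool) → Ex Y} (e : ∀ x g, E' x g = E x g) : QD q E' := by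
  have : E' = E := by funext x g; exact e x g
  rwa [this]

lemma map (h : QD q E) (f : Y → Z) : QD q (fun x (g : Z → ℝ) => E x (fun y => g (f y))) := by
  obtain ⟨W, _, _, A, ψ, o, hA, hψ, hE⟩ := h
  exact ⟨W, _, _, A, ψ, fun w => f (o w), hA, hψ, fun x g => hE x _⟩

lemma comap (h : QD q E) {ι' : Type} (e : ι → ι') :
    QD q (fun x : ι' → Bool => E (x ∘ e)) := by
  obtain ⟨W, _, _, A, ψ, o, hA, hψ, hE⟩ := h
  exact ⟨W, _, _, _, ψ, o, hA.comap e, hψ, fun x g => hE _ _⟩

lemma rand [Fintype Y] {p : Y → ℝ} (hp : ∀ y, 0 ≤ p y) (h1 : ∑ y, p y = 1) :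
    QD 0 (fun (_ : ι → Bool) (g : Y → ℝ) => ∑ y, p y * g y) := by
  classical
  refine ⟨Y, inferInstance, inferInstance, fun _ => 1, fun y => (Real.sqrt (p y) : ℂ), id,
    QA.const (one_mem _), ?_, fun x g => ?_⟩
  · simp [Real.sq_sqrt (hp _), h1]
  · simp [Real.sq_sqrt (hp _)]

lemma pure (y : Y) : QD 0 (fun (_ : ι → Bool) (g : Y → ℝ) => g y) := by
  have := (rand (ι := ι) (Y := Unit) (p := fun _ => 1) (by simp) (by simp)).map (fun _ => y)
  exact this.congr (by simp)

/-- normal form: the start vector is a basis vector -/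
lemma basis (h : QD q E) : ∃ (W : Type) (_ : Fintype W) (_ : DecidableEq W)
    (A : (ι → Bool) → Matrix W W ℂ) (w₀ : W) (o : W → Y), QA q A ∧
      ∀ x g, E x g = ∑ w, ‖A x w w₀‖ ^ 2 * g (o w) := by
  obtain ⟨W, _, _, A, ψ, o, hA, hψ, hE⟩ := h
  have hne : Nonempty W := by
    by_contra hc
    rw [not_nonempty_iff] at hc
    simp at hψ
  obtain ⟨w₁⟩ := hne
  have hs : Function.Injective (some : W → Option W) := Option.some_injective W
  let E0 : Matrix (Option W) Unit ℂ := emb fun _ => none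
  let F0 : Matrix (Option W) Unit ℂ := fun t _ => (emb some *ᵥ ψ) t
  have hE0 : E0ᴴ * E0 = 1 := emb_isom fun _ _ _ => rfl
  have hF0 : F0ᴴ * F0 = 1 := by
    ext i j
    have h1 := sum_emb hs ψ (fun _ => 1)
    simp only [mul_one, hψ] at h1
    have h2 := sum_norm_sq_eq (emb some *ᵥ ψ)
    rw [h1] at h2
    simpa [F0, mul_apply, dotProduct] using h2.symm
  have hFE : F0ᴴ * E0 = 0 := by
    ext i j
    have := emb_mulVec_of_not (e := (some : W → Option W)) ψ none (by simp)
    simp [F0, E0, mul_apply, emb] at this ⊢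
    exact this
  obtain ⟨G, hG, hGE⟩ := exists_unitary_swap hE0 hF0 hFE
  refine ⟨Option W, inferInstance, inferInstance, fun x => ext (emb some) (A x) * G, none,
    fun t => o (t.getD w₁), (hA.ext hs).mul_right hG, fun x g => ?_⟩
  have hcol : ∀ t, G t none = (emb some *ᵥ ψ) t := fun t => by
    have := congrFun (congrFun hGE t) ()
    simpa [E0, F0, mul_apply, emb] using this
  have : ∀ t, (ext (emb some) (A x) * G) t none = (emb some *ᵥ (A x *ᵥ ψ)) t := fun t => by
    rw [← ext_mulVec (emb_isom hs)]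
    simp [mul_apply, hcol, mulVec, dotProduct]
  simp only [this]
  rw [sum_emb hs, hE]
  simp

lemma bind (h : QD q E) {q' : ℕ} {K : Y → (ι → Bool) → Ex Z} (hK : ∀ y, QD q' (K y)) :
    QD (q + q') (fun x (g : Z → ℝ) => E x (fun y => K y x g)) := by
  obtain ⟨W, _, _, A, ψ, o, hA, hψ, hE⟩ := h
  choose V iV dV B v₀ o' hB hK' using fun y => (hK y).basis
  let e : W → (Σ w : W, V (o w)) := fun w => ⟨w, v₀ _⟩
  have he : Function.Injective e := fun w w' hw => congrArg Sigma.fst hw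
  refine ⟨Σ w : W, V (o w), inferInstance, inferInstance,
    fun x => (blockDiagonal' fun w => B (o w) x) * ext (emb e) (A x), emb e *ᵥ ψ,
    fun s => o' _ s.2, (hA.ext he).comp (QA.block fun w => hB (o w)), ?_, fun x g => ?_⟩
  · simpa [hψ] using sum_emb he ψ (fun _ => 1)
  · simp only [← mulVec_mulVec, ext_mulVec (emb_isom he), Fintype.sum_sigma,
      blockDiagonal'_mulVec, hE, hK', Finset.mul_sum]
    refine Finset.sum_congr rfl fun w _ => Finset.sum_congr rfl fun v _ => ?_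
    have : (B (o w) x *ᵥ fun b => (emb e *ᵥ (A x *ᵥ ψ)) ⟨w, b⟩) v
        = B (o w) x v (v₀ _) * (A x *ᵥ ψ) w := by
      simp only [mulVec, dotProduct] 
      rw [Finset.sum_eq_single (v₀ (o w))]
      · congr 1
        exact emb_mulVec_apply he (A x *ᵥ ψ) w
      · intro b _ hb
        have := emb_mulVec_of_not (e := e) (A x *ᵥ ψ) ⟨w, b⟩ (by
          intro w' hw'
          have h1 : w = w' := congrArg Sigma.fst hw'
          subst h1
          exact hb (eq_of_heq (Sigma.mk.inj hw').2))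
        simp only [mulVec, dotProduct] at this
        rw [this, mul_zero]
      · simp
    rw [this, norm_mul, mul_pow]; ring

/-- Hadamard test -/
lemma hadamard {W : Type} [Fintype W] [DecidableEq W] {V : (ι → Bool) → Matrix W W ℂ}
    (hV : QA q V) {u : W → ℂ} (hu : ∑ w, ‖u w‖ ^ 2 = 1) :
    QD q (fun x (g : Bool → ℝ) => (1 + (star u ⬝ᵥ (V x *ᵥ u)).re) / 2 * g true
      + (1 - (star u ⬝ᵥ (V x *ᵥ u)).re) / 2 * g false) := by
  have hinr : Function.Injective (Sum.inr : W → W ⊕ W) := Sum.inr_injective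
  let c : ℂ := (Real.sqrt 2 : ℂ)⁻¹
  have hc : c * c = 1 / 2 := by
    simp only [c]; rw [← mul_inv, ← Complex.ofReal_mul, Real.mul_self_sqrt (by norm_num)]
    norm_num
  have hcs : star c = c := by simp [c]
  have hcn : ‖c‖ ^ 2 = 1 / 2 := by
    have := congrArg norm hc
    rw [norm_mul] at this; rw [sq, this]; norm_num
  let H : Matrix (W ⊕ W) (W ⊕ W) ℂ := fromBlocks (c • 1) (c • 1) (c • 1) (-c • 1)
  have hH : H ∈ Matrix.unitaryGroup (W ⊕ W) ℂ := by
    rw [Matrix.mem_unitaryGroup_iff, star_eq_conjTranspose, fromBlocks_conjTranspose,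
      fromBlocks_multiply, ← fromBlocks_one]
    simp only [conjTranspose_smul, conjTranspose_one, hcs, star_neg, smul_mul_smul_comm, mul_one,
      hc, neg_mul, mul_neg, neg_neg, ← add_smul]
    norm_num
  have hext : ∀ x, ext (emb (Sum.inr : W → W ⊕ W)) (V x) *ᵥ Sum.elim (c • u) (c • u)
      = Sum.elim (c • u) (c • (V x *ᵥ u)) := by
    intro x
    have e1 : ∀ v : W → ℂ, emb (Sum.inr : W → W ⊕ W) *ᵥ v = Sum.elim (0 : W → ℂ) v := by
      intro v; funext t
      cases t with
      | inl w => exact emb_mulVec_of_not (e := (Sum.inr : W → W ⊕ W)) v (Sum.inl w) (by simp)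
      | inr w => exact emb_mulVec_apply hinr v w
    have e2 : Sum.elim (c • u) (c • u) = Sum.elim (c • u) 0 + emb Sum.inr *ᵥ (c • u) := by
      rw [e1]; funext t; cases t <;> simp
    have e3 : (emb (Sum.inr : W → W ⊕ W))ᴴ *ᵥ Sum.elim (c • u) 0 = 0 := by
      funext w; simp [mulVec, dotProduct, emb]
    rw [e2, mulVec_add, ext_mulVec (emb_isom hinr), e1]
    simp only [ext, add_mulVec, sub_mulVec, ← mulVec_mulVec, e3, mulVec_zero, one_mulVec,
      mulVec_smul]
    funext t; cases t <;> simp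
  refine ⟨W ⊕ W, inferInstance, inferInstance, fun x => H * ext (emb Sum.inr) (V x),
    Sum.elim (c • u) (c • u), Sum.elim (fun _ => true) (fun _ => false),
    (hV.ext hinr).mul_left hH, ?_, fun x g => ?_⟩
  · simp only [Fintype.sum_sum_type, Sum.elim_inl, Sum.elim_inr, Pi.smul_apply, smul_eq_mul,
      norm_mul, mul_pow, hcn, ← Finset.mul_sum, hu]
    norm_num
  · rw [← mulVec_mulVec, hext]
    have hv := unitary_norm (hV.unitary x) u
    rw [hu] at hv
    beta_reduce
    generalize V x *ᵥ u = v at hv ⊢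
    have hre : (star u ⬝ᵥ v).re = ∑ w, ((starRingEnd ℂ) (u w) * v w).re := by
      simp [dotProduct]
    have hp : ∀ (a b : ℂ) (s : ℝ), ‖c * (c * a) + s * c * (c * b)‖ ^ 2
        = (‖a‖ ^ 2 + s ^ 2 * ‖b‖ ^ 2 + 2 * s * ((starRingEnd ℂ) a * b).re) / 4 := by
      intro a b s
      have : c * (c * a) + s * c * (c * b) = (1 / 2 : ℝ) * (a + s * b) := by
        have : c * (c * a) + s * c * (c * b) = (c * c) * (a + s * b) := by ring
        rw [this, hc]; push_cast; ring
      rw [this, norm_mul, mul_pow, ← Complex.normSq_eq_norm_sq (a + _),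
        ← Complex.normSq_eq_norm_sq a, ← Complex.normSq_eq_norm_sq b]
      simp [Complex.normSq_apply]
      ring
    have h1 : ∀ w, ‖(H *ᵥ Sum.elim (c • u) (c • v)) (Sum.inl w)‖ ^ 2
        = (‖u w‖ ^ 2 + ‖v w‖ ^ 2 + 2 * ((starRingEnd ℂ) (u w) * v w).re) / 4 := by
      intro w
      have := hp (u w) (v w) 1
      simp only [Complex.ofReal_one, one_mul, one_pow, mul_one] at this
      rw [← this]; simp [H, fromBlocks_mulVec, smul_mulVec]
    have h2 : ∀ w, ‖(H *ᵥ Sum.elim (c • u) (c • v)) (Sum.inr w)‖ ^ 2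
        = (‖u w‖ ^ 2 + ‖v w‖ ^ 2 - 2 * ((starRingEnd ℂ) (u w) * v w).re) / 4 := by
      intro w
      have := hp (u w) (v w) (-1)
      simp only [Complex.ofReal_neg, Complex.ofReal_one, neg_mul, one_mul, even_two,
        Even.neg_pow, one_pow, mul_neg, mul_one] at this
      rw [sub_eq_add_neg, ← this]; simp [H, fromBlocks_mulVec, smul_mulVec, neg_mulVec]
    simp only [Fintype.sum_sum_type, Sum.elim_inl, Sum.elim_inr, h1, h2, ← Finset.sum_mul,
      ← Finset.sum_div, Finset.sum_add_distrib, Finset.sum_sub_distrib, ← Finset.mul_sum, hu, hv,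
      hre]
    ring

lemma query (i : ι) : QD 1 (fun (x : ι → Bool) (g : Bool → ℝ) => g (x i)) := by
  have := (hadamard (QA.phase1 (W := Unit) (fun _ => some i)) (u := fun _ => 1) (by simp)).map not
  refine this.congr fun x g => ?_
  cases h : x i <;> simp [phase, dotProduct, mulVec, h]

/-- one Grover iteration -/
lemma amplify (h : QD q E) (good : Y → Bool) :
    QD (3 * q) (fun x (g : Y → ℝ) => E x (fun y =>
      (if good y then (3 - 4 * E x (fun y => if good y then 1 else 0)) ^ 2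
        else (1 - 4 * E x (fun y => if good y then 1 else 0)) ^ 2) * g y)) := by
  obtain ⟨W, _, _, A, w₀, o, hA, hE⟩ := h.basis
  let S : Matrix W W ℂ := diagonal fun w => (sg (good (o w)) : ℂ)
  let R : Matrix W W ℂ := diagonal fun w => (sg (decide (w ≠ w₀)) : ℂ)
  have hq := ((hA.mul_left (diag_sg_unitary fun w => good (o w))).comp hA.star).comp
    (hA.mul_right (diag_sg_unitary fun w => decide (w ≠ w₀)))
  refine ⟨W, inferInstance, inferInstance, _, Pi.single w₀ 1, o, hq.mono (by omega), ?_,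
    fun x g => ?_⟩
  · rw [Finset.sum_eq_single w₀] <;> simp +contextual
  · set p := E x (fun y => if good y then 1 else 0) with hp
    have hU := hA.unitary x
    set U := A x with hUdef
    let φ : W → ℂ := fun w => U w w₀
    have hφ : U *ᵥ Pi.single w₀ 1 = φ := by funext w; simp [φ]
    have hφ1 : ∑ w, ‖φ w‖ ^ 2 = 1 := by
      rw [← hφ, unitary_norm hU, Finset.sum_eq_single w₀] <;> simp +contextual
    have hR : ∀ v : W → ℂ, R *ᵥ v = (2 * v w₀) • Pi.single w₀ 1 - v := by
      intro v; funext w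
      by_cases hw : w = w₀
      · subst hw; simp [R, mulVec_diagonal]; ring
      · simp [R, mulVec_diagonal, hw]
    have hin : (star U *ᵥ (S *ᵥ φ)) w₀ = ((1 - 2 * p : ℝ) : ℂ) := by
      have : (1 - 2 * p : ℝ) = ∑ w, sg (good (o w)) * ‖φ w‖ ^ 2 := by
        have h0 : (1 - 2 * p : ℝ) = ∑ w, ‖φ w‖ ^ 2 - 2 * p := by rw [hφ1]
        rw [h0, hp, hE, Finset.mul_sum, ← Finset.sum_sub_distrib]
        refine Finset.sum_congr rfl fun w _ => ?_
        cases good (o w) <;> simp [φ, hUdef]; ring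
      rw [this]
      simp only [mulVec, dotProduct, star_apply]
      push_cast
      refine Finset.sum_congr rfl fun w _ => ?_
      have : ∑ w', S w w' * φ w' = sg (good (o w)) * φ w := mulVec_diagonal _ φ w
      rw [this, ← Complex.conj_mul']
      simp [φ]; ring
    have hfin : (U * R * (star U * (S * U))) *ᵥ Pi.single w₀ 1
        = fun w => ((if good (o w) then 3 - 4 * p else 1 - 4 * p : ℝ) : ℂ) * φ w := by
      simp only [← mulVec_mulVec, hφ]
      rw [hR, hin, mulVec_sub, mulVec_smul, hφ, mulVec_mulVec,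
        (Matrix.mem_unitaryGroup_iff).1 hU, one_mulVec]
      funext w
      have : (S *ᵥ φ) w = sg (good (o w)) * φ w := mulVec_diagonal _ φ w
      simp only [Pi.sub_apply, Pi.smul_apply, this, smul_eq_mul]
      cases good (o w) <;> simp <;> ring
    show E x _ = _
    rw [hE]
    refine Finset.sum_congr rfl fun w _ => ?_
    rw [hfin]
    simp only [norm_mul, mul_pow, Complex.norm_real, Real.norm_eq_abs, sq_abs, φ]
    cases good (o w) <;> simp <;> ring

end QD

end Crest.Agent.QQ
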