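import Crest.Agent.QQ.Forr

/-! The Walsh-Hadamard matrix and the butterfly trace certifying a Forrelation value. -/

set_option autoImplicit false
set_option linter.unusedSectionVars false

namespace Crest.Agent.QQ

variable {ν K : ℕ}

/-- Walsh-Hadamard signs -/
def Sw (a b : Fin ν → Bool) : ℝ := ∏ l, sg (a l && b l)

lemma abs_Sw (a b : Fin ν → Bool) : |Sw a b| = 1 := by simp [Sw, Finset.abs_prod, abs_sg]

lemma Sw_orth (a b : Fin ν → Bool) : ∑ c, Sw a c * Sw b c = if a = b then 2 ^ ν else 0 := by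
  simp only [Sw, ← Finset.prod_mul_distrib]
  rw [sum_prod_bool (fun l c => sg (a l && c) * sg (b l && c))]
  split_ifs with h
  · subst h; simp [sg_mul_self]; norm_num
  · obtain ⟨l, hl⟩ := Function.ne_iff.1 h
    refine Finset.prod_eq_zero (Finset.mem_univ l) ?_
    cases ha : a l <;> cases hb : b l <;> simp_all

/-- butterfly layers -/
noncomputable def bfs (u : (Fin ν → Bool) → ℝ) : ℕ → (Fin ν → Bool) → ℝ
  | 0 => u
  | l + 1 => fun a => if h : l < ν then bfs u l (Function.update a ⟨l, h⟩ false)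
      + sg (a ⟨l, h⟩) * bfs u l (Function.update a ⟨l, h⟩ true) else 0

lemma bfs_eq (u : (Fin ν → Bool) → ℝ) : ∀ l ≤ ν, ∀ a, bfs u l a = ∑ b, (∏ t : Fin ν,
    if t.val < l then sg (a t && b t) else if b t = a t then 1 else 0) * u b
  | 0, _, a => by
      simp only [not_lt_zero, if_false, Finset.prod_boole, Finset.mem_univ, forall_const,
        ← funext_iff]
      simp [bfs]
  | l + 1, hl, a => by
      have h : l < ν := hl
      simp only [bfs, h, dite_true, bfs_eq u l h.le, Finset.mul_sum, ← Finset.sum_add_distrib,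
        ← mul_assoc, ← add_mul]
      refine Finset.sum_congr rfl fun b _ => ?_
      congr 1
      have e : ∀ c : Bool, (∏ t ∈ Finset.univ.erase (⟨l, h⟩ : Fin ν), if t.val < l then
          sg (Function.update a ⟨l, h⟩ c t && b t) else
            if b t = Function.update a ⟨l, h⟩ c t then 1 else 0)
          = ∏ t ∈ Finset.univ.erase (⟨l, h⟩ : Fin ν), if t.val < l + 1 then sg (a t && b t) else
            if b t = a t then 1 else 0 := fun c => Finset.prod_congr rfl fun t ht => by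
        have h1 := Finset.ne_of_mem_erase ht
        have h2 : t.val ≠ l := fun e => h1 (Fin.ext e)
        rw [Function.update_of_ne h1]
        exact if_congr (by omega) rfl rfl
      simp only [← Finset.mul_prod_erase _ _ (Finset.mem_univ (⟨l, h⟩ : Fin ν)), e]
      cases a ⟨l, h⟩ <;> cases b ⟨l, h⟩ <;> simp

lemma bfs_last (u : (Fin ν → Bool) → ℝ) (a : Fin ν → Bool) : bfs u ν a = ∑ b, Sw a b * u b := by
  simp [bfs_eq u ν le_rfl, Sw]

/-- nodes of the trace -/
abbrev Nd (ν K : ℕ) := Fin (K + 1) × Fin (ν + 1) × (Fin ν → Bool)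

/-- the true trace -/
noncomputable def tr (z : Fin (K + 1) × (Fin ν → Bool) → Bool) (n : Nd ν K) : ℝ :=
  bfs (fv Sw (sz z) n.1) n.2.1 n.2.2

/-- predecessors of a node -/
def pre (c : Bool) (n : Nd ν K) : Nd ν K :=
  Fin.cases (⟨n.1 - 1, by omega⟩, Fin.last ν, n.2.2)
    (fun l => (n.1, l.castSucc, Function.update n.2.2 l c)) n.2.1

/-- the local rule -/
noncomputable def comb (n : Nd ν K) (b : Bool) (u v : ℝ) : ℝ :=
  Fin.cases (sg b * if n.1.val = 0 then 1 else u) (fun l => u + sg (n.2.2 l) * v) n.2.1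

lemma tr_loc (z : Fin (K + 1) × (Fin ν → Bool) → Bool) (n : Nd ν K) :
    tr z n = comb n (z (n.1, n.2.2)) (tr z (pre false n)) (tr z (pre true n)) := by
  obtain ⟨i, l, a⟩ := n
  refine Fin.cases ?_ (fun l => ?_) l
  · obtain ⟨_ | i, hi⟩ := i
    · simp [tr, comb, bfs, fv, sz]
    · simp [tr, comb, pre, bfs, fv, sz, hi, bfs_last]
  · simp [tr, comb, pre, bfs]

lemma Nd_induction {P : Nd ν K → Prop}
    (h0 : ∀ a, P (0, 0, a))
    (h1 : ∀ (i : Fin K) a, P (i.castSucc, Fin.last ν, a) → P (i.succ, 0, a))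
    (h2 : ∀ i (l : Fin ν), (∀ a, P (i, l.castSucc, a)) → ∀ a, P (i, l.succ, a)) (n : Nd ν K) :
    P n := by
  obtain ⟨i, l, a⟩ := n
  induction i using Fin.induction generalizing l a with
  | zero =>
    induction l using Fin.induction generalizing a with
    | zero => exact h0 a
    | succ l ih => exact h2 _ l ih a
  | succ i ihi =>
    induction l using Fin.induction generalizing a with
    | zero => exact h1 i a (ihi _ _)
    | succ l ih => exact h2 _ l ih a

lemma tr_unique (z : Fin (K + 1) × (Fin ν → Bool) → Bool) (T : Nd ν K → ℝ)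
    (hT : ∀ n, T n = comb n (z (n.1, n.2.2)) (T (pre false n)) (T (pre true n))) (n : Nd ν K) :
    T n = tr z n := by
  induction n using Nd_induction with
  | h0 a => rw [hT, tr_loc]; simp [comb]
  | h1 i a ih =>
    rw [hT, tr_loc]
    have : pre false (i.succ, (0 : Fin (ν + 1)), a) = (i.castSucc, Fin.last ν, a) := by
      simp [pre, Fin.ext_iff]
    simp [comb, this, ih]
  | h2 i l ih a => rw [hT, tr_loc]; simp [comb, pre, ih]

/-- bounded integers -/
def IB (e : ℕ) (v : ℝ) : Prop := ∃ n : ℤ, |n| ≤ 2 ^ e ∧ v = n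

lemma IB.mono {e e' : ℕ} {v : ℝ} (h : IB e v) (he : e ≤ e') : IB e' v := by
  obtain ⟨n, h1, h2⟩ := h
  exact ⟨n, h1.trans (pow_le_pow_right₀ (by norm_num) he), h2⟩

lemma IB.sg {e : ℕ} {v : ℝ} (h : IB e v) (b : Bool) : IB e (sg b * v) := by
  obtain ⟨n, h1, h2⟩ := h
  cases b
  · exact ⟨n, h1, by simp [h2]⟩
  · exact ⟨-n, by simpa using h1, by simp [h2]⟩

lemma IB.add {e : ℕ} {u v : ℝ} (h : IB e u) (h' : IB e v) : IB (e + 1) (u + v) := by
  obtain ⟨n, h1, h2⟩ := h
  obtain ⟨n', h1', h2'⟩ := h'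
  exact ⟨n + n', (abs_add_le _ _).trans (by rw [pow_succ]; linarith), by simp [h2, h2']⟩

lemma tr_IB (z : Fin (K + 1) × (Fin ν → Bool) → Bool) (n : Nd ν K) :
    IB ((K + 1) * ν) (tr z n) := by
  have : IB (n.1 * ν + n.2.1) (tr z n) := by
    induction n using Nd_induction with
    | h0 a => rw [tr_loc]; simpa [comb] using IB.sg (e := 0) (v := 1) ⟨1, by simp, by simp⟩ _
    | h1 i a ih =>
      rw [tr_loc]
      have : pre false (i.succ, (0 : Fin (ν + 1)), a) = (i.castSucc, Fin.last ν, a) := by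
        simp [pre, Fin.ext_iff]
      simpa [comb, this, add_mul] using ih.sg _
    | h2 i l ih a => rw [tr_loc]; simpa [comb, pre, add_assoc] using
        (ih (Function.update a l false)).add ((ih (Function.update a l true)).sg (a l))
  refine this.mono ?_
  have h1 := Nat.lt_succ_iff.1 n.1.2
  have h2 := Nat.lt_succ_iff.1 n.2.1.2
  rw [add_mul, one_mul]
  exact add_le_add (Nat.mul_le_mul_right _ h1) h2

lemma exists_num (e : ℕ) : ∃ num : (Fin (e + 2) → Bool) → ℝ, ∀ v, IB e v → ∃ w, num w = v := by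
  let E : (Fin (e + 2) → Bool) ≃ Fin (2 ^ (e + 2)) := Fintype.equivFinOfCardEq (by simp)
  refine ⟨fun w => (E w : ℕ) - 2 ^ e, ?_⟩
  rintro _ ⟨n, h, rfl⟩
  obtain ⟨h1, h2⟩ := abs_le.1 h
  obtain ⟨k, hk⟩ := Int.eq_ofNat_of_zero_le (a := n + 2 ^ e) (by linarith)
  have h3 : (0 : ℤ) < 2 ^ e := by positivity
  refine ⟨E.symm ⟨k, ?_⟩, ?_⟩
  · zify; rw [← hk, pow_add]; linarith
  · have : (k : ℝ) = n + 2 ^ e := by exact_mod_cast hk.symm
    simp [this]

lemma forr_tr (h : ℝ) (z : Fin (K + 1) × (Fin ν → Bool) → Bool) :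
    forr (fun a b => h * Sw a b) z
      = (2 ^ ν)⁻¹ * h ^ K * tr z (Fin.last K, Fin.last ν, fun _ => false) := by
  have : ∀ b : Fin ν → Bool, Sw (fun _ => false) b = 1 := fun b => by simp [Sw]
  simp [forr_eq, fv_smul, tr, bfs_last, this, ← Finset.mul_sum, mul_assoc]

end Crest.Agent.QQ
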