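import Crest.Agent.QQ.Dist

/-! Products, deterministic reads and quantum search. -/

set_option autoImplicit false
set_option linter.unusedSectionVars false

namespace Crest.Agent.QQ

variable {ι Y Z : Type}

lemma IsProb.swap {E : Ex Y} {F : Ex Z} (hE : IsProb E) (hF : IsProb F) (g : Y → Z → ℝ) :
    E (fun y => F (fun z => g y z)) = F (fun z => E (fun y => g y z)) := by
  obtain ⟨W, _, p, o, -, -, hE⟩ := hE
  obtain ⟨W', _, p', o', -, -, hF⟩ := hF
  simp only [hE, hF, Finset.mul_sum]
  rw [Finset.sum_comm]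
  exact Finset.sum_congr rfl fun _ _ => Finset.sum_congr rfl fun _ _ => by ring

lemma IsProb.abs_le {E : Ex Y} (hE : IsProb E) {g : Y → ℝ} {c : ℝ} (h : ∀ y, |g y| ≤ c) :
    |E g| ≤ c :=
  _root_.abs_le.2 ⟨hE.const_le fun y => (_root_.abs_le.1 (h y)).1,
    hE.le_const fun y => (_root_.abs_le.1 (h y)).2⟩

/-- product of laws -/
def piE : (n : ℕ) → (Fin n → Ex Y) → Ex (Fin n → Y)
  | 0, _ => fun g => g finZeroElim
  | n + 1, E => fun g => E 0 (fun y => piE n (fun i => E i.succ) (fun v => g (Fin.cons y v)))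

lemma piE_isProb : ∀ (n : ℕ) {E : Fin n → Ex Y}, (∀ i, IsProb (E i)) → IsProb (piE n E)
  | 0, _, _ => IsProb.pure _
  | n + 1, _, h => (h 0).bind fun y => (piE_isProb n fun i => h i.succ).map
      (Fin.cons (α := fun _ => Y) y)

lemma QD.pi {q : ℕ} : ∀ (n : ℕ) {E : Fin n → (ι → Bool) → Ex Y}, (∀ i, QD q (E i)) →
    QD (n * q) (fun x => piE n (fun i => E i x))
  | 0, _, _ => ((QD.pure (ι := ι) (finZeroElim : Fin 0 → Y)).mono (Nat.zero_le _)).congr
      fun _ _ => rfl
  | n + 1, _, h => by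
      have := (h 0).bind fun y => (QD.pi n fun i => h i.succ).map (Fin.cons (α := fun _ => Y) y)
      exact (this.mono (by ring_nf; omega)).congr fun x g => rfl

lemma piE_prod : ∀ (n : ℕ) {E : Fin n → Ex Y}, (∀ i, IsProb (E i)) → ∀ g : Fin n → Y → ℝ,
    piE n E (fun v => ∏ i, g i (v i)) = ∏ i, E i (g i)
  | 0, _, _, _ => by simp [piE]
  | n + 1, E, h, g => by
      simp only [piE, Fin.prod_univ_succ, Fin.cons_zero, Fin.cons_succ]
      simp only [(piE_isProb n fun i => h i.succ).smul, piE_prod n (fun i => h i.succ)]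
      simp only [mul_comm (g 0 _), (h 0).smul]
      ring

lemma piE_pure : ∀ (n : ℕ) (y : Fin n → Y) (g : (Fin n → Y) → ℝ),
    piE n (fun i (g : Y → ℝ) => g (y i)) g = g y
  | 0, y, g => by simp only [piE]; congr 1; funext i; exact i.elim0
  | n + 1, y, g => by
      simp only [piE]
      rw [piE_pure n (fun i => y i.succ)]
      congr 1; exact Fin.cons_self_tail y

lemma piE_update : ∀ (n : ℕ) {E : Fin n → Ex Y}, (∀ i, IsProb (E i)) → ∀ (i : Fin n)
    (g : (Fin n → Y) → ℝ),
    piE n E (fun v => E i (fun y => g (Function.update v i y))) = piE n E g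
  | 0, _, _, i, _ => i.elim0
  | n + 1, E, h, i, g => by
      have hP := piE_isProb n fun i => h i.succ
      refine Fin.cases ?_ (fun j => ?_) i
      · simp only [piE, Fin.update_cons_zero]
        rw [(h 0).const, hP.swap (h 0)]
      · simp only [piE, ← Fin.cons_update]
        congr 1; funext y
        exact piE_update n (fun i => h i.succ) j (fun v => g (Fin.cons y v))

lemma piE_coord (n : ℕ) {E : Fin n → Ex Y} (h : ∀ i, IsProb (E i)) (i : Fin n) (g : Y → ℝ) :
    piE n E (fun v => g (v i)) = E i g := by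
  rw [← piE_update n h i]
  simp only [Function.update_self]
  exact (piE_isProb n h).const _

lemma piE_hybrid {η : ℝ} : ∀ (n : ℕ) {E E' : Fin n → Ex Y}, (∀ i, IsProb (E i)) →
    (∀ i, IsProb (E' i)) → ∀ g : (Fin n → Y) → ℝ,
    (∀ i v, E i (fun y => g (Function.update v i y))
      ≤ E' i (fun y => g (Function.update v i y)) + η) → piE n E g ≤ piE n E' g + n * η
  | 0, _, _, _, _, _, _ => by simp [piE]
  | n + 1, E, E', h, h', g, hg => by
      have hP' := piE_isProb n fun i => h' i.succ
      simp only [piE]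
      have h1 : E 0 (fun y => piE n (fun i => E i.succ) fun v => g (Fin.cons y v))
          ≤ E 0 (fun y => piE n (fun i => E' i.succ) fun v => g (Fin.cons y v)) + n * η := by
        rw [← (h 0).const (n * η), ← (h 0).add]
        refine (h 0).mono fun y => piE_hybrid n (fun i => h i.succ) (fun i => h' i.succ) _ ?_
        intro i v
        simpa only [← Fin.cons_update] using hg i.succ (Fin.cons y v)
      have h2 : E 0 (fun y => piE n (fun i => E' i.succ) fun v => g (Fin.cons y v))
          ≤ E' 0 (fun y => piE n (fun i => E' i.succ) fun v => g (Fin.cons y v)) + η := by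
        rw [(h 0).swap hP', (h' 0).swap hP', ← hP'.const η, ← hP'.add]
        refine hP'.mono fun v => ?_
        obtain ⟨W, _, p, o, -, h1, -⟩ := h 0
        have : Nonempty W := by
          by_contra hc; rw [not_nonempty_iff] at hc; simp at h1
        obtain ⟨w⟩ := this
        simpa only [Fin.update_cons_zero] using hg 0 (Fin.cons (o w) v)
      push_cast; linarith

lemma piE_sq_sum {c : ℝ} : ∀ (n : ℕ) {E : Fin n → Ex Y}, (∀ i, IsProb (E i)) →
    ∀ f : Fin n → Y → ℝ, (∀ i, E i (f i) = 0) → (∀ i y, f i y ^ 2 ≤ c) →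
    piE n E (fun v => (∑ i, f i (v i)) ^ 2) ≤ n * c
  | 0, _, _, _, _, _ => by simp [piE]
  | n + 1, E, h, f, h0, hc => by
      have hP := piE_isProb n fun i => h i.succ
      have ih := piE_sq_sum n (fun i => h i.succ) (fun i => f i.succ) (fun i => h0 i.succ)
        (fun i => hc i.succ)
      have hm : piE n (fun i => E i.succ) (fun v => ∑ i : Fin n, f i.succ (v i)) = 0 := by
        rw [hP.sum]
        exact Finset.sum_eq_zero fun i _ => by rw [piE_coord n (fun i => h i.succ), h0]
      simp only [piE, Fin.sum_univ_succ, Fin.cons_zero, Fin.cons_succ, add_sq]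
      refine (h 0).le_const fun y => ?_
      rw [hP.add, hP.add, hP.const, hP.smul, hm]
      have := hc 0 y
      push_cast; linarith

/-- Chebyshev inequality for a sum of independent bounded variables -/
lemma piE_cheb (n : ℕ) {E : Fin n → Ex Y} (h : ∀ i, IsProb (E i)) (f : Fin n → Y → ℝ)
    (hf : ∀ i y, |f i y| ≤ 1) {t lam : ℝ} (hl : 0 < lam) (ht : t + lam ≤ ∑ i, E i (f i)) :
    piE n E (fun v => if ∑ i, f i (v i) ≤ t then 1 else 0) ≤ n * 4 / lam ^ 2 := by
  have hP := piE_isProb n h
  have h1 := piE_sq_sum (c := 4) n h (fun i y => f i y - E i (f i))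
    (fun i => by rw [(h i).sub, (h i).const, sub_self]) (fun i y => by
      have h1 := abs_le.1 (hf i y)
      have h2 := abs_le.1 ((h i).abs_le (hf i))
      nlinarith)
  rw [le_div_iff₀ (by positivity), mul_comm, ← hP.smul]
  refine le_trans (hP.mono fun v => ?_) h1
  split_ifs with hv
  · rw [Finset.sum_sub_distrib]; nlinarith
  · simp only [mul_zero]; positivity

/-! ### Deterministic subroutines -/

/-- a function computed exactly with `q` queries -/
def Det (q : ℕ) (φ : (ι → Bool) → Y) : Prop := QD q (fun x (g : Y → ℝ) => g (φ x))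

lemma Det.const (y : Y) : Det 0 (fun _ : ι → Bool => y) := QD.pure y
lemma Det.query (i : ι) : Det 1 (fun x : ι → Bool => x i) := QD.query i
lemma Det.mono {q q' : ℕ} {φ : (ι → Bool) → Y} (h : Det q φ) (hq : q ≤ q') : Det q' φ :=
  QD.mono h hq
lemma Det.map {q : ℕ} {φ : (ι → Bool) → Y} (h : Det q φ) (f : Y → Z) :
    Det q (fun x => f (φ x)) := QD.map h f
lemma Det.bind {q q' : ℕ} {φ : (ι → Bool) → Y} (h : Det q φ) {ψ : Y → (ι → Bool) → Z}
    (h' : ∀ y, Det q' (ψ y)) : Det (q + q') (fun x => ψ (φ x) x) := QD.bind h h'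
lemma Det.congr {q : ℕ} {φ ψ : (ι → Bool) → Y} (h : Det q φ) (e : ∀ x, ψ x = φ x) : Det q ψ := by
  have : ψ = φ := funext e
  rwa [this]
lemma Det.pi {q : ℕ} (n : ℕ) {φ : Fin n → (ι → Bool) → Y} (h : ∀ i, Det q (φ i)) :
    Det (n * q) (fun x i => φ i x) :=
  (QD.pi n h).congr fun x g => (piE_pure n (fun i => φ i x) g).symm
lemma Det.pair {q q' : ℕ} {φ : (ι → Bool) → Y} {ψ : (ι → Bool) → Z} (h : Det q φ)
    (h' : Det q' ψ) : Det (q + q') (fun x => (φ x, ψ x)) :=
  h.bind fun y => h'.map fun z => (y, z)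
lemma Det.bits {n : ℕ} (idx : Fin n → ι) : Det n (fun x j => x (idx j)) := by
  simpa using Det.pi n fun j => Det.query (idx j)
lemma Det.all {J : Type} {q : ℕ} {φ : J → (ι → Bool) → Bool} (h : ∀ j, Det q (φ j)) :
    ∀ l : List J, Det (l.length * q) (fun x => l.all fun j => φ j x)
  | [] => by simpa using Det.const true
  | j :: l => (((h j).pair (Det.all h l)).map (fun p => p.1 && p.2)).mono
      (by simp; ring_nf; omega)

/-! ### Search -/

/-- extension by zero on failure -/
def sm (g : Y → ℝ) : Option Y → ℝ := fun o => o.elim 0 g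
/-- indicator of failure -/
def nn : Option Y → ℝ := fun o => o.elim 1 fun _ => 0

@[simp] lemma sm_none (g : Y → ℝ) : sm g none = 0 := rfl
@[simp] lemma sm_some (g : Y → ℝ) (y : Y) : sm g (some y) = g y := rfl
@[simp] lemma nn_none : nn (none : Option Y) = 1 := rfl
@[simp] lemma nn_some (y : Y) : nn (some y) = 0 := rfl

lemma IsProb.nn_eq {E : Ex (Option Y)} (h : IsProb E) : E nn = 1 - E (sm fun _ => 1) := by
  have : (nn : Option Y → ℝ) = fun o => (fun _ => (1 : ℝ)) o - sm (fun _ => 1) o := by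
    funext o; cases o <;> simp
  rw [this, h.sub, h.const]

lemma IsProb.nn_nonneg {E : Ex (Option Y)} (h : IsProb E) : 0 ≤ E nn :=
  h.nonneg fun o => by cases o <;> simp
lemma IsProb.nn_le {E : Ex (Option Y)} (h : IsProb E) : E nn ≤ 1 :=
  h.le_const fun o => by cases o <;> simp

/-- proportional success laws -/
def Propl (E E' : (ι → Bool) → Ex (Option Y)) : Prop :=
  ∀ x, ∃ l : ℝ, 0 ≤ l ∧ ∀ g, E' x (sm g) = l * E x (sm g)

lemma Propl.trans {E E' E'' : (ι → Bool) → Ex (Option Y)} (h : Propl E E') (h' : Propl E' E'') :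
    Propl E E'' := fun x => by
  obtain ⟨l, hl, h⟩ := h x
  obtain ⟨l', hl', h'⟩ := h' x
  exact ⟨l' * l, by positivity, fun g => by rw [h', h, mul_assoc]⟩

/-- success probabilities along Grover iterations -/
def gseq (p : ℝ) : ℕ → ℝ
  | 0 => p
  | s + 1 => (3 - 4 * gseq p s) ^ 2 * gseq p s

lemma gseq_bound {p : ℝ} (hp : 0 ≤ p) : ∀ s, 9 ^ s * p ≤ 1 →
    9 ^ s * p * (1 - 9 ^ s * p / 2) ≤ gseq p s ∧ gseq p s ≤ 9 ^ s * p
  | 0, h => by simp only [gseq, pow_zero, one_mul] at h ⊢; constructor <;> nlinarith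
  | s + 1, h => by
      have hu : 0 ≤ 9 ^ s * p := by positivity
      have e : 9 ^ (s + 1) * p = 9 * (9 ^ s * p) := by ring
      rw [e] at h ⊢
      obtain ⟨h1, h2⟩ := gseq_bound hp s (by linarith)
      simp only [gseq]
      generalize 9 ^ s * p = u at *
      generalize gseq p s = a at *
      have ha : 0 ≤ a := le_trans (by nlinarith) h1
      constructor
      · have h3 : (9 - 24 * u) * (u * (1 - u / 2)) ≤ (9 - 24 * u) * a :=
          mul_le_mul_of_nonneg_left h1 (by linarith)
        have h4 : (9 - 24 * u) * a ≤ (3 - 4 * a) ^ 2 * a :=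
          mul_le_mul_of_nonneg_right (by nlinarith) ha
        nlinarith [mul_nonneg hu hu, mul_nonneg (mul_nonneg hu hu) hu]
      · have : (3 - 4 * a) ^ 2 * a ≤ 9 * a := mul_le_mul_of_nonneg_right (by nlinarith) ha
        linarith

lemma gseq_large {p : ℝ} (hp : 0 ≤ p) (hp1 : p ≤ 1) {S : ℕ} (h : 1 ≤ 9 ^ S * p) :
    ∃ s ≤ S, 1 / 10 ≤ gseq p s := by
  have hex : ∃ s, 1 / 9 ≤ 9 ^ s * p := ⟨S, by linarith⟩
  classical
  refine ⟨Nat.find hex, Nat.find_min' hex (by linarith), ?_⟩
  have h1 := Nat.find_spec hex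
  have h2 : 9 ^ Nat.find hex * p ≤ 1 := by
    rcases hs : Nat.find hex with _ | s
    · simpa
    · have := Nat.find_min hex (m := s) (by omega)
      rw [pow_succ]; linarith
  have := (gseq_bound hp _ h2).1
  nlinarith

variable {q : ℕ} {E : (ι → Bool) → Ex (Option Y)}

lemma QD.amp_iter (h : QD q E) : ∀ s : ℕ, ∃ E' : (ι → Bool) → Ex (Option Y),
    QD (3 ^ s * q) E' ∧ Propl E E' ∧ ∀ x, E' x (sm fun _ => 1) = gseq (E x (sm fun _ => 1)) s
  | 0 => ⟨E, by simpa, fun x => ⟨1, by simp, by simp⟩, fun x => rfl⟩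
  | s + 1 => by
      obtain ⟨E', h1, h2, h3⟩ := h.amp_iter s
      have hind : (fun y : Option Y => if y.isSome then (1 : ℝ) else 0) = sm fun _ => 1 := by
        funext o; cases o <;> simp
      have key : ∀ x (g : Y → ℝ) (a b : ℝ), E' x (fun y => (if y.isSome then a else b) * sm g y)
          = a * E' x (sm g) := by
        intro x g a b
        rw [← (h1.isProb x).smul]
        congr 1; funext o; cases o <;> simp
      refine ⟨_, (h1.amplify Option.isSome).mono (by ring_nf; omega), h2.trans fun x =>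
        ⟨_, sq_nonneg _, fun g => key x g _ _⟩, fun x => ?_⟩
      rw [key, hind, h3]; rfl

lemma QD.fold {q' : ℕ} {F : ℕ → (ι → Bool) → Ex (Option Y)} : ∀ k : ℕ,
    (∀ i < k, QD q' (F i)) → (∀ i < k, Propl E (F i)) → ∃ E' : (ι → Bool) → Ex (Option Y),
      QD (k * q') E' ∧ Propl E E' ∧ ∀ x, E' x nn = ∏ i ∈ Finset.range k, F i x nn
  | 0, _, _ => ⟨_, by simpa using QD.pure none, fun x => ⟨0, le_rfl, by simp⟩, by simp⟩
  | k + 1, h, hp => by
      obtain ⟨E', h1, h2, h3⟩ := QD.fold k (fun i hi => h i (by omega)) (fun i hi => hp i (by omega))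
      have hk := h k (by omega)
      let K : Option Y → (ι → Bool) → Ex (Option Y) := fun o =>
        o.elim (F k) fun y _ g => g (some y)
      have hK : ∀ o, QD q' (K o) := fun o => by
        cases o with
        | none => exact hk
        | some y => exact (QD.pure (some y)).mono (Nat.zero_le _)
      refine ⟨_, (h1.bind hK).mono (by ring_nf; omega), fun x => ?_, fun x => ?_⟩
      · obtain ⟨l, hl, e⟩ := h2 x
        obtain ⟨l', hl', e'⟩ := hp k (by omega) x
        refine ⟨l + l' * E' x nn, by have := (h1.isProb x).nn_nonneg; positivity, fun g => ?_⟩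
        have : (fun o => K o x (sm g)) = fun o => sm g o + F k x (sm g) * nn o := by
          funext o; cases o <;> simp [K]
        simp only [this]
        rw [(h1.isProb x).add, (h1.isProb x).smul, e, e']; ring
      · have : (fun o => K o x nn) = fun o => F k x nn * nn o := by
          funext o; cases o <;> simp [K]
        simp only [this]
        rw [(h1.isProb x).smul, h3, Finset.prod_range_succ, mul_comm]

/-- quantum search with boosting -/
theorem QD.search (h : QD q E) (S n : ℕ) : ∃ E' : (ι → Bool) → Ex (Option Y),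
    QD (n * ((S + 1) * (3 ^ S * q))) E' ∧ Propl E E' ∧
      ∀ x, 1 ≤ 9 ^ S * E x (sm fun _ => 1) → E' x nn ≤ (9 / 10) ^ n := by
  choose F hF pF sF using h.amp_iter
  obtain ⟨G, hG, pG, sG⟩ := QD.fold (E := E) (F := F) (q' := 3 ^ S * q) (S + 1)
    (fun i hi => (hF i).mono (Nat.mul_le_mul_right _ (Nat.pow_le_pow_right (by norm_num)
      (by omega)))) (fun i _ => pF i)
  obtain ⟨G', hG', pG', sG'⟩ := QD.fold (E := E) (F := fun _ => G) n (fun _ _ => hG)
    (fun _ _ => pG)
  refine ⟨G', hG', pG', fun x hx => ?_⟩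
  rw [sG', Finset.prod_const, Finset.card_range]
  refine pow_le_pow_left₀ (hG.isProb x).nn_nonneg ?_ n
  obtain ⟨s, hs, h10⟩ := gseq_large (p := E x (sm fun _ => 1))
    ((h.isProb x).nonneg fun o => by cases o <;> simp)
    ((h.isProb x).le_const fun o => by cases o <;> simp) hx
  rw [sG, ← Finset.mul_prod_erase _ _ (Finset.mem_range.2 (Nat.lt_succ_of_le hs))]
  have h1 : ∏ i ∈ (Finset.range (S + 1)).erase s, F i x nn ≤ 1 :=
    Finset.prod_le_one (fun i _ => ((hF i).isProb x).nn_nonneg) fun i _ => ((hF i).isProb x).nn_le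
  have h2 : F s x nn ≤ 9 / 10 := by rw [((hF s).isProb x).nn_eq, sF]; linarith
  have h3 := ((hF s).isProb x).nn_nonneg
  nlinarith

end Crest.Agent.QQ
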