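import Crest.Agent.QQ.Chain
import Crest.Agent.QQ.Search

/-! The fooling pair of distributions for multi-fold Forrelation. -/

set_option autoImplicit false
set_option linter.unusedSectionVars false
open MeasureTheory MvPolynomial

namespace Crest.Agent.QQ

section
variable {V : Type} [Fintype V] [DecidableEq V]

/-- absolute mass of one coordinate -/
noncomputable def mm (w : ℝ) : ℝ := (|1 - w| + |1 + w|) / 2

lemma one_le_mm (w : ℝ) : 1 ≤ mm w := by
  have := abs_add_le (1 - w) (1 + w)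
  have h : |(1 - w) + (1 + w)| = 2 := by rw [show (1 - w) + (1 + w) = (2 : ℝ) by ring]; simp
  unfold mm; linarith

lemma mm_sq_le {L R lx ly : ℝ} (h1 : 1 ≤ lx) (h2 : R ^ 2 ≤ lx) (h3 : 1 ≤ ly) (h4 : L ^ 2 ≤ ly) :
    mm (L * R) ^ 2 ≤ lx * ly := by
  have a1 : 1 ≤ lx * ly := by nlinarith
  have a2 : (L * R) ^ 2 ≤ lx * ly := by
    rw [mul_pow, mul_comm]; exact mul_le_mul h2 h4 (sq_nonneg _) (by linarith)
  unfold mm
  rcases abs_cases (1 - L * R) with ⟨e1, _⟩ | ⟨e1, _⟩ <;>
    rcases abs_cases (1 + L * R) with ⟨e2, _⟩ | ⟨e2, _⟩ <;> rw [e1, e2] <;> nlinarith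

lemma abs_Lam_le (c : Finset V → ℝ) {F : (V → Bool) → ℝ} (hF : ∀ z, |F z| ≤ 1) (μ : V → ℝ) :
    |Lam c F μ| ≤ (∑ T, |c T|) * ∏ v, mm (μ v) := by
  have h1 : ∀ T : Finset V, ∑ z, |wt μ T z| ≤ ∏ v, mm (μ v) := by
    intro T
    simp only [wt, Finset.abs_prod]
    rw [sum_prod_bool (fun v b => |if v ∈ T then sg b / 2 else (1 + sg b * μ v) / 2|)]
    refine Finset.prod_le_prod (fun v _ => by positivity) fun v _ => ?_
    split_ifs
    · refine le_trans (le_of_eq ?_) (one_le_mm _)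
      simp [abs_div]; norm_num
    · simp only [mm, abs_div, sg_true, sg_false, neg_one_mul, one_mul, ← sub_eq_add_neg, abs_two]
      linarith
  calc |Lam c F μ| ≤ ∑ z, ∑ T, |c T| * |wt μ T z| := by
        refine (Finset.abs_sum_le_sum_abs _ _).trans (Finset.sum_le_sum fun z _ => ?_)
        rw [abs_mul]
        refine (mul_le_of_le_one_left (abs_nonneg _) (hF z)).trans
          ((Finset.abs_sum_le_sum_abs _ _).trans (le_of_eq ?_))
        simp [abs_mul]
    _ = ∑ T, |c T| * ∑ z, |wt μ T z| := by rw [Finset.sum_comm]; simp [Finset.mul_sum]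
    _ ≤ _ := by
        rw [Finset.sum_mul]
        exact Finset.sum_le_sum fun T _ => mul_le_mul_of_nonneg_left (h1 T) (abs_nonneg _)

/-- the coefficient vector of plain expectation -/
def dl : Finset V → ℝ := fun T => if T = ∅ then 1 else 0

lemma Lam_dl (F : (V → Bool) → ℝ) (μ : V → ℝ) : Lam dl F μ = ∑ z, F z * wt μ ∅ z := by
  simp [Lam, dl]

lemma sum_abs_dl : ∑ T : Finset V, |dl T| = 1 := by
  simp [dl, apply_ite abs]

end

variable {A : Type} [Fintype A] [DecidableEq A] {K : ℕ} (H : A → A → ℝ) (σ : ℝ)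

/-- the mean vector at a point -/
noncomputable def wv (t : ℝ) (g : Fin K × A → ℝ) : Fin (K + 1) × A → ℝ :=
  fun v => eval g (wP H σ t v)

/-- polynomial weight -/
noncomputable def WP (t : ℝ) (T : Finset (Fin (K + 1) × A)) (z : Fin (K + 1) × A → Bool) :
    MvPolynomial (Fin K × A) ℝ :=
  C (∏ v ∈ T, sg (z v) / 2) * PT H σ (fun _ => 1 / 2) (fun v => sg (z v) / 2) t T

lemma eval_WP (t : ℝ) (T : Finset (Fin (K + 1) × A)) (z : Fin (K + 1) × A → Bool)
    (g : Fin K × A → ℝ) : eval g (WP H σ t T z) = wt (wv H σ t g) T z := by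
  rw [wt, ← Finset.prod_mul_prod_compl T, WP, PT, map_mul, eval_C, map_prod]
  congr 1
  · exact Finset.prod_congr rfl fun v hv => by rw [if_pos hv]
  · refine Finset.prod_congr rfl fun v hv => ?_
    rw [if_neg (Finset.mem_compl.1 hv)]
    simp [wv]; ring

/-- polynomial version of `Lam` -/
noncomputable def LamP (c : Finset (Fin (K + 1) × A) → ℝ) (F : (Fin (K + 1) × A → Bool) → ℝ)
    (t : ℝ) : MvPolynomial (Fin K × A) ℝ := ∑ z, C (F z) * ∑ T, C (c T) * WP H σ t T z

lemma eval_LamP (c : Finset (Fin (K + 1) × A) → ℝ) (F : (Fin (K + 1) × A → Bool) → ℝ)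
    (t : ℝ) (g : Fin K × A → ℝ) : eval g (LamP H σ c F t) = Lam c F (wv H σ t g) := by
  simp [LamP, Lam, eval_WP]

/-- the path coefficients -/
noncomputable def cp : Finset (Fin (K + 1) × A) → ℝ := Function.extend gr (hw H) 0

lemma sum_cp (f : Finset (Fin (K + 1) × A) → ℝ → ℝ) (hf : ∀ T, f T 0 = 0) :
    ∑ T, f T (cp H T) = ∑ π : Fin (K + 1) → A, f (gr π) (hw H π) := by
  symm
  refine Finset.sum_of_injOn gr gr_injective.injOn (by simp) ?_ ?_
  · intro T _ hT
    rw [cp, Function.extend_apply' _ _ _ (by simpa using hT)]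
    exact hf T
  · intro π _
    rw [cp, gr_injective.extend_apply]

lemma hasDerivAt_LamP [Nonempty A] (F : (Fin (K + 1) × A → Bool) → ℝ) (t : ℝ) :
    HasDerivAt (fun t => GE (LamP H σ dl F t)) ((σ ^ 2) ^ K * GE (LamP H σ (cp H) F t)) t := by
  have h1 : ∀ t, GE (LamP H σ dl F t)
      = ∑ z, F z * GE (PT H σ (fun _ => 1 / 2) (fun v => sg (z v) / 2) t ∅) := by
    intro t
    simp [LamP, GE_C_mul, dl, WP, apply_ite C]
  simp only [h1]
  refine (HasDerivAt.fun_sum (u := Finset.univ) fun z _ => (hasDerivAt_PT H σ (fun _ => 1 / 2)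
    (fun v => sg (z v) / 2) t).const_mul (F z)).congr_deriv ?_
  rw [LamP, map_sum, Finset.mul_sum]
  refine Finset.sum_congr rfl fun z _ => ?_
  rw [chain H σ _ (fun v => sg (z v) / 2), GE_C_mul, map_sum, mul_left_comm]
  simp only [GE_C_mul]
  rw [sum_cp H (fun T c => c * GE (WP H σ t T z)) (by simp)]
  congr 2
  refine Finset.sum_congr rfl fun π _ => ?_
  rw [WP, GE_C_mul]; ring

/-- Forrelation as a path sum -/
noncomputable def forr (z : Fin (K + 1) × A → Bool) : ℝ :=
  (Fintype.card A : ℝ)⁻¹ * ∑ π : Fin (K + 1) → A, hw H π * ∏ i, sg (z (i, π i))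

lemma Lam_char (μ : Fin (K + 1) × A → ℝ) (π : Fin (K + 1) → A) :
    ∑ z : Fin (K + 1) × A → Bool, (∏ i, sg (z (i, π i))) * wt μ ∅ z = ∏ v ∈ gr π, μ v := by
  have : ∀ z : Fin (K + 1) × A → Bool, (∏ i, sg (z (i, π i))) * wt μ ∅ z
      = ∏ v, (if v ∈ gr π then sg (z v) else 1) * ((1 + sg (z v) * μ v) / 2) := by
    intro z
    rw [Finset.prod_mul_distrib, ← prod_gr π (fun v => sg (z v)), Finset.prod_ite_mem]
    simp [wt]
  simp only [this]
  rw [sum_prod_bool (fun v b => (if v ∈ gr π then sg b else 1) * ((1 + sg b * μ v) / 2)),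
    ← Finset.univ_inter (gr π), ← Finset.prod_ite_mem, Finset.univ_inter]
  refine Finset.prod_congr rfl fun v _ => ?_
  split_ifs <;> simp <;> ring

lemma GE_forr [Nonempty A] {h : ℝ} (hH : ∀ a b, |H a b| = h) (hN : h ^ 2 * Fintype.card A = 1)
    (t : ℝ) : GE (LamP (K := K) H σ dl (forr H) t) = t * (σ ^ 2) ^ K := by
  have h1 : LamP (K := K) H σ dl (forr H) t = C (Fintype.card A : ℝ)⁻¹ *
      ∑ π : Fin (K + 1) → A, C (hw H π) * ∏ v ∈ gr π, wP H σ t v := by
    apply MvPolynomial.funext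
    intro g
    rw [eval_LamP, Lam_dl]
    simp only [forr, map_mul, eval_C, map_sum, map_prod, mul_assoc, Finset.sum_mul,
      ← Finset.mul_sum]
    rw [Finset.sum_comm]
    simp only [← Finset.mul_sum, Lam_char, wv]
  have h2 : ∀ π : Fin (K + 1) → A, hw H π * hw H π = (h ^ 2) ^ K := fun π => by
    rw [← abs_mul_abs_self, hw, Finset.abs_prod]
    simp [hH]; ring
  have hc : (Fintype.card A : ℝ) ≠ 0 := by exact_mod_cast Fintype.card_ne_zero
  rw [h1, GE_C_mul, map_sum]
  simp only [GE_C_mul, GE_path, mul_left_comm (hw H _), h2]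
  simp only [Finset.sum_const, Finset.card_univ, Fintype.card_pi, Finset.prod_const,
    Fintype.card_fin, nsmul_eq_mul]
  push_cast
  have : (h ^ 2) ^ K * (Fintype.card A : ℝ) ^ K = 1 := by rw [← mul_pow, hN, one_pow]
  field_simp
  linear_combination (Fintype.card A * t * (σ ^ 2) ^ K) * this

end Crest.Agent.QQ
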