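import Crest.Agent.QQ.Fool

/-! Truncation of the Gaussian model and the fooling lemma. -/

set_option autoImplicit false
set_option linter.unusedSectionVars false
open MeasureTheory MvPolynomial

namespace Crest.Agent.QQ

variable {A : Type} [Fintype A] [DecidableEq A] {K : ℕ} (H : A → A → ℝ) (σ : ℝ) (p : ℕ)

/-- first majorant -/
noncomputable def Hx : MvPolynomial (Fin K × A) ℝ :=
  ∏ i, (1 + C ((2 * σ) ^ (2 * p)) * X i ^ (2 * p))

/-- second majorant -/
noncomputable def Hy : MvPolynomial (Fin K × A) ℝ := aeval (lin (bO H)) (Hx (K := K) (A := A) σ p)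

lemma eval_Hx (g : Fin K × A → ℝ) : eval g (Hx σ p) = ∏ i, (1 + (2 * (σ * g i)) ^ (2 * p)) := by
  simp [Hx, mul_pow, mul_assoc]

lemma eval_Hy (g : Fin K × A → ℝ) :
    eval g (Hy H σ p) = ∏ i, (1 + (2 * (σ * eval g (lin (bO H) i))) ^ (2 * p)) := by
  simp [Hy, Hx, mul_pow, mul_assoc]

lemma fac_one (u : ℝ) : 1 ≤ 1 + (2 * u) ^ (2 * p) := by
  have := (even_two_mul p).pow_nonneg (2 * u); linarith

lemma fac_sq (hp : 1 ≤ p) (u : ℝ) : u ^ 2 ≤ 1 + (2 * u) ^ (2 * p) := by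
  by_cases h : u ^ 2 ≤ 1
  · exact h.trans (fac_one p u)
  · have h1 : 1 ≤ (2 * u) ^ 2 := by nlinarith
    have := pow_le_pow_right₀ h1 hp
    rw [pow_mul]; nlinarith

lemma fac_small (hp : 1 ≤ p) {I : Type} [Fintype I] (u : I → ℝ)
    (h : ∏ i, (1 + (2 * u i) ^ (2 * p)) < 2) (i : I) : |u i| ≤ 1 / 2 := by
  classical
  by_contra hc
  push Not at hc
  have h1 : 1 ≤ (2 * u i) ^ 2 := by
    rw [mul_pow, ← sq_abs (u i)]; nlinarith
  have h2 := pow_le_pow_right₀ h1 hp
  rw [← pow_mul, ← pow_mul, mul_one] at h2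
  rw [← Finset.mul_prod_erase _ _ (Finset.mem_univ i)] at h
  have h3 := Finset.one_le_prod (s := Finset.univ.erase i)
    (f := fun j => 1 + (2 * u j) ^ (2 * p)) fun j _ => fac_one p _
  nlinarith

lemma one_le_Hx (g : Fin K × A → ℝ) : 1 ≤ eval g (Hx σ p) := by
  rw [eval_Hx]; exact Finset.one_le_prod fun j _ => fac_one p _

lemma one_le_Hy (g : Fin K × A → ℝ) : 1 ≤ eval g (Hy H σ p) := by
  rw [eval_Hy]; exact Finset.one_le_prod fun j _ => fac_one p _

lemma wv_small (hp : 1 ≤ p) (hK : 1 ≤ K) {t : ℝ} (ht : |t| ≤ 1) (g : Fin K × A → ℝ)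
    (hg : eval g (Hx σ p + Hy H σ p) < 3) (v : Fin (K + 1) × A) : |wv H σ t g v| ≤ 1 / 2 := by
  have h1 := one_le_Hx σ p g
  have h2 := one_le_Hy H σ p g
  rw [map_add] at hg
  have hx := fac_small p hp (fun i => σ * g i) (by rw [← eval_Hx]; linarith)
  have hy := fac_small p hp (fun i => σ * eval g (lin (bO H) i)) (by rw [← eval_Hy]; linarith)
  obtain ⟨i, a⟩ := v
  simp only [wv, wP, map_mul, abs_mul, Lf, Rt]
  split_ifs with c1 c2 c2
  · simp only [eval_C, map_mul, eval_X]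
    nlinarith [hx (⟨i, c2⟩, a), abs_nonneg t, abs_nonneg (σ * g (⟨i, c2⟩, a))]
  · omega
  · simp only [eval_C, map_mul, eval_X]
    nlinarith [hx (⟨i, c2⟩, a), hy (⟨i - 1, by omega⟩, a), abs_nonneg (σ * g (⟨i, c2⟩, a))]
  · simpa using hy (⟨i - 1, by omega⟩, a)

lemma prod_mm_le (hp : 1 ≤ p) {t : ℝ} (ht : |t| ≤ 1) (g : Fin K × A → ℝ) :
    ∏ v, mm (wv H σ t g v) ≤ eval g (Hx σ p + Hy H σ p) / 2 := by
  let lx : Fin (K + 1) × A → ℝ := fun v =>
    if h : v.1.val < K then 1 + (2 * (σ * g (⟨v.1, h⟩, v.2))) ^ (2 * p) else 1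
  let ly : Fin (K + 1) × A → ℝ := fun v => if h : v.1.val = 0 then 1 else
    1 + (2 * (σ * eval g (lin (bO H) (⟨v.1 - 1, by omega⟩, v.2)))) ^ (2 * p)
  have hx : ∏ v, lx v = eval g (Hx σ p) := by
    rw [eval_Hx, Fintype.prod_prod_type, Fintype.prod_prod_type, Fin.prod_univ_castSucc]
    simp [lx]
  have hy : ∏ v, ly v = eval g (Hy H σ p) := by
    rw [eval_Hy, Fintype.prod_prod_type, Fintype.prod_prod_type, Fin.prod_univ_succ]
    simp [ly]
  have h : (∏ v, mm (wv H σ t g v)) ^ 2 ≤ eval g (Hx σ p) * eval g (Hy H σ p) := by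
    rw [← hx, ← hy, ← Finset.prod_mul_distrib, ← Finset.prod_pow]
    refine Finset.prod_le_prod (fun v _ => sq_nonneg _) fun v _ => ?_
    simp only [wv, wP, map_mul]
    refine mm_sq_le ?_ ?_ ?_ ?_
    · simp only [lx]; split_ifs; exacts [fac_one p _, le_rfl]
    · simp only [lx, Rt]; split_ifs
      · simpa using fac_sq p hp _
      · simp
    · simp only [ly]; split_ifs; exacts [le_rfl, fac_one p _]
    · simp only [ly, Lf]; split_ifs
      · simpa using ht
      · simpa using fac_sq p hp _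
  have h1 := one_le_Hx σ p g
  have h2 := one_le_Hy H σ p g
  rw [map_add]
  refine abs_le_of_sq_le_sq' (h.trans ?_) (by linarith) |>.2
  nlinarith [sq_nonneg (eval g (Hx σ p) - eval g (Hy H σ p))]

/-- the error polynomial -/
noncomputable def QE : MvPolynomial (Fin K × A) ℝ := C 2 * (Hx σ p + Hy H σ p) - C 4

lemma eval_QE (g : Fin K × A → ℝ) :
    eval g (QE H σ p) = 2 * eval g (Hx σ p + Hy H σ p) - 4 := by simp [QE]

lemma QE_nonneg (g : Fin K × A → ℝ) : 0 ≤ eval g (QE H σ p) := by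
  have h1 := one_le_Hx σ p g
  have h2 := one_le_Hy H σ p g
  rw [eval_QE, map_add]; linarith

lemma GE_QE (hO : ∀ a b, ∑ c, H a c * H b c = if a = b then 1 else 0) :
    GE (QE (K := K) H σ p)
      = 4 * ((1 + (2 * σ) ^ (2 * p) * mom (2 * p)) ^ (K * Fintype.card A) - 1) := by
  have h1 : GE (Hy (K := K) H σ p) = GE (Hx (K := K) (A := A) σ p) := by
    refine GE_rot _ (fun a b => ?_) _
    rw [Fintype.sum_prod_type, Finset.sum_eq_single a.1]
    · by_cases h : b.1 = a.1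
      · simp [bO, h, hO, Prod.ext_iff]
      · simp [bO, h, Prod.ext_iff, Ne.symm h]
    · intro i _ hi; simp [bO, hi.symm]
    · simp
  have h2 : GE (C 4 : MvPolynomial (Fin K × A) ℝ) = 4 := by
    simpa [GE_one] using GE_C_mul (I := Fin K × A) 4 1
  rw [QE, map_sub, GE_C_mul, map_add, h1, h2, Hx, GE_prod_one_add]
  simp; ring

lemma abs_GE_LamP_le (hp : 1 ≤ p) (hK : 1 ≤ K) {t : ℝ} (ht : |t| ≤ 1)
    (c : Finset (Fin (K + 1) × A) → ℝ) {F : (Fin (K + 1) × A → Bool) → ℝ} (hF : ∀ z, |F z| ≤ 1)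
    {β : ℝ} (hβ0 : 0 ≤ β) (hβ : ∀ μ, (∀ v, |μ v| ≤ 1 / 2) → |Lam c F μ| ≤ β) :
    |GE (LamP H σ c F t)| ≤ β + (∑ T, |c T|) * GE (QE (K := K) H σ p) := by
  have hc : 0 ≤ ∑ T, |c T| := by positivity
  have : β + (∑ T, |c T|) * GE (QE (K := K) H σ p)
      = GE (C β * 1 + C (∑ T, |c T|) * QE (K := K) H σ p) := by
    rw [map_add, GE_C_mul, GE_C_mul, GE_one, mul_one]
  rw [this, GE_apply, GE_apply, ← Real.norm_eq_abs]
  refine norm_integral_le_of_norm_le (integrable_eval _) (Filter.Eventually.of_forall fun g => ?_)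
  rw [Real.norm_eq_abs, eval_LamP, map_add, map_mul, map_mul, eval_C, eval_C, map_one, mul_one]
  have hq := QE_nonneg H σ p g
  by_cases hg : eval g (Hx σ p + Hy H σ p) < 3
  · exact (hβ _ (wv_small H σ p hp hK ht g hg)).trans (le_add_of_nonneg_right (by positivity))
  · refine (abs_Lam_le c hF _).trans (le_add_of_nonneg_of_le hβ0
      (mul_le_mul_of_nonneg_left ((prod_mm_le H σ p hp ht g).trans ?_) hc))
    rw [eval_QE]; linarith

/-- truncated mean vector -/
noncomputable def wtr (t : ℝ) (g : Fin K × A → ℝ) : Fin (K + 1) × A → ℝ :=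
  if eval g (Hx σ p + Hy H σ p) < 3 then wv H σ t g else 0

lemma integrable_wtr (t : ℝ) (z : Fin (K + 1) × A → Bool) :
    Integrable (fun g => wt (wtr H σ p t g) ∅ z) (gam (Fin K × A)) := by
  have hs : MeasurableSet {g : Fin K × A → ℝ | eval g (Hx σ p + Hy H σ p) < 3} :=
    measurableSet_lt (MvPolynomial.continuous_eval _).measurable measurable_const
  refine (((integrable_eval (WP H σ t ∅ z)).indicator hs).add
    ((integrable_const (wt 0 ∅ z)).indicator hs.compl)).congr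
    (Filter.Eventually.of_forall fun g => ?_)
  by_cases hg : eval g (Hx σ p + Hy H σ p) < 3
  · simp only [Pi.add_apply, Set.indicator, Set.mem_compl_iff, Set.mem_ofPred_eq, hg, wtr, eval_WP]
    simp
  · simp only [Pi.add_apply, Set.indicator, Set.mem_compl_iff, Set.mem_ofPred_eq, hg, wtr]
    simp

/-- the hard distribution -/
noncomputable def Dx (t : ℝ) : Ex (Fin (K + 1) × A → Bool) := fun F =>
  ∑ z, (∫ g, wt (wtr H σ p t g) ∅ z ∂gam (Fin K × A)) * F z

lemma Dx_isProb (hp : 1 ≤ p) (hK : 1 ≤ K) {t : ℝ} (ht : |t| ≤ 1) :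
    IsProb (Dx (K := K) H σ p t) := by
  refine IsProb.ofFin (fun z => integral_nonneg fun g => ?_) ?_
  · refine Finset.prod_nonneg fun v _ => ?_
    have : |wtr H σ p t g v| ≤ 1 / 2 := by
      unfold wtr; split_ifs with hg
      · exact wv_small H σ p hp hK ht g hg v
      · simp
    have h2 : |sg (z v) * wtr H σ p t g v| ≤ 1 / 2 := by rwa [abs_mul, abs_sg, one_mul]
    have := (abs_le.1 h2).1
    simp only [Finset.notMem_empty, if_false]; linarith
  · rw [← integral_finsetSum _ fun z _ => integrable_wtr H σ p t z]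
    simp [sum_wt]

lemma Dx_approx (hp : 1 ≤ p) {t : ℝ} (ht : |t| ≤ 1) {F : (Fin (K + 1) × A → Bool) → ℝ}
    (hF : ∀ z, |F z| ≤ 1) :
    |Dx H σ p t F - GE (LamP H σ dl F t)| ≤ 2 * GE (QE (K := K) H σ p) := by
  have hi : ∀ z, Integrable (fun g => F z * wt (wtr H σ p t g) ∅ z) (gam (Fin K × A)) :=
    fun z => (integrable_wtr H σ p t z).const_mul _
  have h1 : Dx H σ p t F = ∫ g, ∑ z, F z * wt (wtr H σ p t g) ∅ z ∂gam (Fin K × A) := by
    rw [integral_finsetSum _ fun z _ => hi z]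
    simp [Dx, integral_const_mul, mul_comm]
  rw [h1, GE_apply, ← integral_sub (integrable_finsetSum _ fun z _ => hi z) (integrable_eval _),
    ← GE_C_mul, GE_apply, ← Real.norm_eq_abs]
  refine norm_integral_le_of_norm_le (integrable_eval _) (Filter.Eventually.of_forall fun g => ?_)
  rw [Real.norm_eq_abs, eval_LamP, ← Lam_dl, map_mul, eval_C]
  have hq := QE_nonneg H σ p g
  by_cases hg : eval g (Hx σ p + Hy H σ p) < 3
  · simp only [wtr, hg, if_true, sub_self, abs_zero]; linarith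
  · have a1 := abs_Lam_le dl hF (wtr H σ p t g)
    have a2 := abs_Lam_le dl hF (wv H σ t g)
    rw [sum_abs_dl, one_mul] at a1 a2
    have a3 := prod_mm_le H σ p hp ht g
    have a4 : ∏ v, mm (wtr H σ p t g v) = 1 := by
      simp only [wtr, hg, if_false]; simp [mm]
    refine (abs_sub _ _).trans ?_
    rw [eval_QE]; linarith

end Crest.Agent.QQ
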