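import Crest.Agent.QQ.Fool

/-! Forrelation as a matrix product; the quantum test. -/

set_option autoImplicit false
set_option linter.unusedSectionVars false
open Matrix

namespace Crest.Agent.QQ

variable {A : Type} [Fintype A] [DecidableEq A] {K : ℕ} (H : A → A → ℝ)

/-- iterated transform -/
noncomputable def fv (s : ℕ → A → ℝ) : ℕ → A → ℝ
  | 0 => s 0
  | i + 1 => fun b => s (i + 1) b * ∑ a, H b a * fv s i a

lemma fv_path (s : ℕ → A → ℝ) : ∀ (K : ℕ) (φ : A → ℝ), ∑ b, φ b * fv H s K b
    = ∑ π : Fin (K + 1) → A, φ (π (Fin.last K)) * (hw H π * ∏ i : Fin (K + 1), s i (π i))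
  | 0, φ => by
      refine Fintype.sum_equiv (Equiv.funUnique (Fin 1) A).symm _ _ fun a => ?_
      simp [fv, hw]
  | K + 1, φ => by
      have := fv_path s K (fun a => ∑ b, φ b * s (K + 1) b * H b a)
      rw [← (Fin.snocEquiv fun _ => A).sum_comp, Fintype.sum_prod_type, Finset.sum_comm]
      simp only [Finset.sum_mul] at this
      rw [Finset.sum_comm] at this
      simp only [fv, Finset.mul_sum, ← mul_assoc] at this ⊢
      rw [this]
      refine Finset.sum_congr rfl fun π _ => Finset.sum_congr rfl fun b _ => ?_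
      have e1 : hw H (Fin.snoc π b : Fin (K + 2) → A) = hw H π * H b (π (Fin.last K)) := by
        rw [hw, hw, Fin.prod_univ_castSucc]
        simp only [Fin.snoc_last, Fin.snoc_castSucc, Fin.succ_last, Fin.succ_castSucc]
      rw [Fin.prod_univ_castSucc (n := K + 1),
        show (Fin.snocEquiv fun _ => A) (b, π) = Fin.snoc π b from rfl]
      simp only [ Fin.snoc_last, Fin.snoc_castSucc, Fin.val_castSucc,
        Fin.val_last, e1]
      ring

/-- sign arrays of an input -/
noncomputable def sz (z : Fin (K + 1) × A → Bool) : ℕ → A → ℝ := fun i a =>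
  if h : i < K + 1 then sg (z (⟨i, h⟩, a)) else 1

lemma forr_eq (z : Fin (K + 1) × A → Bool) :
    forr H z = (Fintype.card A : ℝ)⁻¹ * ∑ b, fv H (sz z) K b := by
  have := fv_path H (sz z) K (fun _ => 1)
  simp only [one_mul] at this
  simp only [forr, this, sz, Fin.is_lt, dite_true]

lemma fv_smul (h : ℝ) (s : ℕ → A → ℝ) : ∀ i b,
    fv (fun a b => h * H a b) s i b = h ^ i * fv H s i b
  | 0, b => by simp [fv]
  | i + 1, b => by
      simp only [fv, fv_smul h s i, Finset.mul_sum]
      exact Finset.sum_congr rfl fun a _ => by ring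

theorem forr_test [Nonempty A] (hO : ∀ a b, ∑ c, H a c * H b c = if a = b then 1 else 0) :
    QD (K + 1) (fun (z : Fin (K + 1) × A → Bool) (g : Bool → ℝ) =>
      (1 + forr H z) / 2 * g true + (1 - forr H z) / 2 * g false) := by
  let U : Matrix A A ℂ := fun a b => H a b
  have hU : U ∈ Matrix.unitaryGroup A ℂ := by
    rw [Matrix.mem_unitaryGroup_iff]
    ext a b
    simp only [mul_apply, star_apply, U, Complex.star_def, Complex.conj_ofReal, one_apply]
    rw [show (if a = b then (1 : ℂ) else 0) = ((if a = b then 1 else 0 : ℝ) : ℂ) by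
      split_ifs <;> simp, ← hO]
    simp
  let idx : ℕ → A → Option (Fin (K + 1) × A) := fun i a =>
    if h : i < K + 1 then some (⟨i, h⟩, a) else none
  have hidx : ∀ i z (v : A → ℂ) a, (phase (idx i) z *ᵥ v) a = sz z i a * v a := by
    intro i z v a
    simp only [phase, mulVec_diagonal, idx, sz]
    split_ifs <;> simp
  have key : ∀ i : ℕ, ∃ M : (Fin (K + 1) × A → Bool) → Matrix A A ℂ, QA (i + 1) M ∧
      ∀ z (c : ℂ) a, (M z *ᵥ fun _ => c) a = c * fv H (sz z) i a := by
    intro i
    induction i with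
    | zero => exact ⟨_, QA.phase1 (idx 0), fun z c a => by rw [hidx, mul_comm]; rfl⟩
    | succ i ih =>
      obtain ⟨M, hM, h⟩ := ih
      refine ⟨_, (hM.mul_left hU).comp (QA.phase1 (idx (i + 1))), fun z c a => ?_⟩
      rw [← mulVec_mulVec, ← mulVec_mulVec, hidx, funext (h z c)]
      simp only [mulVec, dotProduct, fv, U, Finset.mul_sum]
      push_cast
      simp only [Finset.mul_sum]
      exact Finset.sum_congr rfl fun b _ => by ring
  obtain ⟨M, hM, h⟩ := key K
  have hN : (0 : ℝ) < Fintype.card A := by exact_mod_cast Fintype.card_pos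
  have hs : (√(Fintype.card A : ℝ))⁻¹ * (√(Fintype.card A : ℝ))⁻¹ = (Fintype.card A : ℝ)⁻¹ := by
    rw [← mul_inv, Real.mul_self_sqrt hN.le]
  refine (QD.hadamard hM (u := fun _ => (((√(Fintype.card A : ℝ))⁻¹ : ℝ) : ℂ)) ?_).congr
    fun z g => ?_
  · simp only [Complex.norm_real, Real.norm_eq_abs, sq, abs_mul_abs_self, hs]
    simp [hN.ne']
  · have : (star (fun _ : A => (((√(Fintype.card A : ℝ))⁻¹ : ℝ) : ℂ)) ⬝ᵥ
        (M z *ᵥ fun _ => (((√(Fintype.card A : ℝ))⁻¹ : ℝ) : ℂ))).re = forr H z := by
      simp only [dotProduct, h, Pi.star_apply, Complex.star_def, Complex.conj_ofReal,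
        ← Complex.ofReal_mul, ← Complex.ofReal_sum, Complex.ofReal_re, ← mul_assoc, hs, forr_eq,
        Finset.mul_sum]
    rw [this]

lemma abs_forr_le [Nonempty A] (hO : ∀ a b, ∑ c, H a c * H b c = if a = b then 1 else 0)
    (z : Fin (K + 1) × A → Bool) : |forr H z| ≤ 1 := by
  have h := (forr_test (K := K) H hO).isProb z
  have h1 := h.nonneg (g := ind) ind_nonneg
  have h2 := h.le_const (g := ind) ind_le_one
  simp only [ind_true, ind_false] at h1 h2
  rw [abs_le]; constructor <;> linarith

end Crest.Agent.QQ
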