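import Crest.Agent.QQ.Fool2
import Crest.Agent.QQ.Forr

/-! The fooling theorem. -/

set_option autoImplicit false
set_option linter.unusedSectionVars false
open MeasureTheory MvPolynomial

namespace Crest.Agent.QQ

lemma one_add_pow_le {x : ℝ} (hx : 0 ≤ x) : ∀ n : ℕ, 2 * n * x ≤ 1 → (1 + x) ^ n ≤ 1 + 2 * n * x
  | 0, _ => by simp
  | n + 1, h => by
      push_cast at h ⊢
      have h1 : 2 * n * x ≤ 1 := by nlinarith
      have := mul_le_mul_of_nonneg_right (one_add_pow_le hx n h1) (by linarith : 0 ≤ 1 + x)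
      rw [pow_succ]; nlinarith

variable {A : Type} [Fintype A] [DecidableEq A] {K : ℕ} (H : A → A → ℝ)

lemma GE_QE_le (hO : ∀ a b, ∑ c, H a c * H b c = if a = b then 1 else 0) {σ : ℝ} {p : ℕ}
    (hp : 1 ≤ p) (hσ : σ ^ 2 = 1 / (16 * p)) (hs : 2 * (K * Fintype.card A : ℝ) ≤ 2 ^ p) :
    GE (QE (K := K) H σ p) ≤ 8 * (K * Fintype.card A) / 2 ^ p := by
  have hp0 : (0 : ℝ) < p := by exact_mod_cast hp
  obtain ⟨m0, m1⟩ := mom_even_le p
  have h0 : 0 ≤ (2 * σ) ^ (2 * p) * mom (2 * p) :=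
    mul_nonneg ((even_two_mul p).pow_nonneg _) m0
  have h1 : (2 * σ) ^ (2 * p) * mom (2 * p) ≤ 1 / 2 ^ p := by
    refine (mul_le_mul_of_nonneg_left m1 ((even_two_mul p).pow_nonneg _)).trans (le_of_eq ?_)
    rw [pow_mul, ← mul_pow, mul_pow 2 σ, hσ, ← one_div_pow]
    congr 1; field_simp; norm_num
  have h2 := one_add_pow_le (x := 1 / 2 ^ p) (by positivity) (K * Fintype.card A) (by
    push_cast; rw [mul_one_div, div_le_one (by positivity)]; exact hs)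
  have h3 := pow_le_pow_left₀ (by linarith) (add_le_add_right h1 1) (K * Fintype.card A)
  rw [GE_QE H σ p hO]
  push_cast at h2
  have : 8 * (K * Fintype.card A : ℝ) / 2 ^ p = 4 * (2 * (K * Fintype.card A) * (1 / 2 ^ p)) := by
    ring
  linarith

lemma abs_hw {h : ℝ} (hH : ∀ a b, |H a b| = h) (π : Fin (K + 1) → A) : |hw H π| = h ^ K := by
  rw [hw, Finset.abs_prod]; simp [hH]

lemma beta_le {h : ℝ} (hH : ∀ a b, |H a b| = h) (h0 : 0 < h) {P d : ℕ} (hP : 1 ≤ P) (hd : 1 ≤ d)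
    (hNP : (Fintype.card A : ℝ) ^ (K + 1) ≤ 4 ^ P) {B : ℝ} (hB0 : 0 < B)
    (hB : 24 * P ^ 2 * d ≤ B ^ 2) (t : Tr (Fin (K + 1) × A)) (ht : t.depth ≤ d)
    (μ : Fin (K + 1) × A → ℝ) (hμ : ∀ v, |μ v| ≤ 1 / 2) :
    |Lam (cp H) (fun z => ind (t.eval z)) μ| ≤ 8 * (h ^ K * B ^ (K + 1)) := by
  obtain ⟨n, rfl⟩ := Nat.exists_eq_add_of_le' hP
  have hd' : (1 : ℝ) ≤ d := by exact_mod_cast hd
  have hn : (0 : ℝ) ≤ n := by positivity
  push_cast at hB
  have hB1 : 2 * ((2 * n : ℕ) + 2 : ℝ) ≤ B := by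
    push_cast
    refine abs_le_of_sq_le_sq' ?_ hB0.le |>.2
    nlinarith [sq_nonneg (n + 1 : ℝ)]
  set u := h ^ K * B ^ (K + 1) with hu
  have hu0 : 0 < u := by positivity
  have h1 := tree_growth (even_two_mul n) hB1 (a := 2 * u) (by positivity) t (cp H) μ
    fun v => Or.inl (hμ v)
  have h2 : Pot (2 * n) B (cp (K := K) H) = (Fintype.card A : ℝ) ^ (K + 1) * u ^ (2 * n + 2) := by
    rw [Pot, sum_cp H (fun T c => (c * B ^ T.card) ^ (2 * n + 2)) (by simp)]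
    have : ∀ π : Fin (K + 1) → A, (hw H π * B ^ (gr π).card) ^ (2 * n + 2) = u ^ (2 * n + 2) :=
      fun π => by
        rw [← ((even_two_mul n).add even_two).pow_abs, abs_mul, abs_hw H hH, card_gr,
          abs_of_pos (by positivity)]
    simp [this]
  have h3 : (1 + 6 * ((2 * n : ℕ) + 2 : ℝ) ^ 2 / B ^ 2) ^ t.depth ≤ 3 := by
    have a1 : 6 * ((2 * n : ℕ) + 2 : ℝ) ^ 2 / B ^ 2 ≤ 1 / d := by
      rw [div_le_div_iff₀ (by positivity) (by positivity)]; push_cast; nlinarith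
    calc _ ≤ (1 + 1 / d : ℝ) ^ t.depth := by gcongr
      _ ≤ (1 + 1 / d : ℝ) ^ d := pow_le_pow_right₀ (le_add_of_nonneg_right (by positivity)) ht
      _ ≤ Real.exp (1 / d) ^ d := by gcongr; rw [add_comm]; exact Real.add_one_le_exp _
      _ = Real.exp 1 := by rw [← Real.exp_nat_mul]; congr 1; field_simp
      _ ≤ 3 := Real.exp_one_lt_three.le
  refine h1.trans ?_
  rw [h2]
  have h4 : (3 : ℝ) * (4 ^ (n + 1) * u ^ (2 * n + 2)) / (2 * u) ^ (2 * n + 1) = 6 * u := by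
    rw [show (4 : ℝ) = 2 ^ 2 by norm_num, ← pow_mul]; field_simp; ring
  calc _ ≤ 2 * u + 3 * (4 ^ (n + 1) * u ^ (2 * n + 2)) / (2 * u) ^ (2 * n + 1) := by gcongr
    _ = _ := by rw [h4]; ring

theorem fool [Nonempty A] {h : ℝ} (hH : ∀ a b, |H a b| = h) (hN : h ^ 2 * Fintype.card A = 1)
    (hO : ∀ a b, ∑ c, H a c * H b c = if a = b then 1 else 0) (hK : 1 ≤ K) {p P d : ℕ}
    (hp : 1 ≤ p) (hs : 2 * (K * Fintype.card A : ℝ) ≤ 2 ^ p) (hP : 1 ≤ P) (hd : 1 ≤ d)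
    (hNP : (Fintype.card A : ℝ) ^ (K + 1) ≤ 4 ^ P) {B τ : ℝ} (hB0 : 0 < B)
    (hB : 24 * P ^ 2 * d ≤ B ^ 2) (hτ : 8 * (K * Fintype.card A) / 2 ^ p ≤ τ) :
    ∃ D : Bool → Ex (Fin (K + 1) × A → Bool), (∀ b, IsProb (D b)) ∧
      (∀ b, 1 / (16 * p) ^ K - 2 * τ ≤ D b (fun z => sg b * forr H z)) ∧
      ∀ t : Tr (Fin (K + 1) × A), t.depth ≤ d → ∀ b, D b (fun z => ind (t.eval z))
        ≤ D false (fun z => ind (t.eval z))
          + (16 * (h ^ K * B ^ (K + 1)) + 6 * Fintype.card A ^ (K + 1) * τ) := by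
  have hp0 : (1 : ℝ) ≤ p := by exact_mod_cast hp
  obtain ⟨σ, hσ⟩ : ∃ σ : ℝ, σ ^ 2 = 1 / (16 * p) := ⟨_, Real.sq_sqrt (by positivity)⟩
  have hQ := (GE_QE_le (K := K) H hO hp hσ hs).trans hτ
  have hQ0 : 0 ≤ GE (QE (K := K) H σ p) := integral_nonneg (QE_nonneg H σ p)
  have hN1 : (1 : ℝ) ≤ Fintype.card A := by exact_mod_cast Fintype.card_pos
  have h0 : 0 < h := by
    have a := hH (Classical.arbitrary A) (Classical.arbitrary A) ▸ abs_nonneg _
    rcases a.eq_or_lt with rfl | a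
    · simp at hN
    · exact a
  have h1 : h ≤ 1 := by nlinarith [sq_nonneg h]
  have hpr : ∀ b, IsProb (Dx (K := K) H σ p (sg b)) := fun b => Dx_isProb H σ p hp hK (abs_sg b).le
  refine ⟨fun b => Dx H σ p (sg b), hpr, fun b => ?_, fun t ht b => ?_⟩
  · have a := Dx_approx H σ p hp (abs_sg b).le (abs_forr_le (K := K) H hO)
    rw [GE_forr H σ hH hN, hσ, one_div_pow] at a
    beta_reduce
    rw [(hpr b).smul]
    have := abs_le.1 a
    cases b <;> simp only [sg_true, sg_false] at this ⊢ <;> linarith [this.1, this.2]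
  · have hτ0 : 0 ≤ τ := hQ0.trans hQ
    have hF : ∀ z, |ind (t.eval z)| ≤ 1 := fun z => abs_ind_le _
    cases b
    · exact le_add_of_nonneg_right (by positivity)
    have hc : ∑ T, |cp (K := K) H T| ≤ (Fintype.card A : ℝ) ^ (K + 1) := by
      rw [sum_cp H (fun _ c => |c|) (by simp)]
      simp only [abs_hw H hH]
      simpa using mul_le_of_le_one_right (by positivity) (pow_le_one₀ h0.le h1)
    have hder : ∀ s ∈ Set.Icc (-1 : ℝ) 1,
        ‖(σ ^ 2) ^ K * GE (LamP H σ (cp H) (fun z => ind (t.eval z)) s)‖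
          ≤ 8 * (h ^ K * B ^ (K + 1)) + Fintype.card A ^ (K + 1) * τ := by
      intro s hs
      have a := abs_GE_LamP_le H σ p hp hK (abs_le.2 hs) (cp H) hF (by positivity)
        (beta_le H hH h0 hP hd hNP hB0 hB t ht)
      have a2 : (σ ^ 2) ^ K ≤ 1 := pow_le_one₀ (sq_nonneg _) (by
        rw [hσ, div_le_one (by positivity)]; linarith)
      rw [Real.norm_eq_abs, abs_mul, abs_of_nonneg (by positivity)]
      refine (mul_le_of_le_one_left (abs_nonneg _) a2).trans (a.trans ?_)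
      gcongr
    have mvt := (convex_Icc (-1 : ℝ) 1).norm_image_sub_le_of_norm_hasDerivWithin_le
      (fun s _ => (hasDerivAt_LamP H σ (fun z => ind (t.eval z)) s).hasDerivWithinAt) hder
      (x := 1) (y := -1) (by simp) (by simp)
    have a1 := abs_le.1 (Dx_approx H σ p hp (t := 1) (by simp) hF)
    have a2 := abs_le.1 (Dx_approx H σ p hp (t := -1) (by simp) hF)
    have a3 : τ ≤ Fintype.card A ^ (K + 1) * τ := le_mul_of_one_le_left hτ0 (one_le_pow₀ hN1)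
    rw [Real.norm_eq_abs, show ‖(-1 - 1 : ℝ)‖ = 2 by norm_num] at mvt
    have := (abs_le.1 mvt).2
    simp only [sg_true, sg_false]
    linarith [a1.1, a2.2]

end Crest.Agent.QQ
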