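import Crest.Agent.QQ.Lower

/-! The hybrid argument. -/

set_option autoImplicit false
set_option linter.unusedSectionVars false
open Crest.MathPhysics.Query

namespace Crest.Agent.QQ

variable {Y V Tab : Type} [Fintype Y] [DecidableEq Y] [Nonempty Y] {m B s : ℕ}

/-- indices inside a row -/
abbrev Row (Y V : Type) (B s : ℕ) := Y ⊕ (Fin B × Fin s × V)

/-- all indices -/
abbrev Ix (Y V Tab : Type) (m B s : ℕ) := (Fin m × Row Y V B s) ⊕ ((Fin B → Bool) × Tab)

/-- a row from its parts -/
def row (y : Y → Bool) (z : Fin B → Fin s → V → Bool) : Row Y V B s → Bool :=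
  Sum.elim y fun j => z j.1 j.2.1 j.2.2

/-- an input from its parts -/
def mk (W : Fin m → Row Y V B s → Bool) (tab : (Fin B → Bool) → Tab → Bool) :
    Ix Y V Tab m B s → Bool := Sum.elim (fun j => W j.1 j.2) fun j => tab j.1 j.2

/-- law of the Forrelation part of a row with address `a` -/
def ZD (D : Bool → Ex (V → Bool)) (s : ℕ) (a : Fin B → Bool) : Ex (Fin B → Fin s → V → Bool) :=
  piE B fun b => piE s fun _ => D (a b)

variable {D : Bool → Ex (V → Bool)}

lemma ZD_isProb (hD : ∀ b, IsProb (D b)) (a : Fin B → Bool) : IsProb (ZD D s a) :=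
  piE_isProb _ fun _ => piE_isProb _ fun _ => hD _

/-- law of a plain row -/
noncomputable def RD (Y : Type) [Fintype Y] (D : Bool → Ex (V → Bool)) (B s : ℕ) :
    Ex (Y × (Fin B → Fin s → V → Bool)) :=
  fun g => ZD D s (fun _ => false) fun z => unif Y fun p => g (p, z)

lemma RD_isProb (hD : ∀ b, IsProb (D b)) : IsProb (RD Y D B s) :=
  (ZD_isProb hD _).bind fun z => (unif_isProb Y).map fun p => (p, z)

/-- a plain row -/
def prow (ω : Y × (Fin B → Fin s → V → Bool)) : Row Y V B s → Bool :=
  row (fun p => decide (p ≠ ω.1)) ω.2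

lemma row_fool (hD : ∀ b, IsProb (D b)) {d : ℕ} {η : ℝ}
    (hf : ∀ t : Tr V, t.depth ≤ d → ∀ b,
      D b (fun z => ind (t.eval z)) ≤ D false (fun z => ind (t.eval z)) + η)
    (T : Tr (Row Y V B s)) (hT : T.depth ≤ d) (a : Fin B → Bool) :
    ZD D s a (fun z => ind (T.eval (row (fun _ => true) z)))
      ≤ RD Y D B s (fun ω => ind (T.eval (prow ω))) + (B * (s * η) + d / Fintype.card Y) := by
  have h1 : ZD D s a (fun z => ind (T.eval (row (fun _ => true) z)))
      ≤ ZD D s (fun _ => false) (fun z => ind (T.eval (row (fun _ => true) z))) + B * (s * η) := by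
    refine piE_hybrid B (fun _ => piE_isProb _ fun _ => hD _) (fun _ => piE_isProb _ fun _ => hD _)
      _ fun b z => piE_hybrid s (fun _ => hD _) (fun _ => hD _) _ fun i u => ?_
    obtain ⟨T', h1, h2⟩ := exists_restr (ρ := V) (Sum.elim (fun _ => none) fun j =>
      if j.1 = b ∧ j.2.1 = i then some j.2.2 else none)
      (row (fun _ => true) (Function.update z b u)) T
    have : ∀ w, T.eval (row (fun _ => true) (Function.update z b (Function.update u i w)))
        = T'.eval w := fun w => by
      rw [h2]; congr 1; funext j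
      rcases j with p | ⟨b', i', v⟩
      · rfl
      · by_cases c1 : b' = b
        · subst c1
          by_cases c2 : i' = i
          · subst c2; simp [row]
          · simp [row, c2]
        · simp [row, c1]
    simp only [this]
    exact hf T' (h1.trans hT) _
  have hY : (0 : ℝ) < Fintype.card Y := by exact_mod_cast Fintype.card_pos
  have h2 : ∀ z, ind (T.eval (row (fun _ => true) z))
      ≤ unif Y (fun p => ind (T.eval (prow (p, z)))) + (fun _ => (d / Fintype.card Y : ℝ)) z := by
    intro z
    let c : Row Y V B s → Option Y := Sum.elim some fun _ => none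
    have a1 : (∑ p, (cnt (fun i => decide (c i = some p)) (row (fun _ => true) z) T : ℝ)) ≤ d := by
      exact_mod_cast (sum_cnt_le c _ T).trans hT
    refine le_trans ((unif_isProb Y).const_le (g := fun p => ind (T.eval (prow (p, z)))
      + cnt (fun i => decide (c i = some p)) (row (fun _ => true) z) T) fun p => ?_) ?_
    · rcases Nat.eq_zero_or_pos (cnt (fun i => decide (c i = some p)) (row (fun _ => true) z) T)
        with h | h
      · rw [eval_eq_of_cnt _ _ (prow (p, z)) _ T h, h]
        · simp
        · rintro (p' | j) hi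
          · simpa [prow, row, c] using hi
          · rfl
      · have : (1 : ℝ) ≤ cnt (fun i => decide (c i = some p)) (row (fun _ => true) z) T := by
          exact_mod_cast h
        linarith [ind_le_one (T.eval (row (fun _ => true) z)), ind_nonneg (T.eval (prow (p, z)))]
    · rw [(unif_isProb Y).add]
      gcongr
      rw [unif, ← Finset.mul_sum, inv_mul_eq_div]
      exact div_le_div_of_nonneg_right a1 hY.le
  have h3 := (ZD_isProb (s := s) hD fun _ => false).mono h2
  rw [(ZD_isProb hD _).add, (ZD_isProb hD _).const] at h3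
  unfold RD
  linarith

theorem lower [Nonempty (Fin m)] (hD : ∀ b, IsProb (D b)) {d : ℕ} {η : ℝ}
    (hf : ∀ t : Tr V, t.depth ≤ d → ∀ b,
      D b (fun z => ind (t.eval z)) ≤ D false (fun z => ind (t.eval z)) + η)
    (f : (Ix Y V Tab m B s → Bool) → Bool)
    (prom : (Fin B → Bool) → (Fin B → Fin s → V → Bool) → Bool)
    (hno : ∀ W tab, (∀ r, ∃ p, W r (.inl p) = false) → f (mk W tab) = false)
    (hyes : ∀ W r a z, W r = row (fun _ => true) z → (∀ r' ≠ r, ∃ p, W r' (.inl p) = false) →
      prom a z = true → ∃ cell, ∀ tab, tab a = cell → f (mk W tab) = true)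
    (hprom : ∀ a, ZD D s a (fun z => ind (!prom a z)) ≤ 1 / 8)
    {n q : ℕ} (e : Ix Y V Tab m B s ≃ Fin n) (hR : RandomizedComputes (fun x => f (x ∘ e)) q) :
    5 / 24 ≤ B * (s * η) + d / Fintype.card Y + q / 2 ^ B + q / ((d + 1) * m) := by
  have hcell : ∀ (W : Fin m → Row Y V B s → Bool) r a z, ∃ cell : Tab → Bool,
      (∀ r' ≠ r, ∃ p, W r' (.inl p) = false) → prom a z = true →
      f (mk (Function.update W r (row (fun _ => true) z))
        (Function.update (fun _ _ => false) a cell)) = true := by
    intro W r a z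
    by_cases c : (∀ r' ≠ r, ∃ p, W r' (.inl p) = false) ∧ prom a z = true
    · obtain ⟨cell, h⟩ := hyes (Function.update W r (row (fun _ => true) z)) r a z (by simp)
        (fun r' hr => by simpa [hr] using c.1 r' hr) c.2
      exact ⟨cell, fun _ _ => h _ (by simp)⟩
    · exact ⟨fun _ => false, fun h1 h2 => absurd ⟨h1, h2⟩ c⟩
  choose cell hcell using hcell
  have hΩ : IsProb (piE m fun _ => RD Y D B s) := piE_isProb _ fun _ => RD_isProb hD
  have hP := unif_isProb (Fin m × (Fin B → Bool))
  let X₀ : (Fin m → Y × (Fin B → Fin s → V → Bool)) → Ix Y V Tab m B s → Bool := fun ω =>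
    mk (fun r => prow (ω r)) fun _ _ => false
  let X₁ : Fin m × (Fin B → Bool) → (Fin m → Y × (Fin B → Fin s → V → Bool)) →
      (Fin B → Fin s → V → Bool) → Ix Y V Tab m B s → Bool := fun y ω z =>
    mk (Function.update (fun r => prow (ω r)) y.1 (row (fun _ => true) z))
      (Function.update (fun _ _ => false) y.2 (cell (fun r => prow (ω r)) y.1 y.2 z))
  have hz : ∀ ω : Y × (Fin B → Fin s → V → Bool), ∃ p, prow ω (.inl p) = false := fun ω =>
    ⟨ω.1, by simp [prow, row]⟩
  refine yao e f (hΩ.map X₀) (hP.bind fun y => hΩ.bind fun ω => (ZD_isProb hD y.2).map (X₁ y ω))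
    (fun t ht => ?_) (hΩ.le_const fun ω => by
      simp only [X₀]; rw [hno _ _ fun r => hz _]; simp)
    (hP.le_const fun y => hΩ.le_const fun ω => ((ZD_isProb hD y.2).mono fun z => ?_).trans
      (hprom y.2)) hR
  swap
  · cases c : prom y.2 z
    · simpa using ind_le_one _
    · simp only [X₁]; rw [hcell _ _ _ _ (fun r' _ => hz _) c]
  let c₁ : Ix Y V Tab m B s → Option (Fin m) := Sum.elim (fun j => some j.1) fun _ => none
  let c₂ : Ix Y V Tab m B s → Option (Fin B → Bool) := Sum.elim (fun _ => none) fun j => some j.1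
  let G : Fin m × (Fin B → Bool) → (Ix Y V Tab m B s → Bool) → ℝ := fun y x =>
    ind (t.eval x) + (cnt (fun i => decide (c₂ i = some y.2)) x t
      + (d + 1 : ℝ)⁻¹ * cnt (fun i => decide (c₁ i = some y.1)) x t)
  set κ : ℝ := B * (s * η) + d / Fintype.card Y
  have h1 : ∀ y ω, ZD D s y.2 (fun z => ind (t.eval (X₁ y ω z)))
      ≤ RD Y D B s (fun w => G y (X₀ (Function.update ω y.1 w))) + (fun _ => κ) ω := by
    rintro ⟨r, a⟩ ω
    let pr : Ix Y V Tab m B s → Option (Row Y V B s) :=
      Sum.elim (fun j => if j.1 = r then some j.2 else none) fun _ => none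
    obtain ⟨T, a1, a2, a3⟩ := exists_trunc pr (fun i => decide (c₂ i = some a)) (X₀ ω) t d
    refine le_trans ((ZD_isProb hD a).mono fun z => ?_) ((row_fool hD hf T a1 a).trans
      (add_le_add_left ((RD_isProb hD).mono fun w => ?_) _))
    · cases c : t.eval (X₁ (r, a) ω z)
      · exact ind_nonneg _
      · rw [a2 _ _ _ c]
        rintro (⟨r', j⟩ | ⟨a', j⟩) hi
        · by_cases c : r' = r
          · subst c; simp [X₁, mk, pr]
          · simp [X₁, X₀, mk, pr, c]
        · have : a' ≠ a := by simpa [c₂] using hi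
          simp [X₁, X₀, mk, pr, this]
    · have e1 : (fun i => (pr i).elim (X₀ ω i) (prow w)) = X₀ (Function.update ω r w) := by
        funext i
        rcases i with ⟨r', j⟩ | ⟨a', j⟩
        · by_cases c : r' = r
          · subst c; simp [X₀, mk, pr]
          · simp [X₀, mk, pr, c]
        · rfl
      have e2 : (fun i => (pr i).isSome) = fun i => decide (c₁ i = some r) := by
        funext i
        rcases i with ⟨r', j⟩ | ⟨a', j⟩
        · by_cases c : r' = r <;> simp [c₁, pr, c]
        · rfl
      have := a3 (prow w)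
      rw [e1, e2] at this
      have i0 := ind_nonneg (t.eval (X₀ (Function.update ω r w)))
      cases c : T.eval (prow w)
      · simp only [G, ind_false]; positivity
      · simp only [G, ind_true]
        rcases this c with h | h | h
        · rw [h]; exact le_add_of_nonneg_right (by positivity)
        · exact le_add_of_nonneg_of_le i0 (le_add_of_le_of_nonneg (by exact_mod_cast h)
            (by positivity))
        · refine le_add_of_nonneg_of_le i0 (le_add_of_nonneg_of_le (by positivity) ?_)
          rw [inv_mul_eq_div, one_le_div (by positivity)]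
          exact_mod_cast h
  have h2 : ∀ y, piE m (fun _ => RD Y D B s) (fun ω => ZD D s y.2 fun z => ind (t.eval (X₁ y ω z)))
      ≤ piE m (fun _ => RD Y D B s) (fun ω => G y (X₀ ω)) + (fun _ => κ) y := fun y => by
    refine (hΩ.mono (h1 y)).trans ?_
    rw [hΩ.add, hΩ.const, piE_update m (fun _ => RD_isProb hD) y.1 fun ω => G y (X₀ ω)]
  have hm : (0 : ℝ) < m := by
    have := Fintype.card_pos (α := Fin m); simpa using this
  have h3 : ∀ x, unif (Fin m × (Fin B → Bool)) (fun y => G y x)
      ≤ ind (t.eval x) + (fun _ => (q / 2 ^ B + q / ((d + 1) * m) : ℝ)) x := fun x => by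
    have a1 : (∑ r, (cnt (fun i => decide (c₁ i = some r)) x t : ℝ)) ≤ q := by
      exact_mod_cast (sum_cnt_le c₁ x t).trans ht
    have a2 : (∑ a, (cnt (fun i => decide (c₂ i = some a)) x t : ℝ)) ≤ q := by
      exact_mod_cast (sum_cnt_le c₂ x t).trans ht
    simp only [G]
    have a3 : ∀ (u : (Fin B → Bool) → ℝ) (v : Fin m → ℝ) (c : ℝ),
        ∑ y : Fin m × (Fin B → Bool), (u y.2 + c * v y.1)
          = m * ∑ a, u a + 2 ^ B * (c * ∑ r, v r) := fun u v c => by
      simp [Fintype.sum_prod_type, Finset.sum_add_distrib, ← Finset.mul_sum, mul_left_comm c]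
    rw [hP.add, hP.const, unif, ← Finset.mul_sum,
      a3 (fun a => cnt (fun i => decide (c₂ i = some a)) x t)
        (fun r => cnt (fun i => decide (c₁ i = some r)) x t)]
    simp only [Finset.card_univ, Fintype.card_prod, Fintype.card_fin, Fintype.card_pi,
      Fintype.card_bool, Finset.prod_const]
    push_cast
    calc _ ≤ ind (t.eval x) + (m * 2 ^ B : ℝ)⁻¹ * (m * q + 2 ^ B * ((d + 1 : ℝ)⁻¹ * q)) := by gcongr
      _ = _ := by field_simp
  refine (hP.mono h2).trans ?_
  rw [hP.add, hP.const, hP.swap hΩ]
  have := hΩ.mono fun ω => h3 (X₀ ω)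
  rw [hΩ.add, hΩ.const] at this
  linarith

end Crest.Agent.QQ
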