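import Crest.Agent.QQ.Upper

/-! The elimination algorithm: all rounds and the final verification. -/

set_option autoImplicit false
set_option linter.unusedSectionVars false

namespace Crest.Agent.QQ

variable {ι R Addr Chk : Type} [Fintype R] [Nonempty R] [DecidableEq R] [Fintype Addr]
  [DecidableEq Addr] [Fintype Chk] [Nonempty Chk]
  {kill : Addr → R → (ι → Bool) → Bool} {dec : R → (ι → Bool) → Ex Addr} {q t n : ℕ}

lemma rounds (hk : ∀ a r, Det q (kill a r)) (hd : ∀ r, QD q (dec r))
    (ht : 2 * Fintype.card R ≤ 4 ^ t) (hn : (9 / 10 : ℝ) ^ n ≤ 1 / 81) (L : ℕ) (a₀ : Addr)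
    {ν : ℕ} (hν : Fintype.card R ≤ 2 ^ ν) : ∀ i ≤ ν,
    ∃ E : (ι → Bool) → Ex (Fin i → Addr),
      QD (i * (L * (kap t n * (ν * q)) + kap t n * (q + L * q))) E ∧
      ∀ x r a, Good kill dec x r a →
        E x (fun l => if (Cs kill l x).card ≤ 2 ^ (ν - i) + 2 then 0 else 1)
          ≤ i * (Fintype.card R * Fintype.card Addr * (3 / 4) ^ L + (9 / 10) ^ n)
  | 0, _ => ⟨_, by simpa using QD.pure finZeroElim, fun x r a _ => by
      beta_reduce
      rw [if_pos ((Finset.card_le_univ _).trans (by simp; omega))]; simp⟩
  | i + 1, hi => by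
      obtain ⟨E, hE, pE⟩ := rounds hk hd ht hn L a₀ hν i (by omega)
      choose F hF pF using fun l : Fin i → Addr => round hk hd ht hn L a₀ l
      have hF' : ∀ l, QD (L * (kap t n * (ν * q)) + kap t n * (q + L * q)) (F l) := fun l =>
        (hF l).mono (by gcongr; omega)
      refine ⟨_, (hE.bind fun l => (hF' l).map fun a => (Fin.cons a l : Fin (i + 1) → Addr)).mono
        (le_of_eq (by ring)), fun x r a hG => ?_⟩
      set ε : ℝ := Fintype.card R * Fintype.card Addr * (3 / 4) ^ L + (9 / 10) ^ n
      have hε : 0 ≤ ε := by positivity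
      refine ((hE.isProb x).mono (g' := fun l =>
        (if (Cs kill l x).card ≤ 2 ^ (ν - i) + 2 then 0 else 1) + (fun _ => ε) l) fun l => ?_).trans ?_
      · split_ifs with c
        · rw [zero_add]
          refine le_trans (((hF l).isProb x).mono fun a' => ?_) (pF l x r a hG)
          beta_reduce
          split_ifs with c1 c2 c2 <;> try norm_num
          apply c1
          rw [show ν - i = ν - (i + 1) + 1 by omega, pow_succ] at c
          omega
        · refine (((hF l).isProb x).le_const (c := 1) fun a' => ?_).trans (by linarith)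
          beta_reduce
          split_ifs <;> norm_num
      · rw [(hE.isProb x).add, (hE.isProb x).const]
        push_cast
        linarith [pE x r a hG]

open Classical in
theorem upper (hk : ∀ a r, Det q (kill a r)) (hd : ∀ r, QD q (dec r))
    {chk : R → Addr → Chk → (ι → Bool) → Bool} (hc : ∀ r a c, Det q (chk r a c))
    (hs : ∀ x r a, (∀ c, chk r a c x = true) → Good kill dec x r a)
    (ht : 2 * Fintype.card R ≤ 4 ^ t) (ht' : Fintype.card Chk ≤ 4 ^ t)
    (hn : (9 / 10 : ℝ) ^ n ≤ 1 / 81) (L : ℕ) (a₀ : Addr) {ν : ℕ} (hν : Fintype.card R ≤ 2 ^ ν)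
    (hε : ν * (Fintype.card R * Fintype.card Addr * (3 / 4 : ℝ) ^ L + (9 / 10) ^ n) ≤ 1 / 2) :
    ∃ E : (ι → Bool) → Ex Bool,
      QD (27 * (ν * (L * (kap t n * (ν * q)) + kap t n * (q + L * q))
        + (kap t n * (ν * q) + (q + kap t n * q)))) E ∧
      ∀ x, 2 / 3 ≤ E x (fun b => if b = decide (∃ r a, ∀ c, chk r a c x = true) then 1 else 0) := by
  obtain ⟨E, hE, pE⟩ := rounds hk hd ht hn L a₀ hν ν le_rfl
  choose S hS pS using fun l : Fin ν → Addr => sampler hk ht hn l
  choose V hV _ V0 Vn using fun r a => (QD.unif Chk).fsearch (fun c => (hc r a c).map not) t n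
  let G : R → Addr → (ι → Bool) → Ex (Option Unit) := fun r a x g =>
    V r a x fun o => g (o.elim (some ()) fun _ => none)
  have hG : ∀ r a, QD (kap t n * q) (G r a) := fun r a => by
    simpa using (hV r a).map fun o => o.elim (some ()) fun _ => none
  have Gn : ∀ r a x, G r a x nn = V r a x (sm fun _ => 1) := fun r a x => by
    simp only [G]; congr 1; funext o; cases o <;> simp
  let H : Option R → (ι → Bool) → Ex (Option Unit) := fun o x g =>
    o.elim (g none) fun r => dec r x fun a => G r a x g
  have hH : ∀ o, QD (q + kap t n * q) (H o) := by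
    rintro (_ | r)
    · exact (QD.pure none).mono (Nat.zero_le _)
    · exact (hd r).bind (hG r)
  have hA := hE.bind fun l => (hS l).bind hH
  obtain ⟨E', h1, -, h2⟩ := QD.fold (E := fun x g => E x fun y => S y x fun y => H y x g) 27
    (fun _ _ => hA) fun _ _ x =>
    ⟨1, zero_le_one, fun _ => (one_mul _).symm⟩
  refine ⟨_, h1.map Option.isSome, fun x => ?_⟩
  have h3 := h2 x
  simp only [Finset.prod_const, Finset.card_range] at h3
  by_cases hx : ∃ r a, ∀ c, chk r a c x = true
  · rw [show (fun o : Option Unit => if o.isSome = decide (∃ r a, ∀ c, chk r a c x = true)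
        then (1 : ℝ) else 0) = sm fun _ => 1 by funext o; cases o <;> simp [hx]]
    obtain ⟨r, a, hx⟩ := hx
    have g := hs x r a hx
    have a1 : H (some r) x nn ≤ 1 / 2 := by
      refine (((hd r).isProb x).mono (g' := fun a' => (fun _ => 1) a' - if a' = a then 1 else 0)
        fun a' => ?_).trans ?_
      · split_ifs with c
        · rw [c, Gn, V0 r a x _ (by simp [hx])]; simp
        · simpa using ((hG r a').isProb x).nn_le
      · rw [((hd r).isProb x).sub, ((hd r).isProb x).const]; linarith [g.2.2]
    have a2 : ∀ l, S l x (fun o => H o x nn) ≤ (fun _ => 11 / 12) l + 1 / 12 *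
        (if (Cs kill l x).card ≤ 2 ^ (ν - ν) + 2 then 0 else 1) := fun l => by
      split_ifs with c
      · have b1 := pS l x ⟨r, g.mem l⟩ {r} (by simpa using g.mem l)
        have b2 : ((Cs kill l x).card : ℝ) ≤ 3 := by exact_mod_cast (by simpa using c)
        have b3 := ((hS l).isProb x).nonneg (g := sm fun r' => if r' ∈ ({r} : Finset R) then 1
          else 0) (by rintro (_ | r') <;> simp only [sm_some, sm_none] <;> positivity)
        refine (((hS l).isProb x).mono (g' := fun o => (fun _ => 1) o - 1 / 2 *
          sm (fun r' => if r' ∈ ({r} : Finset R) then 1 else 0) o) ?_).trans ?_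
        · rintro (_ | r')
          · simp [H]
          · by_cases c : r' = r
            · subst c; simp only [sm_some, Finset.mem_singleton, if_true]; linarith
            · simpa [c] using ((hH (some r')).isProb x).nn_le
        · rw [((hS l).isProb x).sub, ((hS l).isProb x).const, ((hS l).isProb x).smul]
          simp only [Finset.card_singleton, Nat.cast_one] at b1
          nlinarith
      · exact (((hS l).isProb x).le_const fun o => ((hH o).isProb x).nn_le).trans (by norm_num)
    have a3 := (hE.isProb x).mono a2
    rw [(hE.isProb x).add, (hE.isProb x).const, (hE.isProb x).smul] at a3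
    have a4 := (pE x r a g).trans hε
    have a5 := pow_le_pow_left₀ (hA.isProb x).nn_nonneg (b := 23 / 24) (by linarith) 27
    have := (h1.isProb x).nn_eq
    have : (23 / 24 : ℝ) ^ 27 ≤ 1 / 3 := by norm_num
    linarith
  · rw [show (fun o : Option Unit => if o.isSome = decide (∃ r a, ∀ c, chk r a c x = true)
        then (1 : ℝ) else 0) = nn by funext o; cases o <;> simp [hx]]
    push Not at hx
    have hC : (0 : ℝ) < Fintype.card Chk := by exact_mod_cast Fintype.card_pos
    have a1 : ∀ r a, 80 / 81 ≤ G r a x nn := fun r a => by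
      obtain ⟨c, hc'⟩ := hx r a
      have b1 := le_unif (g := fun c => if (!chk r a c x) = true then 1 else 0)
        (fun _ => by positivity) c
      have b2 := Vn r a x (by
        refine le_trans ?_ (mul_le_mul_of_nonneg_left b1 (by positivity))
        rw [if_pos (by simpa using hc'), mul_one, ← div_eq_mul_inv, le_div_iff₀ hC, one_mul]
        exact_mod_cast ht')
      have := ((hV r a).isProb x).nn_eq
      rw [Gn]; linarith
    have a2 : 80 / 81 ≤ E x fun l => S l x fun o => H o x nn :=
      (hE.isProb x).const_le fun l => ((hS l).isProb x).const_le (by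
        rintro (_ | r)
        · norm_num [H]
        · exact ((hd r).isProb x).const_le (a1 r))
    have a5 := pow_le_pow_left₀ (by norm_num) a2 27
    have : (2 / 3 : ℝ) ≤ (80 / 81 : ℝ) ^ 27 := by norm_num
    linarith

end Crest.Agent.QQ
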