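import Crest.Agent.QQ.Fft
import Crest.Agent.QQ.Lower2
import Crest.Agent.QQ.Upper2

/-! The separating function. -/

set_option autoImplicit false
set_option linter.unusedSectionVars false
open Crest.MathPhysics.Query

namespace Crest.Agent.QQ

lemma union_cheb {Y : Type} {B s : ℕ} {E : Fin B → Fin s → Ex Y} (hE : ∀ b i, IsProb (E b i))
    (f : Fin B → Y → ℝ) (hf : ∀ b y, |f b y| ≤ 1) {t θ : ℝ} (hθ : 0 < θ)
    (ht : ∀ b, t + θ ≤ ∑ i, E b i (f b)) {g : (Fin B → Fin s → Y) → ℝ} (g1 : ∀ v, g v ≤ 1)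
    (g0 : ∀ v, (∀ b, t < ∑ i, f b (v b i)) → g v ≤ 0) :
    piE B (fun b => piE s (E b)) g ≤ B * (s * 4 / θ ^ 2) := by
  have h1 : ∀ b, IsProb (piE s (E b)) := fun b => piE_isProb _ (hE b)
  have h2 := piE_isProb B h1
  refine (h2.mono (g' := fun v => ∑ b, if ∑ i, f b (v b i) ≤ t then 1 else 0) fun v => ?_).trans ?_
  · have hp : ∀ b ∈ Finset.univ, (0 : ℝ) ≤ if ∑ i, f b (v b i) ≤ t then 1 else 0 :=
      fun b _ => by positivity
    by_cases c : ∀ b, t < ∑ i, f b (v b i)
    · exact (g0 v c).trans (Finset.sum_nonneg hp)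
    · push Not at c
      obtain ⟨b, hb⟩ := c
      exact (g1 v).trans (le_trans (by rw [if_pos hb]) (Finset.single_le_sum hp (Finset.mem_univ b)))
  · rw [h2.sum]
    refine (Finset.sum_le_card_nsmul _ _ (s * 4 / θ ^ 2) fun b _ => ?_).trans (by simp)
    rw [piE_coord B h1 b fun u => if ∑ i, f b (u i) ≤ t then 1 else 0]
    exact piE_cheb s (hE b) (fun _ => f b) (fun _ => hf b) hθ (ht b)

variable {ν K m B s W : ℕ}

/-- Forrelation variables -/
abbrev VV (ν K : ℕ) := Fin (K + 1) × (Fin ν → Bool)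
/-- positions in a cell -/
abbrev Tb (ν K m B s W : ℕ) := (Fin m × Fin ν) ⊕ ((Fin B × Fin s × Nd ν K) × Fin W)
/-- input positions -/
abbrev Id (ν K m B s W : ℕ) := Ix (Fin ν → Bool) (VV ν K) (Tb ν K m B s W) m B s
/-- local checks -/
abbrev Ck (ν K m B s : ℕ) := (Fin ν → Bool) ⊕ Fin m ⊕ (Fin B × Fin s × Nd ν K) ⊕ Fin B

/-- the cell `a` points to a zero of row `r` -/
def kil (a : Fin B → Bool) (r : Fin m) (x : Id ν K m B s W → Bool) : Bool :=
  !x (.inl (r, .inl fun l => x (.inr (a, .inl (r, l)))))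

lemma kil_det (a : Fin B → Bool) (r : Fin m) :
    Det (ν + 1) (kil (ν := ν) (K := K) (s := s) (W := W) a r) :=
  (Det.bits fun l => (.inr (a, .inl (r, l)) : Id ν K m B s W)).bind
    fun p => (Det.query (.inl (r, .inl p) : Id ν K m B s W)).map not

variable (num : (Fin W → Bool) → ℝ) (H : (Fin ν → Bool) → (Fin ν → Bool) → ℝ) (c θ : ℝ)

/-- a number stored in a cell -/
def val (a : Fin B → Bool) (n : Fin B × Fin s × Nd ν K) (x : Id ν K m B s W → Bool) : ℝ :=
  num fun w => x (.inr (a, .inr (n, w)))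

lemma val_det (a : Fin B → Bool) (n : Fin B × Fin s × Nd ν K) :
    Det W (val (m := m) num a n) := (Det.bits _).map num

/-- the local checks -/
noncomputable def chk (r : Fin m) (a : Fin B → Bool) :
    Ck ν K m B s → (Id ν K m B s W → Bool) → Bool
  | .inl p, x => x (.inl (r, .inl p))
  | .inr (.inl r'), x => decide (r' = r) || kil a r' x
  | .inr (.inr (.inl (b, i, n))), x => decide (val num a (b, i, n) x = comb n
      (x (.inl (r, .inr (b, i, n.1, n.2.2)))) (val num a (b, i, pre false n) x)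
      (val num a (b, i, pre true n) x))
  | .inr (.inr (.inr b)), x => decide (θ ≤ ∑ i,
      sg (a b) * (c * val num a (b, i, Fin.last K, Fin.last ν, fun _ => false) x))

lemma chk_det {q : ℕ} (h1 : ν + 1 ≤ q) (h2 : 3 * W + 1 ≤ q) (h3 : s * W ≤ q) (r : Fin m)
    (a : Fin B → Bool) : ∀ k : Ck ν K m B s, Det q (chk num c θ r a k)
  | .inl p => (Det.query _).mono (by omega)
  | .inr (.inl r') => ((kil_det a r').map fun b => decide (r' = r) || b).mono h1
  | .inr (.inr (.inl (b, i, n))) => ((((val_det num a (b, i, n)).pair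
      (Det.query (.inl (r, .inr (b, i, n.1, n.2.2))))).pair
      ((val_det num a (b, i, pre false n)).pair (val_det num a (b, i, pre true n)))).map
        fun y => decide (y.1.1 = comb n y.1.2 y.2.1 y.2.2)).mono (by omega)
  | .inr (.inr (.inr b)) => ((Det.pi s fun i => val_det num a
      (b, i, Fin.last K, Fin.last ν, fun _ => false)).map
        fun y => decide (θ ≤ ∑ i, sg (a b) * (c * y i))).mono h3

/-- address decoding -/
noncomputable def dcd (r : Fin m) (x : Id ν K m B s W → Bool) : Ex (Fin B → Bool) := fun g =>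
  piE B (fun b => piE s fun i (g : Bool → ℝ) =>
    (1 + forr H fun v => x (.inl (r, .inr (b, i, v)))) / 2 * g true
      + (1 - forr H fun v => x (.inl (r, .inr (b, i, v)))) / 2 * g false)
    fun v => g fun b => decide (0 < ∑ i, sg (v b i))

variable {H}

lemma dcd_qd (hO : ∀ a b, ∑ c, H a c * H b c = if a = b then 1 else 0) (r : Fin m) :
    QD (B * (s * (K + 1))) (dcd (ν := ν) (K := K) (B := B) (s := s) (W := W) H r) :=
  (QD.pi B fun b => QD.pi s fun i => (forr_test H hO).comap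
    fun v => (.inl (r, .inr (b, i, v)) : Id ν K m B s W)).map
      fun v b => decide (0 < ∑ i, sg (v b i))

variable {c θ}

lemma chk_good (hO : ∀ a b, ∑ c, H a c * H b c = if a = b then 1 else 0)
    (hc : ∀ z : VV ν K → Bool, forr H z = c * tr z (Fin.last K, Fin.last ν, fun _ => false))
    (hθ : 0 < θ) (hs : 8 * B * s ≤ θ ^ 2) (x : Id ν K m B s W → Bool) (r : Fin m)
    (a : Fin B → Bool) (h : ∀ k, chk num c θ r a k x = true) : Good kil (dcd H) x r a := by
  refine ⟨fun a' => by simpa [kil, chk] using h (.inl _), fun r' hr => by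
    simpa [chk, hr] using h (.inr (.inl r')), ?_⟩
  have h1 : ∀ b i n, val num a (b, i, n) x = tr (fun v => x (.inl (r, .inr (b, i, v)))) n :=
    fun b i => tr_unique _ _ fun n => by simpa [chk] using h (.inr (.inr (.inl (b, i, n))))
  have hp := (dcd_qd (B := B) (s := s) (W := W) (K := K) hO r).isProb x
  have h2 : dcd H r x (fun a' => (fun _ => 1) a' - if a' = a then 1 else 0)
      ≤ B * (s * 4 / θ ^ 2) := by
    refine union_cheb (t := 0) (fun b i => (forr_test H hO).isProb _)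
      (fun b y => -(sg (a b) * sg y)) (fun b y => by simp [abs_sg]) hθ (fun b => ?_)
      (fun v => by beta_reduce; split_ifs <;> norm_num) fun v hv => ?_
    · have := h (.inr (.inr (.inr b)))
      simp only [chk, h1, ← hc, decide_eq_true_eq] at this
      rw [zero_add]
      refine this.trans (le_of_eq (Finset.sum_congr rfl fun i _ => ?_))
      simp only [sg_true, sg_false]; ring
    · beta_reduce
      rw [if_pos, sub_self]
      funext b
      have := hv b
      rw [Finset.sum_neg_distrib, ← Finset.mul_sum] at this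
      cases hb : a b <;> simp [hb] at this ⊢ <;> linarith
  rw [hp.sub, hp.const] at h2
  have : B * (s * 4 / θ ^ 2 : ℝ) ≤ 1 / 2 := by
    rw [← mul_div_assoc, div_le_div_iff₀ (by positivity) (by norm_num)]; linarith
  linarith

lemma chk_complete (hnum : ∀ (z : VV ν K → Bool) n, ∃ w, num w = tr z n)
    (hc : ∀ z : VV ν K → Bool, forr H z = c * tr z (Fin.last K, Fin.last ν, fun _ => false))
    (X : Fin m → Row (Fin ν → Bool) (VV ν K) B s → Bool) (r : Fin m) (a : Fin B → Bool)
    (z : Fin B → Fin s → VV ν K → Bool) (h1 : X r = row (fun _ => true) z)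
    (h2 : ∀ r' ≠ r, ∃ p, X r' (.inl p) = false) (h3 : ∀ b, θ ≤ ∑ i, sg (a b) * forr H (z b i)) :
    ∃ cell : Tb ν K m B s W → Bool, ∀ tab, tab a = cell →
      ∀ k, chk num c θ r a k (mk X tab) = true := by
  choose bits hbits using hnum
  have : ∀ r', ∃ p, r' ≠ r → X r' (.inl p) = false := fun r' => by
    by_cases e : r' = r
    · exact ⟨fun _ => false, fun h => absurd e h⟩
    · exact (h2 r' e).imp fun p hp _ => hp
  choose ptr hptr using this
  refine ⟨Sum.elim (fun j => ptr j.1 j.2) fun j => bits (z j.1.1 j.1.2.1) j.1.2.2 j.2,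
    fun tab ht => ?_⟩
  have hv : ∀ b i n, val num a (b, i, n) (mk X tab) = tr (z b i) n := fun b i n => by
    simp [val, mk, ht, hbits]
  rintro (p | r' | ⟨b, i, n⟩ | b)
  · simp [chk, mk, h1, row]
  · by_cases e : r' = r
    · simp [chk, e]
    · simp [chk, kil, mk, ht, hptr r' e]
  · simp only [chk, hv, decide_eq_true_eq]
    rw [tr_loc]; simp [mk, h1, row]
  · simpa only [chk, hv, ← hc, decide_eq_true_eq] using h3 b

open Classical in
theorem construction {ν K m B s : ℕ} (hm : 0 < m) {h : ℝ} (hh : h ^ 2 * 2 ^ ν = 1)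
    {D : Bool → Ex (VV ν K → Bool)} (hD : ∀ b, IsProb (D b)) {δ η : ℝ} {d : ℕ}
    (hδ : ∀ b, δ ≤ D b fun z => sg b * forr (fun a b => h * Sw a b) z)
    (hf : ∀ t : Tr (VV ν K), t.depth ≤ d → ∀ b,
      D b (fun z => ind (t.eval z)) ≤ D false (fun z => ind (t.eval z)) + η)
    {θ : ℝ} (hθ : 0 < θ) (hθs : 2 * θ ≤ s * δ) (hs : 32 * B * s ≤ θ ^ 2)
    {q t n L : ℕ} (q1 : ν + 1 ≤ q) (q2 : 3 * ((K + 1) * ν + 2) + 1 ≤ q)
    (q3 : s * ((K + 1) * ν + 2) ≤ q) (q4 : B * (s * (K + 1)) ≤ q) (ht : 2 * m ≤ 4 ^ t)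
    (ht' : 2 ^ ν + (m + (B * (s * ((K + 1) * ((ν + 1) * 2 ^ ν))) + B)) ≤ 4 ^ t)
    (hn : (9 / 10 : ℝ) ^ n ≤ 1 / 81) (hν : m ≤ 2 ^ ν)
    (hε : ν * (m * 2 ^ B * (3 / 4 : ℝ) ^ L + (9 / 10) ^ n) ≤ 1 / 2) :
    ∃ (N : ℕ) (F : (Fin N → Bool) → Bool),
      QuantumComputes F (27 * (ν * (L * (kap t n * (ν * q)) + kap t n * (q + L * q))
        + (kap t n * (ν * q) + (q + kap t n * q)))) ∧
      ∀ r, RandomizedComputes F r →
        5 / 24 ≤ B * (s * η) + d / 2 ^ ν + r / 2 ^ B + r / ((d + 1) * m) := by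
  haveI : Nonempty (Fin m) := ⟨⟨0, hm⟩⟩
  obtain ⟨num, hnum⟩ := exists_num ((K + 1) * ν)
  have hO : ∀ a b : Fin ν → Bool, ∑ c, (h * Sw a c) * (h * Sw b c) = if a = b then 1 else 0 := by
    intro a b
    have : ∀ c, (h * Sw a c) * (h * Sw b c) = h ^ 2 * (Sw a c * Sw b c) := fun c => by ring
    simp only [this, ← Finset.mul_sum, Sw_orth]
    split_ifs <;> simp [hh]
  have hBs : (0 : ℝ) ≤ B * s := by positivity
  let e := Fintype.equivFin (Id ν K m B s ((K + 1) * ν + 2))
  let f : (Id ν K m B s ((K + 1) * ν + 2) → Bool) → Bool := fun x =>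
    decide (∃ r a, ∀ k, chk num ((2 ^ ν)⁻¹ * h ^ K) θ r a k x = true)
  refine ⟨_, fun x => f (x ∘ e), ?_, fun r hr => ?_⟩
  · obtain ⟨E, hE, pE⟩ := upper (t := t) (n := n) (fun a r => (kil_det a r).mono q1)
      (fun r => (dcd_qd hO r).mono q4) (chk_det num ((2 ^ ν)⁻¹ * h ^ K) θ q1 q2 q3)
      (chk_good num hO (forr_tr h) hθ (by linarith)) (by simpa using ht) (by simpa using ht') hn L
      (fun _ => false) (ν := ν) (by simpa using hν) (by simpa using hε)
    exact (hE.comap e).computes Fintype.card_pos fun x => by convert pE (x ∘ e)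
  · have := lower hD hf f (fun a z => decide (∀ b, θ < ∑ i, sg (a b) *
      forr (fun a b => h * Sw a b) (z b i))) (fun X tab hX => ?_) (fun X r a z h1 h2 h3 => ?_)
      (fun a => ?_) e hr
    · simpa using this
    · simp only [f, decide_eq_false_iff_not]
      rintro ⟨r, a, hk⟩
      obtain ⟨p, hp⟩ := hX r
      simpa [chk, mk, hp] using hk (.inl p)
    · obtain ⟨cell, hc⟩ := chk_complete num (fun z n => hnum _ (tr_IB z n)) (forr_tr h) X r a z h1
        h2 fun b => (of_decide_eq_true h3 b).le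
      exact ⟨cell, fun tab ht => decide_eq_true ⟨r, a, hc tab ht⟩⟩
    · refine (union_cheb (t := θ) (fun b _ => hD (a b))
        (fun b z => sg (a b) * forr (fun a b => h * Sw a b) z)
        (fun b z => by rw [abs_mul, abs_sg, one_mul]; exact abs_forr_le _ hO z) hθ (fun b => ?_)
        (fun v => ind_le_one _) fun v hv => by rw [decide_eq_true hv]; simp).trans ?_
      · refine le_trans ?_ (Finset.card_nsmul_le_sum _ _ δ fun i _ => hδ (a b))
        simp; linarith
      · rw [← mul_div_assoc, div_le_div_iff₀ (by positivity) (by norm_num)]; linarith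

end Crest.Agent.QQ
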