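import Mathlib

/-! Gaussian expectation of polynomials: Stein identity and rotation invariance. -/

set_option autoImplicit false
set_option linter.unusedSectionVars false
open MeasureTheory ProbabilityTheory MvPolynomial

namespace Crest.Agent.QQ

/-- Gaussian moments -/
noncomputable def mom (n : ℕ) : ℝ := ∫ x, x ^ n ∂gaussianReal 0 1

lemma integrable_pow_gauss (n : ℕ) : Integrable (fun x : ℝ => x ^ n) (gaussianReal 0 1) := by
  have := (memLp_id_gaussianReal' (μ := 0) (v := 1) n (by simp)).integrable_norm_pow'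
  refine this.mono' (by fun_prop) (Filter.Eventually.of_forall fun x => by simp)

lemma mom_eq (n : ℕ) :
    mom n = (√(2 * Real.pi))⁻¹ * ∫ x : ℝ, x ^ n * Real.exp (-(1 / 2) * x ^ 2) := by
  rw [mom, integral_gaussianReal_eq_integral_smul one_ne_zero, ← integral_const_mul]
  congr 1; funext x
  simp only [gaussianPDFReal, NNReal.coe_one, mul_one, sub_zero, smul_eq_mul]
  rw [show -x ^ 2 / 2 = -(1 / 2) * x ^ 2 by ring]; ring

lemma mom_zero : mom 0 = 1 := by simp [mom]

lemma mom_succ (k : ℕ) : mom (k + 1) = k * mom (k - 1) := by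
  have hi : ∀ n : ℕ, Integrable fun x : ℝ => x ^ n * Real.exp (-(1 / 2) * x ^ 2) := fun n => by
    simpa using integrable_rpow_mul_exp_neg_mul_sq (b := 1 / 2) (by norm_num) (s := n)
      (by have : (0 : ℝ) ≤ n := by positivity
          linarith)
  have hd : ∀ x : ℝ, HasDerivAt (fun x : ℝ => x ^ k * Real.exp (-(1 / 2) * x ^ 2))
      (k * (x ^ (k - 1) * Real.exp (-(1 / 2) * x ^ 2))
        - x ^ (k + 1) * Real.exp (-(1 / 2) * x ^ 2)) x := fun x => by
    have h1 := (hasDerivAt_pow k x).mul (((hasDerivAt_pow 2 x).const_mul (-(1 / 2))).exp)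
    refine h1.congr_deriv ?_
    norm_num; ring
  have := integral_eq_zero_of_hasDerivAt_of_integrable hd (((hi _).const_mul _).sub (hi _)) (hi _)
  rw [integral_sub ((hi _).const_mul _) (hi _), integral_const_mul] at this
  rw [mom_eq, mom_eq]
  linear_combination (-(√(2 * Real.pi))⁻¹) * this

lemma mom_even_le (p : ℕ) : 0 ≤ mom (2 * p) ∧ mom (2 * p) ≤ (2 * p) ^ p := by
  induction p with
  | zero => simp [mom_zero]
  | succ p ih =>
    have : mom (2 * (p + 1)) = (2 * p + 1 : ℕ) * mom (2 * p) := mom_succ (2 * p + 1)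
    rw [this]
    have h0 := ih.1
    refine ⟨by positivity, ?_⟩
    push_cast
    calc (2 * (p : ℝ) + 1) * mom (2 * p) ≤ (2 * (p + 1)) * (2 * (p + 1)) ^ p := by
          gcongr
          · linarith
          · exact ih.2.trans (by gcongr; linarith)
      _ = _ := by ring

variable {I : Type} [Fintype I] [DecidableEq I]

/-- standard Gaussian on `I → ℝ` -/
noncomputable def gam (I : Type) [Fintype I] : Measure (I → ℝ) :=
  Measure.pi fun _ => gaussianReal 0 1

instance : IsProbabilityMeasure (gam I) := by unfold gam; infer_instance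

lemma eval_monomial' (g : I → ℝ) (s : I →₀ ℕ) (c : ℝ) :
    eval g (monomial s c) = c * ∏ i, g i ^ s i := by
  rw [eval_monomial, Finsupp.prod_fintype _ _ (by simp)]

lemma integrable_eval (p : MvPolynomial I ℝ) : Integrable (fun g => eval g p) (gam I) := by
  induction p using MvPolynomial.induction_on' with
  | monomial s c =>
    simp only [eval_monomial']
    exact (Integrable.fintype_prod (f := fun i (x : ℝ) => x ^ s i)
      fun i => integrable_pow_gauss _).const_mul c
  | add p q hp hq => simp only [map_add]; exact hp.add hq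

/-- Gaussian expectation of a polynomial -/
noncomputable def GE : MvPolynomial I ℝ →ₗ[ℝ] ℝ where
  toFun p := ∫ g, eval g p ∂gam I
  map_add' p q := by simp [integral_add (integrable_eval p) (integrable_eval q)]
  map_smul' c p := by simp [integral_const_mul]

lemma GE_apply (p : MvPolynomial I ℝ) : GE p = ∫ g, eval g p ∂gam I := rfl

lemma GE_monomial (s : I →₀ ℕ) (c : ℝ) : GE (monomial s c) = c * ∏ i, mom (s i) := by
  simp only [GE_apply, eval_monomial', integral_const_mul, gam]
  rw [integral_fintype_prod_eq_prod (fun i (x : ℝ) => x ^ s i)]; rfl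

lemma GE_one : GE (1 : MvPolynomial I ℝ) = 1 := by simp [GE_apply]

lemma GE_C_mul (c : ℝ) (p : MvPolynomial I ℝ) : GE (C c * p) = c * GE p := by
  rw [← smul_eq_C_mul, map_smul, smul_eq_mul]

theorem stein (a : I) (p : MvPolynomial I ℝ) : GE (X a * p) = GE (pderiv a p) := by
  induction p using MvPolynomial.induction_on' with
  | monomial s c =>
    rw [X, monomial_mul, pderiv_monomial, GE_monomial, GE_monomial,
      ← Finset.mul_prod_erase _ _ (Finset.mem_univ a),
      ← Finset.mul_prod_erase _ _ (Finset.mem_univ a)]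
    have h1 : ∏ i ∈ Finset.univ.erase a, mom ((Finsupp.single a 1 + s : I →₀ ℕ) i)
        = ∏ i ∈ Finset.univ.erase a, mom ((s - Finsupp.single a 1 : I →₀ ℕ) i) :=
      Finset.prod_congr rfl fun i hi => by simp [Finset.ne_of_mem_erase hi]
    rw [h1]
    simp only [Finsupp.coe_add, Pi.add_apply, Finsupp.single_eq_same, Finsupp.coe_tsub,
      Pi.sub_apply, add_comm 1, mom_succ]
    ring
  | add p q hp hq => simp [mul_add, hp, hq]

lemma stein_unique (L : MvPolynomial I ℝ →ₗ[ℝ] ℝ) (h1 : L 1 = 1)
    (hs : ∀ a p, L (X a * p) = L (pderiv a p)) (p : MvPolynomial I ℝ) : L p = GE p := by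
  have key : ∀ n : ℕ, ∀ s : I →₀ ℕ, ∑ i, s i = n → ∀ c, L (monomial s c) = GE (monomial s c) := by
    intro n
    induction n using Nat.strong_induction_on with
    | _ n ih =>
      intro s hs' c
      by_cases h0 : s = 0
      · subst h0
        have : (monomial (0 : I →₀ ℕ) c : MvPolynomial I ℝ) = c • 1 := by
          rw [smul_eq_C_mul, mul_one]; rfl
        rw [this, map_smul, map_smul, h1, GE_one]
      · obtain ⟨a, ha⟩ : ∃ a, s a ≠ 0 := by
          by_contra hc; push Not at hc; exact h0 (Finsupp.ext hc)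
        have e : monomial s c = X a * monomial (s - Finsupp.single a 1) c := by
          rw [X, monomial_mul, one_mul, add_tsub_cancel_of_le]
          simpa [Finsupp.single_le_iff] using Nat.one_le_iff_ne_zero.2 ha
        rw [e, hs, stein, pderiv_monomial]
        refine ih _ ?_ _ rfl _
        rw [← hs']
        refine Finset.sum_lt_sum (fun i _ => ?_) ⟨a, Finset.mem_univ _, ?_⟩
        · simp only [Finsupp.coe_tsub, Pi.sub_apply]; omega
        · simp only [Finsupp.coe_tsub, Pi.sub_apply, Finsupp.single_eq_same]; omega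
  induction p using MvPolynomial.induction_on' with
  | monomial s c => exact key _ s rfl c
  | add p q hp hq => simp [hp, hq]

/-- linear forms -/
noncomputable def lin (O : I → I → ℝ) (i : I) : MvPolynomial I ℝ := ∑ j, C (O i j) * X j

lemma pderiv_lin (O : I → I → ℝ) (i j : I) : pderiv j (lin O i) = C (O i j) := by
  simp only [lin, map_sum, pderiv_C_mul, pderiv_X]
  rw [Finset.sum_eq_single j] <;> simp +contextual [Pi.single_apply, eq_comm]

lemma pderiv_aeval_lin (O : I → I → ℝ) (j : I) (p : MvPolynomial I ℝ) :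
    pderiv j (aeval (lin O) p) = ∑ b, C (O b j) * aeval (lin O) (pderiv b p) := by
  induction p using MvPolynomial.induction_on with
  | C a => simp
  | add p q hp hq => simp only [map_add, hp, hq, mul_add, Finset.sum_add_distrib]
  | mul_X p i hp =>
    simp only [map_mul, aeval_X, pderiv_mul, hp, pderiv_lin, map_add, mul_add,
      Finset.sum_add_distrib, Finset.sum_mul, mul_assoc, pderiv_X]
    congr 1
    rw [Finset.sum_eq_single i] <;> simp +contextual [Pi.single_apply, eq_comm, mul_comm]

theorem GE_rot (O : I → I → ℝ) (hO : ∀ a b, ∑ j, O a j * O b j = if a = b then 1 else 0)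
    (p : MvPolynomial I ℝ) : GE (aeval (lin O) p) = GE p := by
  refine stein_unique (GE ∘ₗ (aeval (lin O)).toLinearMap) (by simp [GE_one]) (fun a p => ?_) p
  simp only [LinearMap.comp_apply, AlgHom.toLinearMap_apply, map_mul, aeval_X]
  rw [lin, Finset.sum_mul, map_sum]
  simp only [mul_assoc, GE_C_mul, stein, pderiv_aeval_lin, map_sum, Finset.mul_sum]
  rw [Finset.sum_comm]
  simp only [← mul_assoc, ← Finset.sum_mul, hO]
  simp

lemma hasDerivAt_prod {V : Type} [DecidableEq V] (L : MvPolynomial I ℝ →ₗ[ℝ] ℝ)
    (a b : V → MvPolynomial I ℝ) (t : ℝ) (s : Finset V) : ∀ q : MvPolynomial I ℝ,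
    HasDerivAt (fun t : ℝ => L (q * ∏ v ∈ s, (a v + C t * b v)))
      (L (q * ∑ v ∈ s, b v * ∏ u ∈ s.erase v, (a u + C t * b u))) t := by
  induction s using Finset.induction_on with
  | empty => intro q; simpa using hasDerivAt_const t (L q)
  | insert v s hv ih =>
    intro q
    have hC : ∀ (c : ℝ) (p : MvPolynomial I ℝ), L (C c * p) = c * L p := fun c p => by
      rw [← smul_eq_C_mul, map_smul, smul_eq_mul]
    have e : (fun t : ℝ => L (q * ∏ v ∈ insert v s, (a v + C t * b v))) = fun t =>
        L (q * a v * ∏ v ∈ s, (a v + C t * b v)) + t * L (q * b v * ∏ v ∈ s, (a v + C t * b v)) := by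
      funext t
      rw [Finset.prod_insert hv, ← hC, ← map_add]; congr 1; ring
    rw [e]
    refine ((ih (q * a v)).add ((hasDerivAt_id t).mul (ih (q * b v)))).congr_deriv (Eq.symm ?_)
    rw [Finset.sum_insert hv, Finset.erase_insert hv, one_mul, id, ← hC, ← map_add, ← map_add]
    congr 1
    have : ∀ u ∈ s, b u * ∏ x ∈ (insert v s).erase u, (a x + C t * b x)
        = (a v + C t * b v) * (b u * ∏ x ∈ s.erase u, (a x + C t * b x)) := by
      intro u hu
      have hne : v ≠ u := fun h => hv (h ▸ hu)
      rw [Finset.erase_insert_of_ne hne, Finset.prod_insert (by simp [hv])]; ring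
    rw [Finset.sum_congr rfl this, ← Finset.mul_sum]; ring

lemma pderiv_prod {V : Type} [DecidableEq V] (i : I) (f : V → MvPolynomial I ℝ) (s : Finset V) :
    pderiv i (∏ v ∈ s, f v) = ∑ v ∈ s, pderiv i (f v) * ∏ u ∈ s.erase v, f u := by
  induction s using Finset.induction_on with
  | empty => simp
  | insert v s hv ih =>
    rw [Finset.prod_insert hv, pderiv_mul, ih, Finset.sum_insert hv, Finset.erase_insert hv,
      Finset.mul_sum]
    congr 1
    refine Finset.sum_congr rfl fun u hu => ?_
    have hne : v ≠ u := fun h => hv (h ▸ hu)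
    rw [Finset.erase_insert_of_ne hne, Finset.prod_insert (by simp [hv])]; ring

lemma GE_prod_one_add (c : ℝ) (e : ℕ) :
    GE (∏ i : I, (1 + C c * X i ^ e) : MvPolynomial I ℝ) = (1 + c * mom e) ^ Fintype.card I := by
  simp only [GE_apply, map_prod, map_add, map_one, map_mul, eval_C, map_pow, eval_X, gam]
  rw [integral_fintype_prod_eq_prod (fun _ (x : ℝ) => 1 + c * x ^ e), Finset.prod_const,
    integral_add (integrable_const _) ((integrable_pow_gauss e).const_mul c), integral_const_mul]
  simp [mom]

end Crest.Agent.QQ
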