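import Crest.Agent.QQ.Dist

/-! Simulation of phase-oracle algorithms in the standard model. -/

set_option autoImplicit false
set_option linter.unusedSectionVars false
open Matrix Crest.MathPhysics.Query

namespace Crest.Agent.QQ

section
variable {n w : ℕ} {W : Type} [Fintype W] [DecidableEq W]

/-- the isometry is supported on work states with flag `b` -/
def Flag (κ : Fin w ≃ W × Bool) (b : Bool) (F : Matrix (QIdx n w) W ℂ) : Prop :=
  ∀ e v, F e v ≠ 0 → (κ e.2.2).2 = b

lemma Flag.orth {κ : Fin w ≃ W × Bool} {b : Bool} {E F : Matrix (QIdx n w) W ℂ}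
    (hE : Flag κ b E) (hF : Flag κ (!b) F) : Fᴴ * E = 0 := by
  ext v v'
  rw [Matrix.mul_apply]
  refine Finset.sum_eq_zero fun e _ => ?_
  by_cases h1 : E e v' = 0
  · simp [h1]
  by_cases h2 : F e v = 0
  · simp [h2]
  have := hE e v' h1
  have := hF e v h2
  cases b <;> simp_all

lemma Flag.mul {κ : Fin w ≃ W × Bool} {b : Bool} {F : Matrix (QIdx n w) W ℂ}
    (hF : Flag κ b F) (U : Matrix W W ℂ) : Flag κ b (F * U) := by
  intro e v h
  rw [Matrix.mul_apply] at h
  obtain ⟨v', -, h'⟩ := Finset.exists_ne_zero_of_sum_ne_zero h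
  exact hF e v' (left_ne_zero_of_mul h')

/-- the query isometry -/
noncomputable def qiso (κ : Fin w ≃ W × Bool) (i₀ : Fin n) (idx : W → Option (Fin n)) (b : Bool) :
    Matrix (QIdx n w) W ℂ := fun e v =>
  if e.1 = (idx v).getD i₀ ∧ e.2.2 = κ.symm (v, b) then
    (Real.sqrt 2 : ℂ)⁻¹ * (sg ((idx v).isSome && e.2.1) : ℂ) else 0

lemma qiso_flag (κ : Fin w ≃ W × Bool) (i₀ : Fin n) (idx : W → Option (Fin n)) (b : Bool) :
    Flag κ b (qiso κ i₀ idx b) := by
  intro e v h
  unfold qiso at h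
  split_ifs at h with h1
  · simp [h1.2]
  · exact absurd rfl h

lemma qiso_isom (κ : Fin w ≃ W × Bool) (i₀ : Fin n) (idx : W → Option (Fin n)) (b : Bool) :
    (qiso κ i₀ idx b)ᴴ * qiso κ i₀ idx b = 1 := by
  have hc : (Real.sqrt 2 : ℂ)⁻¹ * (Real.sqrt 2 : ℂ)⁻¹ = 1 / 2 := by
    rw [← mul_inv, ← Complex.ofReal_mul, Real.mul_self_sqrt (by norm_num)]
    norm_num
  ext v v'
  simp only [Matrix.mul_apply, conjTranspose_apply, qiso, Fintype.sum_prod_type, one_apply]
  by_cases hv : v = v'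
  · subst hv
    rw [Finset.sum_eq_single ((idx v).getD i₀)]
    · rw [Finset.sum_comm, Finset.sum_eq_single (κ.symm (v, b))]
      · cases (idx v).isSome <;> simp [hc] <;> norm_num
      · intro z _ hz; simp [hz]
      · simp
    · intro i _ hi; simp [hi]
    · simp
  · rw [if_neg hv]
    refine Finset.sum_eq_zero fun i _ => Finset.sum_eq_zero fun c _ =>
      Finset.sum_eq_zero fun z _ => ?_
    by_cases h1 : z = κ.symm (v, b)
    · have : z ≠ κ.symm (v', b) := by
        rw [h1]; intro h; exact hv (congrArg Prod.fst (κ.symm.injective h))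
      simp [this]
    · simp [h1]

lemma oracle_qiso (κ : Fin w ≃ W × Bool) (i₀ : Fin n) (idx : W → Option (Fin n)) (b : Bool)
    (x : Fin n → Bool) (φ : W → ℂ) :
    oracle x (qiso κ i₀ idx b *ᵥ φ) = qiso κ i₀ idx b *ᵥ (phase idx x *ᵥ φ) := by
  funext e
  simp only [oracle, mulVec, dotProduct]
  refine Finset.sum_congr rfl fun v _ => ?_
  have : ∑ v', phase idx x v v' * φ v' = (sg ((idx v).elim false x) : ℂ) * φ v :=
    mulVec_diagonal _ φ v
  rw [this, ← mul_assoc]
  congr 1
  unfold qiso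
  split_ifs with h1
  · obtain ⟨i, c, z⟩ := e
    simp only at h1 ⊢
    cases h : idx v with
    | none => simp
    | some j =>
      have : i = j := by simpa [h] using h1.1
      subst this
      cases c <;> cases hx : x i <;> simp [hx]
  · simp

lemma stateAfter_congr {U U' : ℕ → Matrix (QIdx n w) (QIdx n w) ℂ} (x : Fin n → Bool)
    (ψ : QIdx n w → ℂ) : ∀ t, (∀ s ≤ t, U s = U' s) → stateAfter U x ψ t = stateAfter U' x ψ t
  | 0, h => by simp [stateAfter, h 0 le_rfl]
  | t + 1, h => by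
      simp only [stateAfter, h (t + 1) le_rfl]
      rw [stateAfter_congr x ψ t fun s hs => h s (by omega)]

lemma simulate (κ : Fin w ≃ W × Bool) (i₀ : Fin n) {E₀ : Matrix (QIdx n w) W ℂ}
    (hE₀ : E₀ᴴ * E₀ = 1) (fE₀ : Flag κ false E₀) : ∀ (q : ℕ)
    {A : (Fin n → Bool) → Matrix W W ℂ}, QA q A → ∀ F : Matrix (QIdx n w) W ℂ, Fᴴ * F = 1 →
    Flag κ (decide (Even q)) F → ∃ U : ℕ → Matrix (QIdx n w) (QIdx n w) ℂ,
      (∀ t, U t ∈ Matrix.unitaryGroup (QIdx n w) ℂ) ∧
      ∀ x ψ, stateAfter U x (E₀ *ᵥ ψ) q = F *ᵥ (A x *ᵥ ψ) := by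
  have key : ∀ (F : Matrix (QIdx n w) W ℂ) (V : Matrix W W ℂ), Fᴴ * F = 1 →
      V ∈ Matrix.unitaryGroup W ℂ → (F * V)ᴴ * (F * V) = 1 := by
    intro F V hF hV
    rw [conjTranspose_mul, Matrix.mul_assoc, ← Matrix.mul_assoc Fᴴ, hF, Matrix.one_mul,
      ← star_eq_conjTranspose, (Matrix.mem_unitaryGroup_iff').1 hV]
  intro q
  induction q with
  | zero =>
    rintro A ⟨V, hV, hA⟩ F hF fF
    obtain ⟨G, hG, hGE⟩ := exists_unitary_swap hE₀ (key F V hF hV)
      (fE₀.orth (by simpa using fF.mul V))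
    exact ⟨fun _ => G, fun _ => hG, fun x ψ => by
      simp only [stateAfter, mulVec_mulVec, hGE, hA]⟩
  | succ q ih =>
    rintro A ⟨B, idx, V, hV, hB, hA⟩ F hF fF
    obtain ⟨U, hU, hs⟩ := ih hB (qiso κ i₀ idx (decide (Even q))) (qiso_isom κ i₀ idx _) (qiso_flag κ i₀ idx _)
    obtain ⟨G, hG, hGE⟩ := exists_unitary_swap (qiso_isom κ i₀ idx (decide (Even q)))
      (key F V hF hV) ((qiso_flag κ i₀ idx (decide (Even q))).orth (by
        have := fF.mul V
        rwa [show decide (Even (q + 1)) = !decide (Even q) by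
          by_cases h : Even q <;> simp [Nat.even_add_one, h]] at this))
    refine ⟨Function.update U (q + 1) G, fun t => ?_, fun x ψ => ?_⟩
    · by_cases ht : t = q + 1
      · subst ht; simpa
      · simp [Function.update_of_ne ht, hU]
    · simp only [stateAfter, Function.update_self]
      rw [stateAfter_congr (U' := U) x _ q fun s hs => Function.update_of_ne (by omega) _ _, hs,
        oracle_qiso, mulVec_mulVec, hGE, hA]
      simp only [mulVec_mulVec, Matrix.mul_assoc]

end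

theorem QD.computes {n q : ℕ} (hn : 0 < n) {f : (Fin n → Bool) → Bool}
    {E : (Fin n → Bool) → Ex Bool} (h : QD q E)
    (hf : ∀ x, 2 / 3 ≤ E x (fun b => if b = f x then 1 else 0)) : QuantumComputes f q := by
  obtain ⟨W, _, _, A, ψ, o, hA, hψ, hE⟩ := h
  let κ : Fin (Fintype.card (W × Bool)) ≃ W × Bool := (Fintype.equivFin _).symm
  let i₀ : Fin n := ⟨0, hn⟩
  let h : Bool → W → QIdx n (Fintype.card (W × Bool)) := fun b v => (i₀, false, κ.symm (v, b))
  have hh : ∀ b, Function.Injective (h b) := fun b v v' e =>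
    congrArg Prod.fst (κ.symm.injective (congrArg (fun e => e.2.2) e))
  have hfl : ∀ b, Flag κ b (emb (h b)) := by
    intro b e v he
    unfold emb at he
    split_ifs at he with h1
    · simp [h1, h]
    · exact absurd rfl he
  obtain ⟨U, hU, hs⟩ := simulate κ i₀ (emb_isom (hh false)) (hfl false) q hA _
    (emb_isom (hh (decide (Even q)))) (hfl _)
  refine ⟨_, U, emb (h false) *ᵥ ψ, fun e => o (κ e.2.2).1, hU, ?_, fun x => ?_⟩
  · simpa [hψ] using sum_emb (hh false) ψ (fun _ => 1)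
  · have := sum_emb (hh (decide (Even q))) (A x *ᵥ ψ)
      (fun e => if o (κ e.2.2).1 = f x then 1 else 0)
    rw [hs]
    refine (hf x).trans (le_of_eq ?_)
    rw [hE]
    simp only [mul_ite, mul_one, mul_zero] at this ⊢
    rw [this]
    simp [h]

end Crest.Agent.QQ
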