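import Crest.Agent.QQ.Upper
import Crest.Agent.QQ.Sim

/-! Decision tree surgery for the lower bound. -/

set_option autoImplicit false
set_option linter.unusedSectionVars false
open Crest.MathPhysics.Query

namespace Crest.Agent.QQ

variable {ι ρ : Type}

/-- number of reads in a set along the path of an input -/
def cnt (P : ι → Bool) (x : ι → Bool) : Tr ι → ℕ
  | .ans _ => 0
  | .rd i t₀ t₁ => (if P i then 1 else 0) + if x i then cnt P x t₁ else cnt P x t₀

lemma sum_cnt_le {J : Type} [Fintype J] [DecidableEq J] (c : ι → Option J) (x : ι → Bool) :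
    ∀ t : Tr ι, ∑ j, cnt (fun i => decide (c i = some j)) x t ≤ t.depth
  | .ans _ => by simp [cnt]
  | .rd i t₀ t₁ => by
      have h0 := sum_cnt_le c x t₀
      have h1 := sum_cnt_le c x t₁
      have h2 : ∑ j, (if decide (c i = some j) = true then 1 else 0) ≤ 1 := by
        rcases c i with _ | j <;> simp
      simp only [cnt, Finset.sum_add_distrib, Tr.depth]
      cases x i <;> simp only [if_true, if_false, Bool.false_eq_true] <;> omega

lemma eval_eq_of_cnt (P : ι → Bool) (x x' : ι → Bool) (h : ∀ i, P i = false → x' i = x i) :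
    ∀ t : Tr ι, cnt P x t = 0 → t.eval x' = t.eval x
  | .ans _, _ => rfl
  | .rd i t₀ t₁, hc => by
      simp only [cnt, Nat.add_eq_zero_iff] at hc
      have hi : x' i = x i := h i (by simpa using hc.1)
      simp only [Tr.eval, hi]
      cases hx : x i <;> simp only [hx, if_true, if_false, Bool.false_eq_true] at hc ⊢
      exacts [eval_eq_of_cnt P x x' h t₀ hc.2, eval_eq_of_cnt P x x' h t₁ hc.2]

lemma exists_restr (pr : ι → Option ρ) (x : ι → Bool) : ∀ t : Tr ι, ∃ T : Tr ρ,
    T.depth ≤ t.depth ∧ ∀ w, T.eval w = t.eval fun i => (pr i).elim (x i) w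
  | .ans b => ⟨.ans b, le_rfl, fun _ => rfl⟩
  | .rd i t₀ t₁ => by
      obtain ⟨T₀, a0, b0⟩ := exists_restr pr x t₀
      obtain ⟨T₁, a1, b1⟩ := exists_restr pr x t₁
      rcases h : pr i with _ | j
      · refine ⟨if x i then T₁ else T₀, ?_, fun w => ?_⟩
        · simp only [Tr.depth]; split_ifs <;> omega
        · cases hx : x i <;> simp [Tr.eval, h, hx, b0, b1]
      · exact ⟨.rd j T₀ T₁, by simp only [Tr.depth]; omega, fun w => by simp [Tr.eval, h, b0, b1]⟩

lemma exists_trunc (pr : ι → Option ρ) (Q : ι → Bool) (x : ι → Bool) : ∀ (t : Tr ι) (n : ℕ),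
    ∃ T : Tr ρ, T.depth ≤ n ∧
      (∀ w x', (∀ i, Q i = false → x' i = (pr i).elim (x i) w) → t.eval x' = true →
        T.eval w = true) ∧
      ∀ w, T.eval w = true → t.eval (fun i => (pr i).elim (x i) w) = true ∨
        1 ≤ cnt Q (fun i => (pr i).elim (x i) w) t ∨
        n + 1 ≤ cnt (fun i => (pr i).isSome) (fun i => (pr i).elim (x i) w) t
  | .ans b, n => ⟨.ans b, Nat.zero_le _, fun _ _ _ h => h, fun _ h => Or.inl h⟩
  | .rd i t₀ t₁, n => by
      cases hQ : Q i
      swap
      · exact ⟨.ans true, Nat.zero_le _, fun _ _ _ _ => rfl, fun w _ => by simp [cnt, hQ]⟩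
      rcases h : pr i with _ | j
      · obtain ⟨T₀, a0, b0, c0⟩ := exists_trunc pr Q x t₀ n
        obtain ⟨T₁, a1, b1, c1⟩ := exists_trunc pr Q x t₁ n
        refine ⟨if x i then T₁ else T₀, by split_ifs <;> omega, fun w x' hx' he => ?_,
          fun w hw => ?_⟩
        · have := hx' i hQ
          simp only [h, Option.elim] at this
          simp only [Tr.eval, this] at he
          cases hx : x i <;> simp only [hx, if_true, if_false, Bool.false_eq_true] at he ⊢
          exacts [b0 w x' hx' he, b1 w x' hx' he]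
        · cases hx : x i <;> simp only [hx, if_true, if_false, Bool.false_eq_true] at hw
          · simpa [Tr.eval, cnt, h, hQ, hx] using c0 w hw
          · simpa [Tr.eval, cnt, h, hQ, hx] using c1 w hw
      rcases n with _ | n
      · exact ⟨.ans true, le_rfl, fun _ _ _ _ => rfl, fun w _ => by simp [cnt, h]⟩
      obtain ⟨T₀, a0, b0, c0⟩ := exists_trunc pr Q x t₀ n
      obtain ⟨T₁, a1, b1, c1⟩ := exists_trunc pr Q x t₁ n
      refine ⟨.rd j T₀ T₁, by simp only [Tr.depth]; omega, fun w x' hx' he => ?_, fun w hw => ?_⟩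
      · have := hx' i hQ
        simp only [h, Option.elim] at this
        simp only [Tr.eval, this] at he ⊢
        cases hx : w j <;> simp only [hx, if_true, if_false, Bool.false_eq_true] at he ⊢
        exacts [b0 w x' hx' he, b1 w x' hx' he]
      · simp only [Tr.eval] at hw
        cases hx : w j <;> simp only [hx, if_true, if_false, Bool.false_eq_true] at hw
        · simpa [Tr.eval, cnt, h, hQ, hx, add_comm 1] using c0 w hw
        · simpa [Tr.eval, cnt, h, hQ, hx, add_comm 1] using c1 w hw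

/-- translation of a decision tree -/
def conv {n : ℕ} (e : Fin n → ι) : DTree n → Tr ι
  | .answer b => .ans b
  | .read i t₀ t₁ => .rd (e i) (conv e t₀) (conv e t₁)

lemma conv_depth {n : ℕ} (e : Fin n → ι) : ∀ t : DTree n, (conv e t).depth = t.depth
  | .answer _ => rfl
  | .read _ t₀ t₁ => by simp [conv, Tr.depth, DTree.depth, conv_depth e t₀, conv_depth e t₁]

lemma conv_eval {n : ℕ} (e : Fin n → ι) (x : ι → Bool) :
    ∀ t : DTree n, (conv e t).eval x = t.eval (x ∘ e)
  | .answer _ => rfl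
  | .read _ t₀ t₁ => by simp [conv, Tr.eval, DTree.eval, conv_eval e x t₀, conv_eval e x t₁]

theorem yao {n q : ℕ} (e : ι ≃ Fin n) (f : (ι → Bool) → Bool) {E₀ E₁ : Ex (ι → Bool)}
    (h₀ : IsProb E₀) (h₁ : IsProb E₁) {κ : ℝ}
    (ht : ∀ t : Tr ι, t.depth ≤ q → E₁ (fun x => ind (t.eval x)) ≤ E₀ (fun x => ind (t.eval x)) + κ)
    (f₀ : E₀ (fun x => ind (f x)) ≤ 0) (f₁ : E₁ (fun x => ind (!f x)) ≤ 1 / 8)
    (hR : RandomizedComputes (fun x => f (x ∘ e)) q) : 5 / 24 ≤ κ := by
  obtain ⟨s, p, T, hp, hp1, hd, hT⟩ := hR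
  let G : (ι → Bool) → ℝ := fun x => ∑ j, p j * ind ((conv e.symm (T j)).eval x)
  have hG : ∀ x, 2 / 3 - ind (!f x) ≤ G x ∧ G x ≤ 1 / 3 + ind (f x) := fun x => by
    have a := hT (x ∘ e.symm)
    have hx : (x ∘ e.symm) ∘ e = x := by funext i; simp
    simp only [hx] at a
    have g0 : 0 ≤ G x := Finset.sum_nonneg fun j _ => mul_nonneg (hp j) (ind_nonneg _)
    have g1 : G x ≤ 1 := hp1 ▸ Finset.sum_le_sum fun j _ =>
      mul_le_of_le_one_right (hp j) (ind_le_one _)
    cases hf : f x
    · have : G x + ∑ j, (if (T j).eval (x ∘ e.symm) = f x then p j else 0) = 1 := by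
        rw [← hp1, ← Finset.sum_add_distrib]
        refine Finset.sum_congr rfl fun j _ => ?_
        rw [conv_eval, hf]; cases (T j).eval (x ∘ e.symm) <;> simp
      simp; constructor <;> linarith
    · have : G x = ∑ j, (if (T j).eval (x ∘ e.symm) = f x then p j else 0) := by
        refine Finset.sum_congr rfl fun j _ => ?_
        rw [conv_eval, hf]; cases (T j).eval (x ∘ e.symm) <;> simp
      simp; constructor <;> linarith
  have a1 := h₁.mono fun x => (hG x).1
  have a0 := h₀.mono fun x => (hG x).2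
  rw [h₁.sub, h₁.const] at a1
  rw [h₀.add, h₀.const] at a0
  have : E₁ G ≤ E₀ G + κ := by
    simp only [G]
    rw [h₁.sum, h₀.sum, ← one_mul κ, ← hp1, Finset.sum_mul, ← Finset.sum_add_distrib]
    refine Finset.sum_le_sum fun j _ => ?_
    rw [h₁.smul, h₀.smul, ← mul_add]
    exact mul_le_mul_of_nonneg_left (ht _ (by rw [conv_depth]; exact hd j)) (hp j)
  linarith

end Crest.Agent.QQ
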