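import Crest.Agent.QQ.Param

/-! The separation for `m = 4 ^ j`. -/

set_option autoImplicit false
set_option linter.unusedSectionVars false
open Crest.MathPhysics.Query Filter

namespace Crest.Agent.QQ

/-- parameters -/
def pQ (k j : ℕ) : ℕ := pB j * (pS k j * ((k + 1) * (2 * j) + 2))
/-- parameters -/
def pM (k j : ℕ) : ℕ := 2 + pB j * (pS k j * ((k + 1) * (2 * j + 1))) + pB j
/-- parameters -/
def pT (k j : ℕ) : ℕ := Nat.log 2 (pM k j) + 1
/-- parameters -/
def pL (j : ℕ) : ℕ := 3 * (2 * (2 * j) + pB j + 2)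
/-- parameters -/
def pK (k j : ℕ) : ℕ := 7 * (2 * j + 7) * ((j + pT k j + 1) * (3 * 2 ^ pT k j))
/-- parameters -/
def pG (k j : ℕ) : ℕ := 27 * (2 * j * (pL j * (pK k j * (2 * j * pQ k j))
  + pK k j * (pQ k j + pL j * pQ k j)) + (pK k j * (2 * j * pQ k j) + (pQ k j + pK k j * pQ k j)))

lemma PB_pG (k : ℕ) : PB (pG k) := by
  have h2 : PB fun j => 2 * j := (PB.const 2).mul PB.id
  have hQ : PB (pQ k) := PB_pB.mul ((PB_pS k).mul (((PB.const _).mul h2).add (PB.const 2)))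
  have hM : PB (pM k) := ((PB.const 2).add (PB_pB.mul ((PB_pS k).mul
    ((PB.const _).mul (h2.add (PB.const 1)))))).add PB_pB
  have hT2 : PB fun j => 2 ^ pT k j := ((PB.const 2).mul hM).mono fun j => by
    rw [pT, pow_succ, mul_comm]
    exact Nat.mul_le_mul_left 2 (Nat.pow_log_le_self 2 (by unfold pM; omega))
  have hT : PB (pT k) := hT2.mono fun j => Nat.lt_two_pow_self.le
  have hL : PB pL := (PB.const 3).mul ((((PB.const 2).mul h2).add PB_pB).add (PB.const 2))
  have hK : PB (pK k) := ((PB.const 7).mul (h2.add (PB.const 7))).mul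
    (((PB.id.add hT).add (PB.const 1)).mul ((PB.const 3).mul hT2))
  exact (PB.const 27).mul ((h2.mul ((hL.mul (hK.mul (h2.mul hQ))).add
    (hK.mul (hQ.add (hL.mul hQ))))).add ((hK.mul (h2.mul hQ)).add (hQ.add (hK.mul hQ))))

theorem main {k j : ℕ} (hk : 1 ≤ k) (hj : 1 ≤ j) (hF : pF k j ≤ 2 ^ (j / k)) :
    ∃ (N : ℕ) (F : (Fin N → Bool) → Bool), (∃ q ≤ 2 ^ j * pG k j, QuantumComputes F q) ∧
      ∀ r, RandomizedComputes F r → (4 : ℝ) ^ j * 4 ^ (j - j / k) / 32 ≤ r := by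
  obtain ⟨D, η, h1, h2, h3, h4⟩ := fool' hk hj hF
  have hD : 0 < pD k j := by unfold pD; positivity
  have hD' : (0 : ℝ) < pD k j := by exact_mod_cast hD
  have hB : 5 ≤ pB j := by unfold pB; omega
  have hB' : (0 : ℝ) < pB j := by exact_mod_cast (by omega : 0 < pB j)
  have hS : 1 ≤ pS k j := Nat.succ_le_of_lt (by unfold pS; positivity)
  have h42 : 4 ^ j = 2 ^ (2 * j) := by rw [pow_mul]; norm_num
  have hW : 2 * j + 2 ≤ (k + 1) * (2 * j) + 2 := by nlinarith
  have hW2 : k + 1 ≤ (k + 1) * (2 * j) + 2 := by nlinarith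
  have hq : 5 * ((k + 1) * (2 * j) + 2) ≤ pQ k j :=
    Nat.mul_le_mul hB (Nat.le_mul_of_pos_left _ hS)
  have hM : pM k j ≤ 4 ^ pT k j :=
    (Nat.lt_pow_succ_log_self one_lt_two _).le.trans (Nat.pow_le_pow_left (by norm_num) _)
  have hj2 : (2 * j : ℝ) ≤ 2 ^ (2 * j) := by exact_mod_cast (Nat.lt_two_pow_self (n := 2 * j)).le
  have hn : (9 / 10 : ℝ) ^ (7 * (2 * j + 7)) ≤ 1 / (128 * 2 ^ (2 * j)) := by
    rw [pow_mul]
    calc _ ≤ (1 / 2 : ℝ) ^ (2 * j + 7) := by gcongr; norm_num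
      _ = _ := by rw [one_div_pow, pow_add]; norm_num [mul_comm]
  have h1' : (1 : ℝ) ≤ 2 ^ (2 * j) := one_le_pow₀ (by norm_num)
  obtain ⟨N, F, hQ, hR⟩ := construction (m := 4 ^ j) (B := pB j) (s := pS k j) (by positivity)
    (h := (1 / 2) ^ j) (by rw [← pow_mul, mul_comm j, ← mul_pow]; norm_num) h1 h2 h3
    (θ := 64 * pB j * pD k j) (by positivity) (by rw [pS]; push_cast; field_simp; norm_num)
    (by rw [pS]; push_cast; exact le_of_eq (by ring)) (q := pQ k j) (t := j + pT k j)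
    (n := 7 * (2 * j + 7)) (L := pL j) (by omega) (by omega)
    (Nat.le_mul_of_pos_left _ (by omega)) (by unfold pQ; gcongr)
    (by
      rw [pow_add, mul_comm]
      exact Nat.mul_le_mul_left _ (le_trans (by unfold pM; omega) hM))
    (by
      rw [pow_add, ← h42]
      refine le_trans ?_ (Nat.mul_le_mul_left _ hM)
      have : pB j ≤ 4 ^ j * pB j := Nat.le_mul_of_pos_left _ (by positivity)
      unfold pM
      nlinarith)
    (hn.trans (by rw [div_le_div_iff₀ (by positivity) (by norm_num)]; linarith)) h42.le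
    (by
      have a1 : (3 / 4 : ℝ) ^ pL j ≤ 1 / (2 ^ (2 * j) * 2 ^ (2 * j) * 2 ^ pB j * 4) := by
        rw [pL, pow_mul]
        calc _ ≤ (1 / 2 : ℝ) ^ (2 * (2 * j) + pB j + 2) := by gcongr; norm_num
          _ = _ := by rw [one_div_pow]; congr 1; ring
      rw [h42]
      push_cast
      calc _ ≤ (2 : ℝ) ^ (2 * j) * (2 ^ (2 * j) * 2 ^ pB j *
            (1 / (2 ^ (2 * j) * 2 ^ (2 * j) * 2 ^ pB j * 4)) + 1 / (128 * 2 ^ (2 * j))) := by gcongr
        _ = 1 / 4 + 1 / 128 := by field_simp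
        _ ≤ _ := by norm_num)
  refine ⟨N, F, ⟨_, ?_, hQ⟩, fun r hr => ?_⟩
  · have e : kap (j + pT k j) (7 * (2 * j + 7)) = 2 ^ j * pK k j := by
      rw [kap, pK, pow_add]; ring
    have : pQ k j ≤ 2 ^ j * pQ k j := Nat.le_mul_of_pos_left _ (by positivity)
    rw [e, pG]
    generalize pQ k j = q at this ⊢
    generalize pK k j = κ
    generalize pL j = L
    generalize 2 ^ j = u at this ⊢
    calc _ ≤ 27 * (2 * j * (L * (u * κ * (2 * j * q)) + u * κ * (q + L * q))
          + (u * κ * (2 * j * q) + (u * q + u * κ * q))) := by gcongr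
      _ = _ := by ring
  · have a := hR r hr
    by_contra hc
    push Not at hc
    have hw : j / k ≤ j := Nat.div_le_self _ _
    have e1 : (2 : ℝ) ^ (2 * j) = 4 ^ j := by exact_mod_cast h42.symm
    have e2 : (4 : ℝ) ^ j = 4 ^ (j - j / k) * 4 ^ (j / k) := by
      rw [← pow_add]; congr 1; omega
    have e3 : (2 : ℝ) ^ pB j = 32 * 4 ^ j * 4 ^ j := by rw [pB, ← e1]; ring
    have a1 : (32 : ℝ) ≤ 4 ^ (j / k) := by
      have : 32 ≤ 4 ^ (j / k) := le_trans (le_trans (by unfold pF; omega) hF)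
        (Nat.pow_le_pow_left (by norm_num) _)
      exact_mod_cast this
    push_cast at a
    rw [e1, e3] at a
    set d : ℝ := 4 ^ (j - j / k)
    set m : ℝ := 4 ^ j
    have hd : 0 < d := by positivity
    have hm : 0 < m := by positivity
    have b0 : 32 * d ≤ m := by nlinarith
    have b1 : d / m ≤ 1 / 32 := by rw [div_le_div_iff₀ hm (by norm_num)]; linarith
    have b2 : r / (32 * m * m) ≤ 1 / 32 := by
      rw [div_le_div_iff₀ (by positivity) (by norm_num)]; nlinarith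
    have b3 : r / ((d + 1) * m) ≤ 1 / 32 := by
      rw [div_le_div_iff₀ (by positivity) (by norm_num)]; nlinarith
    linarith

end Crest.Agent.QQ
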