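import Crest.Agent.QQ.Func
import Crest.Agent.QQ.Fool3

/-! Choice of parameters. -/

set_option autoImplicit false
set_option linter.unusedSectionVars false
open Crest.MathPhysics.Query Filter

namespace Crest.Agent.QQ

/-- polynomially bounded -/
def PB (f : ℕ → ℕ) : Prop := ∃ C e : ℕ, ∀ j, f j ≤ C * (j + 1) ^ e

namespace PB
variable {f g : ℕ → ℕ}

lemma const (c : ℕ) : PB fun _ => c := ⟨c, 0, by simp⟩
lemma id : PB fun j => j := ⟨1, 1, by simp⟩
lemma mono (h : PB g) (hfg : ∀ j, f j ≤ g j) : PB f := by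
  obtain ⟨C, e, h⟩ := h
  exact ⟨C, e, fun j => (hfg j).trans (h j)⟩
lemma mul (hf : PB f) (hg : PB g) : PB fun j => f j * g j := by
  obtain ⟨C, e, h⟩ := hf
  obtain ⟨C', e', h'⟩ := hg
  exact ⟨C * C', e + e', fun j => (Nat.mul_le_mul (h j) (h' j)).trans_eq (by ring)⟩
lemma add (hf : PB f) (hg : PB g) : PB fun j => f j + g j := by
  obtain ⟨C, e, h⟩ := hf
  obtain ⟨C', e', h'⟩ := hg
  refine ⟨C + C', e + e', fun j => (add_le_add (h j) (h' j)).trans ?_⟩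
  rw [add_mul]
  gcongr <;> omega
lemma pow (hf : PB f) (k : ℕ) : PB fun j => f j ^ k := by
  obtain ⟨C, e, h⟩ := hf
  exact ⟨C ^ k, e * k, fun j => (Nat.pow_le_pow_left (h j) k).trans_eq (by
    rw [mul_pow, pow_mul])⟩

lemma eventually_le (hf : PB f) {k : ℕ} (hk : 1 ≤ k) : ∃ j₀, ∀ j ≥ j₀, f j ≤ 2 ^ (j / k) := by
  obtain ⟨C, e, h⟩ := hf
  have h1 := (isLittleO_pow_const_const_pow_of_one_lt (R := ℝ) e (r := 2) one_lt_two).bound
    (c := 1 / (C * (2 * k) ^ e + 1)) (by positivity)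
  obtain ⟨w₀, hw⟩ := eventually_atTop.1 h1
  refine ⟨k * (w₀ + 1), fun j hj => (h j).trans ?_⟩
  have a1 : w₀ + 1 ≤ j / k := (Nat.le_div_iff_mul_le hk).2 (by rwa [mul_comm])
  have a2 : j + 1 ≤ 2 * k * (j / k) := by
    have := Nat.lt_mul_div_succ j (b := k) hk
    nlinarith
  have a3 := hw (j / k) (by omega)
  rw [Real.norm_of_nonneg (by positivity), Real.norm_of_nonneg (by positivity), one_div,
    inv_mul_eq_div, le_div_iff₀ (by positivity)] at a3
  have a4 : (j / k) ^ e * (C * (2 * k) ^ e + 1) ≤ 2 ^ (j / k) := by exact_mod_cast a3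
  calc C * (j + 1) ^ e ≤ C * (2 * k * (j / k)) ^ e := by gcongr
    _ = (j / k) ^ e * (C * (2 * k) ^ e) := by ring
    _ ≤ _ := le_trans (by gcongr; omega) a4

end PB

/-- parameters -/
def pB (j : ℕ) : ℕ := 4 * j + 5
/-- parameters -/
def pD (k j : ℕ) : ℕ := 2 * (16 * (2 * j * (k + 3))) ^ k
/-- parameters -/
def pS (k j : ℕ) : ℕ := 128 * pB j * pD k j ^ 2
/-- parameters -/
def pF (k j : ℕ) : ℕ :=
  32 * (pB j * (pS k j * (16 * (5 * (j * (k + 1))) ^ (k + 1) * 2 ^ k + 48 * k))) + 16 * k * pD k j + 32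

lemma PB_pB : PB pB := ((PB.const 4).mul PB.id).add (PB.const 5)
lemma PB_pD (k : ℕ) : PB (pD k) :=
  (PB.const 2).mul (((PB.const 16).mul (((PB.const 2).mul PB.id).mul (PB.const _))).pow k)
lemma PB_pS (k : ℕ) : PB (pS k) := ((PB.const 128).mul PB_pB).mul ((PB_pD k).pow 2)
lemma PB_pF (k : ℕ) : PB (pF k) :=
  (((PB.const 32).mul (PB_pB.mul ((PB_pS k).mul ((((PB.const 16).mul (((PB.const 5).mul
    (PB.id.mul (PB.const _))).pow _)).mul (PB.const _)).add (PB.const _))))).add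
    ((PB.const _).mul (PB_pD k))).add (PB.const 32)

theorem fool' {k j : ℕ} (hk : 1 ≤ k) (hj : 1 ≤ j) (hF : pF k j ≤ 2 ^ (j / k)) :
    ∃ (D : Bool → Ex (VV (2 * j) k → Bool)) (η : ℝ), (∀ b, IsProb (D b)) ∧
      (∀ b, 1 / (pD k j : ℝ) ≤ D b fun z => sg b * forr (fun a b => (1 / 2) ^ j * Sw a b) z) ∧
      (∀ t : Tr (VV (2 * j) k), t.depth ≤ 4 ^ (j - j / k) → ∀ b,
        D b (fun z => ind (t.eval z)) ≤ D false (fun z => ind (t.eval z)) + η) ∧
      pB j * (pS k j * η) ≤ 1 / 32 := by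
  have hN : (Fintype.card (Fin (2 * j) → Bool) : ℝ) = 4 ^ j := by simp [pow_mul]
  have hh : ((1 / 2 : ℝ) ^ j) ^ 2 * 4 ^ j = 1 := by
    rw [← pow_mul, mul_comm j, pow_mul, ← mul_pow]; norm_num
  set w := j / k with hw
  have hwj : w ≤ j := Nat.div_le_self _ _
  have h2w : (2 : ℝ) ^ w ≤ 4 ^ j := by
    calc (2 : ℝ) ^ w ≤ 2 ^ j := by gcongr; norm_num
      _ ≤ 4 ^ j := by gcongr; norm_num
  have h4 : (1 : ℝ) ≤ 4 ^ j := one_le_pow₀ (by norm_num)
  have hF' : (pF k j : ℝ) ≤ 2 ^ w := by exact_mod_cast hF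
  have hp : (2 : ℝ) ^ (2 * j * (k + 3)) = (4 ^ j) ^ (k + 3) := by
    rw [pow_mul, pow_mul]; norm_num
  have hD1 : (1 : ℝ) ≤ pD k j := by
    have : 0 < pD k j := by unfold pD; positivity
    exact_mod_cast this
  have hk' : (1 : ℝ) ≤ k := by exact_mod_cast hk
  have hB0 : (0 : ℝ) ≤ pB j * (pS k j * (16 * (5 * (j * (k + 1))) ^ (k + 1) * 2 ^ k + 48 * k)) := by
    positivity
  rw [pF] at hF'
  push_cast at hF'
  have hkD : 16 * k * (pD k j : ℝ) ≤ 4 ^ j := by linarith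
  have hτ : 8 * (k * 4 ^ j : ℝ) / 2 ^ (2 * j * (k + 3)) = 8 * k / (4 ^ j) ^ (k + 2) := by
    rw [hp]; field_simp; ring
  obtain ⟨D, h1, h2, h3⟩ := fool (K := k) (fun a b : Fin (2 * j) → Bool => (1 / 2 : ℝ) ^ j * Sw a b)
    (h := (1 / 2) ^ j) (fun a b => by rw [abs_mul, abs_Sw, mul_one, abs_of_pos (by positivity)])
    (by rw [hN, hh]) (fun a b => by
      have : ∀ c, ((1 / 2 : ℝ) ^ j * Sw a c) * ((1 / 2) ^ j * Sw b c)
        = ((1 / 2) ^ j) ^ 2 * (Sw a c * Sw b c) := fun c => by ring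
      simp only [this, ← Finset.mul_sum, Sw_orth]
      split_ifs
      · rw [pow_mul, show (2 : ℝ) ^ 2 = 4 by norm_num, hh]
      · simp) hk (p := 2 * j * (k + 3)) (P := j * (k + 1)) (d := 4 ^ (j - w))
    (Nat.succ_le_of_lt (by positivity)) (by
      rw [hN, hp]
      calc 2 * (k * 4 ^ j : ℝ) ≤ 4 ^ j * 4 ^ j := by nlinarith
        _ = (4 ^ j) ^ 2 := by ring
        _ ≤ _ := pow_le_pow_right₀ h4 (by omega))
    (Nat.succ_le_of_lt (by positivity)) (Nat.succ_le_of_lt (by positivity))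
    (by rw [hN, pow_mul]) (B := 5 * (j * (k + 1)) * 2 ^ (j - w)) (τ := 8 * k / (4 ^ j) ^ (k + 2))
    (by positivity) (by
      have : (4 : ℝ) ^ (j - w) = (2 ^ (j - w)) ^ 2 := by
        rw [← pow_mul, mul_comm, pow_mul]; norm_num
      push_cast
      rw [this]
      nlinarith [sq_nonneg ((j * (k + 1) : ℝ) * 2 ^ (j - w))])
    (by rw [hN, hτ])
  refine ⟨D, _, h1, fun b => le_trans ?_ (h2 b), h3, ?_⟩
  · have a1 : (1 : ℝ) / (16 * (2 * j * (k + 3) : ℕ)) ^ k = 2 * (1 / pD k j) := by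
      rw [pD]; push_cast; field_simp
    have a2 : 2 * (8 * k / (4 ^ j) ^ (k + 2) : ℝ) ≤ 1 / pD k j := by
      rw [← mul_div_assoc, div_le_div_iff₀ (by positivity) (by positivity)]
      have := le_self_pow₀ h4 (n := k + 2) (by omega)
      linarith
    linarith
  · have a1 : ((1 / 2 : ℝ) ^ j) ^ k * (2 ^ (j - w)) ^ (k + 1) ≤ 2 ^ k / 2 ^ w := by
      rw [← pow_mul, ← pow_mul, one_div_pow, one_div_mul_eq_div,
        div_le_div_iff₀ (by positivity) (by positivity), ← pow_add, ← pow_add]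
      refine pow_le_pow_right₀ (by norm_num) ?_
      have b1 := Nat.lt_mul_div_succ j (b := k) hk
      rw [← hw] at b1
      obtain ⟨u, hu⟩ := Nat.exists_eq_add_of_le hwj
      rw [show j - w = u by omega]
      nlinarith
    have a2 : 6 * (4 ^ j : ℝ) ^ (k + 1) * (8 * k / (4 ^ j) ^ (k + 2)) ≤ 48 * k / 2 ^ w := by
      calc _ = 48 * (k : ℝ) / 4 ^ j := by field_simp; ring
        _ ≤ _ := by gcongr
    rw [hN, mul_pow, mul_left_comm (((1 / 2 : ℝ) ^ j) ^ k)]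
    calc _ ≤ (pB j : ℝ) * (pS k j * (16 * ((5 * (j * (k + 1))) ^ (k + 1) * (2 ^ k / 2 ^ w))
          + 48 * k / 2 ^ w)) := by gcongr
      _ = pB j * (pS k j * (16 * (5 * (j * (k + 1))) ^ (k + 1) * 2 ^ k + 48 * k)) / 2 ^ w := by
          field_simp
      _ ≤ _ := by
          rw [div_le_div_iff₀ (by positivity) (by norm_num)]
          nlinarith

end Crest.Agent.QQ
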