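import Crest.Agent.QQ.Search
import Crest.Agent.QQ.Growth

/-! The elimination algorithm (abstract form). -/

set_option autoImplicit false
set_option linter.unusedSectionVars false

namespace Crest.Agent.QQ

variable {ι Y : Type}

/-- uniform law -/
noncomputable def unif (R : Type) [Fintype R] : Ex R := fun g => ∑ r, (Fintype.card R : ℝ)⁻¹ * g r

lemma QD.unif (R : Type) [Fintype R] [Nonempty R] : QD 0 (fun _ : ι → Bool => unif R) :=
  QD.rand (fun _ => by positivity) (by simp)

lemma unif_isProb (R : Type) [Fintype R] [Nonempty R] : IsProb (unif R) :=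
  (QD.unif (ι := Unit) R).isProb fun _ => true

lemma unif_ite {R : Type} [Fintype R] (P : R → Prop) [DecidablePred P] :
    unif R (fun r => if P r then 1 else 0)
      = (Fintype.card R : ℝ)⁻¹ * (Finset.univ.filter P).card := by
  rw [unif, ← Finset.mul_sum]; simp

lemma le_unif {R : Type} [Fintype R] {g : R → ℝ} (hg : ∀ r, 0 ≤ g r) (r : R) :
    (Fintype.card R : ℝ)⁻¹ * g r ≤ unif R g :=
  Finset.single_le_sum (f := fun r => (Fintype.card R : ℝ)⁻¹ * g r)
    (fun r _ => mul_nonneg (by positivity) (hg r)) (Finset.mem_univ r)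

/-- cost factor of a search -/
def kap (t n : ℕ) : ℕ := n * ((t + 1) * (3 * 2 ^ t))

lemma QD.fsearch {q₀ q₁ : ℕ} {E : (ι → Bool) → Ex Y} (h : QD q₀ E)
    {φ : Y → (ι → Bool) → Bool} (hφ : ∀ y, Det q₁ (φ y)) (t n : ℕ) :
    ∃ E' : (ι → Bool) → Ex (Option Y), QD (kap t n * (q₀ + q₁)) E' ∧
      (∀ x g, E' x (sm g) * E x (fun y => if φ y x then 1 else 0)
        = (1 - E' x nn) * E x (fun y => if φ y x then g y else 0)) ∧
      (∀ x g, (∀ y, φ y x → g y = 0) → E' x (sm g) = 0) ∧
      ∀ x, 1 ≤ 4 ^ t * E x (fun y => if φ y x then 1 else 0) → E' x nn ≤ (9 / 10) ^ n := by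
  have hb := h.bind (K := fun y x (g : Option Y → ℝ) => g (if φ y x then some y else none))
    fun y => (hφ y).map fun b => if b then some y else none
  have hsm : ∀ x (g : Y → ℝ), (fun y => sm g (if φ y x then some y else none))
      = fun y => if φ y x then g y else 0 := fun x g => by
    funext y; split_ifs <;> simp
  have hex : ∃ S, 4 ^ t ≤ 9 ^ S := ⟨t, Nat.pow_le_pow_left (by norm_num) t⟩
  classical
  have hS : Nat.find hex ≤ t := Nat.find_min' hex (Nat.pow_le_pow_left (by norm_num) t)
  have hS2 : 3 ^ Nat.find hex ≤ 3 * 2 ^ t := by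
    rcases h0 : Nat.find hex with _ | S
    · have := Nat.one_le_two_pow (n := t); omega
    · have := Nat.find_min hex (m := S) (by omega)
      rw [show 4 = 2 ^ 2 by rfl, show 9 = 3 ^ 2 by rfl, ← pow_mul, ← pow_mul, mul_comm 2,
        mul_comm 2, pow_mul, pow_mul, not_le] at this
      have := lt_of_pow_lt_pow_left₀ 2 (by positivity) this
      rw [pow_succ]; omega
  obtain ⟨E', h1, h2, h3⟩ := hb.search (Nat.find hex) n
  refine ⟨E', h1.mono ?_, fun x g => ?_, fun x g hg => ?_, fun x hx => h3 x ?_⟩
  · rw [kap, mul_assoc n, mul_assoc (t + 1)]; gcongr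
  · obtain ⟨l, -, hl⟩ := h2 x
    simp only [hsm] at hl
    rw [(h1.isProb x).nn_eq, hl, hl]; ring
  · obtain ⟨l, -, hl⟩ := h2 x
    simp only [hsm] at hl
    rw [hl, show (fun y => if φ y x then g y else 0) = fun _ => 0 from ?_,
      (h.isProb x).const, mul_zero]
    funext y; split_ifs with c; exacts [hg y c, rfl]
  · rw [hsm]
    refine hx.trans (mul_le_mul_of_nonneg_right (by exact_mod_cast Nat.find_spec hex)
      ((h.isProb x).nonneg fun y => by split_ifs <;> norm_num))

lemma Det.forall {q n : ℕ} {φ : Fin n → (ι → Bool) → Bool} (h : ∀ i, Det q (φ i)) :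
    Det (n * q) (fun x => decide (∀ i, φ i x = true)) :=
  (Det.pi n h).map fun v => decide (∀ i, v i = true)

variable {R Addr Chk : Type} [Fintype R] [Nonempty R] [DecidableEq R] [Fintype Addr]
  [DecidableEq Addr] [Fintype Chk] [Nonempty Chk]
  (kill : Addr → R → (ι → Bool) → Bool)

/-- surviving rows -/
def Cs {i : ℕ} (l : Fin i → Addr) (x : ι → Bool) : Finset R :=
  Finset.univ.filter fun r => ∀ k, (!kill (l k) r x) = true

variable {kill} {q t n : ℕ}

lemma sampler (hk : ∀ a r, Det q (kill a r)) (ht : 2 * Fintype.card R ≤ 4 ^ t)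
    (hn : (9 / 10 : ℝ) ^ n ≤ 1 / 81) {i : ℕ} (l : Fin i → Addr) :
    ∃ S : (ι → Bool) → Ex (Option R), QD (kap t n * (i * q)) S ∧ ∀ x, (Cs kill l x).Nonempty →
      ∀ U ⊆ Cs kill l x,
        (U.card : ℝ) ≤ 2 * (Cs kill l x).card * S x (sm fun r => if r ∈ U then 1 else 0) := by
  obtain ⟨S, h1, h2, -, h3⟩ := (QD.unif R).fsearch
    (fun r => Det.forall fun k => (hk (l k) r).map not) t n
  refine ⟨S, by simpa using h1, fun x hne U hU => ?_⟩
  have hR : (0 : ℝ) < Fintype.card R := by exact_mod_cast Fintype.card_pos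
  have hC : (1 : ℝ) ≤ (Cs kill l x).card := by exact_mod_cast hne.card_pos
  have e1 : unif R (fun r => if decide (∀ k, (!kill (l k) r x) = true) = true then 1 else 0)
      = (Fintype.card R : ℝ)⁻¹ * (Cs kill l x).card := by
    rw [unif_ite]; simp [Cs]
  have e2 : unif R (fun r => if decide (∀ k, (!kill (l k) r x) = true) = true then
      (if r ∈ U then 1 else 0) else 0) = (Fintype.card R : ℝ)⁻¹ * U.card := by
    have : ∀ r, (if decide (∀ k, (!kill (l k) r x) = true) = true then
        (if r ∈ U then (1 : ℝ) else 0) else 0) = if r ∈ U then 1 else 0 := fun r => by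
      by_cases c : r ∈ U
      · rw [if_pos (by simpa [Cs] using hU c)]
      · simp [c]
    simp only [this, unif_ite]; simp
  have a := h2 x (fun r => if r ∈ U then 1 else 0)
  have b := h3 x (by
    rw [e1]
    have : (2 * Fintype.card R : ℝ) ≤ 4 ^ t := by exact_mod_cast ht
    rw [← mul_assoc, ← div_eq_mul_inv]
    have : (2 : ℝ) ≤ 4 ^ t / Fintype.card R := by rwa [le_div_iff₀ hR]
    nlinarith)
  rw [e1, e2] at a
  field_simp at a
  have : (0 : ℝ) ≤ U.card := by positivity
  nlinarith

/-- the input has a valid pair -/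
def Good (kill : Addr → R → (ι → Bool) → Bool) (dec : R → (ι → Bool) → Ex Addr) (x : ι → Bool)
    (r : R) (a : Addr) : Prop :=
  (∀ a', kill a' r x = false) ∧ (∀ r' ≠ r, kill a r' x = true) ∧
    1 / 2 ≤ dec r x (fun a' => if a' = a then 1 else 0)

variable {dec : R → (ι → Bool) → Ex Addr}

lemma Good.mem {x : ι → Bool} {r : R} {a : Addr} (h : Good kill dec x r a) {i : ℕ}
    (l : Fin i → Addr) : r ∈ Cs kill l x := by simp [Cs, h.1]

lemma round (hk : ∀ a r, Det q (kill a r)) (hd : ∀ r, QD q (dec r))
    (ht : 2 * Fintype.card R ≤ 4 ^ t) (hn : (9 / 10 : ℝ) ^ n ≤ 1 / 81) (L : ℕ) (a₀ : Addr) {i : ℕ}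
    (l : Fin i → Addr) :
    ∃ E : (ι → Bool) → Ex Addr, QD (L * (kap t n * (i * q)) + kap t n * (q + L * q)) E ∧
      ∀ x r a, Good kill dec x r a → E x (fun a' =>
        if 2 * (Cs kill (Fin.cons a' l : Fin (i + 1) → Addr) x).card ≤ (Cs kill l x).card + 2
          then 0 else 1)
        ≤ Fintype.card R * Fintype.card Addr * (3 / 4) ^ L + (9 / 10) ^ n := by
  obtain ⟨S, hS, pS⟩ := sampler hk ht hn l
  let ψ : R × Addr → Option R → (ι → Bool) → Bool := fun y o x =>
    o.elim true fun r' => decide (r' = y.1) || kill y.2 r' x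
  have hψ : ∀ y o, Det q (ψ y o) := by
    rintro y (_ | r')
    · exact (Det.const true).mono (Nat.zero_le _)
    · exact (hk y.2 r').map fun b => decide (r' = y.1) || b
  have hB := (QD.unif R).bind (K := fun r x (g : R × Addr → ℝ) => dec r x (fun a => g (r, a)))
    fun r => (hd r).map fun a => (r, a)
  choose F hF _ F0 Fn using fun v : Fin L → Option R =>
    hB.fsearch (fun y => Det.forall fun k => hψ y (v k)) t n
  refine ⟨_, ((QD.pi L fun _ => hS).bind fun v => (hF v).map fun o => o.elim a₀ Prod.snd).mono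
    (by simp), fun x r a hG => ?_⟩
  let U : R × Addr → Finset R := fun y => (Cs kill l x).filter fun r' => ψ y (some r') x = false
  let bad : R × Addr → Prop := fun y => (Cs kill l x).card < 2 * (U y).card
  have hP := piE_isProb L fun _ => hS.isProb x
  have hR : (0 : ℝ) < Fintype.card R := by exact_mod_cast Fintype.card_pos
  have h1 : ∀ v, F v x nn ≤ (9 / 10) ^ n := fun v => Fn v x <| by
    have a1 := le_unif (g := fun r => dec r x fun a =>
      if decide (∀ k, ψ (r, a) (v k) x = true) = true then 1 else 0)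
      (fun r => ((hd r).isProb x).nonneg fun a => by split_ifs <;> norm_num) r
    have a2 := hG.2.2.trans (((hd r).isProb x).mono (g' := fun a =>
      if decide (∀ k, ψ (r, a) (v k) x = true) = true then 1 else 0) fun a' => by
        by_cases c : a' = a
        · subst c
          rw [if_pos rfl, if_pos]
          simp only [decide_eq_true_eq]
          intro k
          rcases v k with _ | r'
          · rfl
          · by_cases c : r' = r <;> simp [ψ, c, hG.2.1]
        · rw [if_neg c]; split_ifs <;> norm_num)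
    have a3 : (2 * Fintype.card R : ℝ) ≤ 4 ^ t := by exact_mod_cast ht
    refine le_trans ?_ (mul_le_mul_of_nonneg_left ((mul_le_mul_of_nonneg_left a2
      (by positivity)).trans a1) (by positivity))
    rw [← mul_assoc, ← div_eq_mul_inv]
    have : (2 : ℝ) ≤ 4 ^ t / Fintype.card R := by rwa [le_div_iff₀ hR]
    linarith
  classical
  let w : R × Addr → Option R → ℝ := fun y o => 1 - sm (fun r => if r ∈ U y then 1 else 0) o
  have w0 : ∀ y o, 0 ≤ w y o := by
    rintro y (_ | r')
    · simp [w]
    · simp only [w, sm_some]; split_ifs <;> norm_num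
  have h2 : ∀ v, F v x (sm fun y => if bad y then 1 else 0)
      ≤ ∑ y ∈ Finset.univ.filter bad, ∏ k, w y (v k) := fun v => by
    have hpos : ∀ y ∈ Finset.univ.filter bad, 0 ≤ ∏ k, w y (v k) := fun y _ =>
      Finset.prod_nonneg fun k _ => w0 _ _
    by_cases c : ∃ y, bad y ∧ ∀ k, ψ y (v k) x = true
    · obtain ⟨y, c1, c2⟩ := c
      refine le_trans (((hF v).isProb x).le_const (c := 1) ?_) (le_trans (le_of_eq ?_)
        (Finset.single_le_sum hpos (a := y) (by simpa using c1)))
      · rintro (_ | y)
        · simp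
        · simp only [sm_some]; split_ifs <;> norm_num
      · refine (Finset.prod_eq_one fun k _ => ?_).symm
        have := c2 k
        rcases h : v k with _ | r'
        · simp [w]
        · rw [h] at this; simp [w, U, this]
    · rw [F0 v x]
      · exact Finset.sum_nonneg hpos
      · intro y hy
        rw [if_neg fun hb => c ⟨y, hb, by simpa using hy⟩]
  have h3 : ∀ y, bad y → S x (w y) ≤ 3 / 4 := fun y hy => by
    have a1 := pS x ⟨r, hG.mem l⟩ (U y) (Finset.filter_subset _ _)
    have a2 : ((Cs kill l x).card : ℝ) ≤ 2 * (U y).card := by exact_mod_cast hy.le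
    have a3 : (0 : ℝ) < (Cs kill l x).card := by
      exact_mod_cast Finset.card_pos.2 ⟨r, hG.mem l⟩
    simp only [w]
    rw [(hS.isProb x).sub, (hS.isProb x).const]
    nlinarith
  refine (hP.mono (g' := fun v => ∑ y ∈ Finset.univ.filter bad, ∏ k, w y (v k)
    + (fun _ => (9 / 10 : ℝ) ^ n) v) fun v => ?_).trans ?_
  · refine le_trans (((hF v).isProb x).mono (g' := fun o =>
      sm (fun y => if bad y then 1 else 0) o + nn o) ?_) ?_
    · rintro (_ | y)
      · simp only [sm_none, nn_none]; split_ifs <;> norm_num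
      · simp only [sm_some, nn_some, add_zero, Option.elim]
        by_cases c : bad y
        · rw [if_pos c]; split_ifs <;> norm_num
        · rw [if_neg c, if_pos]
          have : Cs kill (Fin.cons y.2 l : Fin (i + 1) → Addr) x ⊆ insert y.1 (U y) := by
            intro r' hr'
            by_cases c : r' = y.1
            · simp [c]
            · simpa [Cs, Fin.forall_fin_succ, U, ψ, c, and_comm] using hr'
          have := (Finset.card_le_card this).trans (Finset.card_insert_le _ _)
          simp only [bad] at c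
          omega
    · rw [((hF v).isProb x).add]
      exact add_le_add (h2 v) (h1 v)
  · rw [hP.add, hP.const, hP.sum]
    gcongr
    refine (Finset.sum_le_card_nsmul _ _ ((3 / 4) ^ L) fun y hy => ?_).trans ?_
    · rw [piE_prod L (fun _ => hS.isProb x) fun _ => w y]
      simp only [Finset.prod_const, Finset.card_univ, Fintype.card_fin]
      exact pow_le_pow_left₀ ((hS.isProb x).nonneg (w0 y)) (h3 y (by simpa using hy)) L
    · rw [nsmul_eq_mul]
      gcongr
      exact_mod_cast (Finset.card_le_univ _).trans_eq (Fintype.card_prod _ _)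

end Crest.Agent.QQ
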